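import Vale.Agent.P084.Sm.Grow

/-! A symmetric cubic form whose operators move the norm at most like the seminorm is the cube
of a linear form. -/

namespace Vale.Agent.P084.Sm

open Filter Topology Set

variable {W : Type*} [NormedAddCommGroup W] [NormedSpace ℝ W] [CompleteSpace W]

/-- The data of the algebraic lemma. -/
structure Cubic (S : W →L[ℝ] W →L[ℝ] ℝ) (C : ℝ) (φ : W → W →L[ℝ] ℝ)
    (K : W →L[ℝ] W →L[ℝ] W) : Prop where
  form : Form S C
  deriv : NormDeriv φ
  K_symm : ∀ x y, K x y = K y x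
  tot : ∀ x y z, S (K x y) z = S (K x z) y
  move : ∀ s u, u ≠ 0 → |φ u (K s u)| ≤ 2 * |S s u|

namespace Cubic

variable {S : W →L[ℝ] W →L[ℝ] ℝ} {C : ℝ} {φ : W → W →L[ℝ] ℝ} {K : W →L[ℝ] W →L[ℝ] W}
variable (D : Cubic S C φ K)
include D

theorem c12 (x y z : W) : S (K x y) z = S (K y x) z := by rw [D.K_symm]

theorem c13 (x y z : W) : S (K x y) z = S (K z y) x := by
  rw [D.c12 x y z, D.tot y x z, D.c12 y z x]

theorem cube_add (y x : W) (s : ℝ) :
    S (K (y + s • x) (y + s • x)) (y + s • x) = S (K y y) y + 3 * s * S (K y y) x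
      + 3 * s ^ 2 * S (K y x) x + s ^ 3 * S (K x x) x := by
  simp only [map_add, map_smul, add_apply, smul_apply, smul_eq_mul]
  rw [D.c12 x y y, D.tot y x y, D.c12 x y x, D.tot x x y, D.c13 x y x, D.c12 x y x]
  ring

theorem mover_full (η : W) : Mover S φ (K η) (2 * hs S η) univ := by
  refine ⟨fun u _ t => mem_univ _, fun u _ => mem_univ _, fun u _ v _ => ?_, fun u _ hu => ?_⟩
  · rw [D.tot η u v, D.form.symm]
  · have := D.form.cs η u
    have := D.move η u hu
    have := le_abs_self (φ u (K η u))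
    rw [mul_assoc]
    linarith

theorem abs_quad (η u : W) : |S (K η u) u| ≤ 2 * C * hs S η * hs S u ^ 2 := by
  have hS := D.form
  rcases eq_or_ne (hs S u) 0 with h0 | h0
  · have := hS.cs (K η u) u
    rw [h0, mul_zero] at this
    rw [h0, zero_pow two_ne_zero, mul_zero]
    exact this
  have key : ∀ η', S (K η' ((hs S u)⁻¹ • u)) ((hs S u)⁻¹ • u) ≤ C * (2 * hs S η') := by
    intro η'
    rcases le_or_gt (S (K η' ((hs S u)⁻¹ • u)) ((hs S u)⁻¹ • u)) 0 with h | h
    · exact h.trans (mul_nonneg hS.C_nonneg (mul_nonneg two_pos.le (hS.hs_nonneg _)))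
    · exact (grow hS D.deriv (D.mover_full η') (mul_nonneg two_pos.le (hS.hs_nonneg _))
        (mem_univ _) (hS.hs_normalize h0) rfl h).1
  have h1 := key η
  have h2 := key (-η)
  rw [hS.hs_neg] at h2
  simp only [map_neg, neg_apply, map_smul, smul_apply, smul_eq_mul] at h1 h2
  have hpos : 0 < hs S u := lt_of_le_of_ne (hS.hs_nonneg u) (Ne.symm h0)
  field_simp at h1 h2
  rw [abs_le]
  constructor <;> nlinarith

theorem abs_tri (η u v : W) : |S (K η u) v| ≤ 2 * C * hs S η * hs S u * hs S v := by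
  have hS := D.form
  rcases eq_or_ne (hs S v) 0 with hv | hv
  · have := hS.cs (K η u) v
    rw [hv, mul_zero] at this ⊢
    exact this
  rcases eq_or_ne (hs S u) 0 with hu | hu
  · have := hS.cs (K η v) u
    rw [hu, mul_zero, ← D.tot] at this
    rw [hu, mul_zero, zero_mul]
    exact this
  set a := (hs S u)⁻¹ • u with ha
  set b := (hs S v)⁻¹ • v with hb
  have ea : hs S a = 1 := hS.hs_normalize hu
  have eb : hs S b = 1 := hS.hs_normalize hv
  have p1 := D.abs_quad η (a + b)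
  have p2 := D.abs_quad η (a - b)
  rw [hS.hs_sq] at p1 p2
  have e1 : S (a + b) (a + b) + S (a - b) (a - b) = 4 := by
    simp only [map_add, map_sub, add_apply, sub_apply]
    rw [← hS.hs_sq a, ← hS.hs_sq b, ea, eb] at *
    ring
  have e2 : S (K η (a + b)) (a + b) - S (K η (a - b)) (a - b) = 4 * S (K η a) b := by
    simp only [map_add, map_sub, add_apply, sub_apply]
    rw [D.tot η b a]; ring
  rw [abs_le] at p1 p2
  have h4 : 2 * C * hs S η * S (a + b) (a + b) + 2 * C * hs S η * S (a - b) (a - b)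
      = 4 * (2 * C * hs S η) := by rw [← mul_add, e1]; ring
  have h5 : |S (K η a) b| ≤ 2 * C * hs S η := by
    rw [abs_le]; constructor <;> linarith
  have eu : u = hs S u • a := by rw [ha, smul_smul, mul_inv_cancel₀ hu, one_smul]
  have ev : v = hs S v • b := by rw [hb, smul_smul, mul_inv_cancel₀ hv, one_smul]
  conv_lhs => rw [eu, ev]
  simp only [map_smul, smul_apply, smul_eq_mul, abs_mul, abs_of_nonneg (hS.hs_nonneg _)]
  have := mul_le_mul_of_nonneg_left h5 (mul_nonneg (hS.hs_nonneg u) (hS.hs_nonneg v))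
  linarith

theorem hs_K (η u : W) : hs S (K η u) ≤ 2 * C * hs S η * hs S u := by
  have hS := D.form
  have h := D.abs_tri η u (K η u)
  rw [abs_le, ← hS.hs_sq] at h
  rcases (hS.hs_nonneg (K η u)).lt_or_eq with h0 | h0
  · nlinarith
  · rw [← h0]; have := hS.C_nonneg; have := hS.hs_nonneg η; have := hS.hs_nonneg u; positivity

theorem approx (η : W) {u : W} (hu : hs S u = 1) {Λ : ℝ} (hΛ : S (K η u) u = Λ) (hpos : 0 < Λ)
    {ε : ℝ} (hε : 0 < ε) : ∃ (v : W) (l : ℝ), hs S v = 1 ∧ Λ ≤ l ∧ l ≤ S (K η v) v + ε ∧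
      hs S (K η v - l • v) ≤ ε ∧ ‖v‖ ≤ 1 + 2 * hs S η / Λ := by
  have hS := D.form
  obtain ⟨v, l, hv, hl, hres, hn⟩ := (grow hS D.deriv (D.mover_full η)
    (mul_nonneg two_pos.le (hS.hs_nonneg _)) (mem_univ u) hu hΛ hpos).2 ε hε
  refine ⟨v, l, hv, hl, ?_, hres, hn⟩
  have h := hS.cs (K η v - l • v) v
  rw [hv, mul_one, map_sub, map_smul, sub_apply, smul_apply, smul_eq_mul, ← hS.hs_sq v, hv] at h
  rw [abs_le] at h
  linarith

theorem norm_phi {u : W} (hu : u ≠ 0) : ‖φ u‖ ≤ 1 :=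
  NNReal.coe_one ▸ (D.deriv u hu).le_of_lipschitz lipschitzWith_one_norm

theorem deflate {e : W} (he : hs S e = 1) {M δ : ℝ} (hδ : hs S (K e e - M • e) ≤ δ) {x : W}
    (hx : S e x = 0) : |S (K e x) x| ≤ C * (δ * ‖e‖) * hs S x ^ 2 := by
  have hS := D.form
  have hδ0 : 0 ≤ δ := (hS.hs_nonneg _).trans hδ
  rcases eq_or_ne (hs S x) 0 with h0 | h0
  · have := hS.cs (K e x) x
    rw [h0, mul_zero] at this
    rw [h0, zero_pow two_ne_zero, mul_zero]
    exact this
  set f : W →L[ℝ] ℝ := S (K e e) with hf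
  have hee : S e e = 1 := by rw [← hS.hs_sq, he, one_pow]
  have key : ∀ s : ℝ, |s| = 1 →
      s * S (K e ((hs S x)⁻¹ • x)) ((hs S x)⁻¹ • x) ≤ C * (δ * ‖e‖) := by
    intro s hs1
    set A : W →L[ℝ] W := s • (K e - f.smulRight e) with hA
    have hAu : ∀ u, A u = s • (K e u - f u • e) := fun u => by simp [hA]
    have hz : ∀ u, S e (A u) = 0 := fun u => by
      rw [hAu, map_smul, map_sub, map_smul, hee, hS.symm e (K e u), D.tot e u e]
      simp [hf]
    have hmv : Mover S φ A (δ * ‖e‖) {u | S e u = 0} := by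
      refine ⟨fun u hu t => ?_, fun u _ => hz u, fun u hu v hv => ?_, fun u hu hu0 => ?_⟩
      · show S e (orbit A u t) = 0
        rw [orbit_mem (S e) hz]; exact hu
      · have h1 : S e v = 0 := hv
        have h2 : S e u = 0 := hu
        simp only [hAu, map_smul, map_sub, smul_apply, sub_apply, smul_eq_mul]
        rw [hS.symm u (K e v), hS.symm u e, h1, h2, D.tot e u v]
        ring
      · have h2 : S e u = 0 := hu
        have h1 : |φ u (K e u)| ≤ 0 := by simpa [h2] using D.move e u hu0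
        have h3 : |f u| ≤ δ * hs S u := by
          have h := (hS.cs (K e e - M • e) u).trans
            (mul_le_mul_of_nonneg_right hδ (hS.hs_nonneg u))
          rwa [map_sub, map_smul, sub_apply, smul_apply, h2, smul_zero, sub_zero] at h
        have h4 : |φ u e| ≤ ‖e‖ := ((φ u).le_opNorm e).trans
          (mul_le_of_le_one_left (norm_nonneg e) (D.norm_phi hu0))
        rw [hAu, map_smul, map_sub, map_smul, smul_eq_mul, smul_eq_mul,
          abs_nonpos_iff.1 h1, zero_sub]
        refine (le_abs_self _).trans ?_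
        rw [abs_mul, hs1, one_mul, abs_neg, abs_mul]
        refine (mul_le_mul h3 h4 (abs_nonneg _) (mul_nonneg hδ0 (hS.hs_nonneg u))).trans (le_of_eq ?_)
        ring
    set u := (hs S x)⁻¹ • x with hu
    have huz : S e u = 0 := by rw [hu, map_smul, hx, smul_zero]
    have e1 : S (A u) u = s * S (K e u) u := by
      simp [hAu, huz]
    rcases le_or_gt (s * S (K e u) u) 0 with h | h
    · exact h.trans (by have := hS.C_nonneg; positivity)
    · exact (grow hS D.deriv hmv (by positivity) huz (hS.hs_normalize h0) e1 h).1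
  have h1 := key 1 abs_one
  have h2 := key (-1) (by simp)
  simp only [map_smul, smul_apply, smul_eq_mul] at h1 h2
  have hpos : 0 < hs S x := lt_of_le_of_ne (hS.hs_nonneg x) (Ne.symm h0)
  field_simp at h1 h2
  rw [abs_le]
  constructor <;> nlinarith

theorem res_apply {e : W} (he : hs S e = 1) {M δ : ℝ} (hδ : hs S (K e e - M • e) ≤ δ) :
    |S (K e e) e - M| ≤ δ ∧ ∀ u, S e u = 0 → |S (K e e) u| ≤ δ * hs S u := by
  have hS := D.form
  have hee : S e e = 1 := by rw [← hS.hs_sq, he, one_pow]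
  constructor
  · have h := (hS.cs (K e e - M • e) e).trans
      (mul_le_mul_of_nonneg_right hδ (hS.hs_nonneg _))
    rwa [he, mul_one, map_sub, map_smul, sub_apply, smul_apply, hee, smul_eq_mul, mul_one] at h
  · intro u hu
    have h := (hS.cs (K e e - M • e) u).trans
      (mul_le_mul_of_nonneg_right hδ (hS.hs_nonneg u))
    rwa [map_sub, map_smul, sub_apply, smul_apply, hu, smul_zero, sub_zero] at h

theorem max_cube {M q : ℝ} (hM : 0 < M) (hq : 0 < q) (hq1 : q ≤ 1)
    (hle : ∀ y, S (K y y) y ≤ M * hs S y ^ 3) {y : W} (hy : hs S y = 1)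
    (hyM : M - q ^ 4 ≤ S (K y y) y)
    {x : W} (hx : S y x = 0) (hx1 : hs S x = 1) (s : ℝ) : 3 * s * S (K y y) x
      + 3 * s ^ 2 * S (K y x) x + s ^ 3 * S (K x x) x
        ≤ q ^ 4 + M * (3 * s ^ 2 / 2 + 3 * s ^ 4 / 4 + s ^ 6 / 8) := by
  have hS := D.form
  have hC := hS.C_nonneg
  have hyy : S y y = 1 := by rw [← hS.hs_sq, hy, one_pow]
  have h := hle (y + s • x)
  rw [D.cube_add] at h
  have e : S (y + s • x) (y + s • x) = 1 + s ^ 2 := by
    have := hS.expand y x 1 s
    rw [one_smul, hyy, hx, ← hS.hs_sq x, hx1] at this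
    linarith
  have hle' : hs S (y + s • x) ≤ 1 + s ^ 2 / 2 := by
    rw [hs, e, Real.sqrt_le_iff]
    exact ⟨by positivity, by nlinarith [sq_nonneg (s ^ 2)]⟩
  have h1 := h.trans (mul_le_mul_of_nonneg_left
    (pow_le_pow_left₀ (hS.hs_nonneg _) hle' 3) hM.le)
  linarith

theorem max_first {M q : ℝ} (hM : 0 < M) (hq : 0 < q) (hq1 : q ≤ 1)
    (hle : ∀ y, S (K y y) y ≤ M * hs S y ^ 3) {y : W} (hy : hs S y = 1)
    (hyM : M - q ^ 4 ≤ S (K y y) y)
    {x : W} (hx : S y x = 0) : |S (K y y) x| ≤ (1 + 3 * M + 8 * C) * q ^ 2 * hs S x := by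
  have hS := D.form
  have hC := hS.C_nonneg
  have hyy : S y y = 1 := by rw [← hS.hs_sq, hy, one_pow]
  set P := (1 + 3 * M + 8 * C : ℝ) with hP
  have hq2 : q ^ 2 ≤ q := by nlinarith
  rcases eq_or_ne (hs S x) 0 with h0 | h0
  · have := hS.cs (K y y) x
    rw [h0, mul_zero] at this
    rw [h0, mul_zero]
    exact this
  set a := (hs S x)⁻¹ • x with ha
  have ha1 : hs S a = 1 := hS.hs_normalize h0
  have hay : S y a = 0 := by rw [ha, map_smul, hx, smul_zero]
  have b1 := D.abs_quad y a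
  have b2 := D.abs_quad a a
  rw [hy, ha1] at b1
  rw [ha1] at b2
  have hq6 : q ^ 8 ≤ q ^ 4 := pow_le_pow_of_le_one hq.le hq1 (by norm_num)
  have hq12 : q ^ 12 ≤ q ^ 4 := pow_le_pow_of_le_one hq.le hq1 (by norm_num)
  have hq64 : q ^ 6 ≤ q ^ 4 := pow_le_pow_of_le_one hq.le hq1 (by norm_num)
  have c1 := D.max_cube hM hq hq1 hle hy hyM hay ha1 (q ^ 2)
  have c2 := D.max_cube hM hq hq1 hle hy hyM hay ha1 (-q ^ 2)
  rw [abs_le] at b1 b2
  have hMq := mul_le_mul_of_nonneg_left hq6 hM.le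
  have hMq' := mul_le_mul_of_nonneg_left hq12 hM.le
  have hCq : C * q ^ 6 ≤ C * q ^ 4 := mul_le_mul_of_nonneg_left hq64 hC
  have m1 := mul_le_mul_of_nonneg_left b1.1 (by positivity : 0 ≤ 3 * q ^ 4)
  have m2 := mul_le_mul_of_nonneg_left b2.1 (by positivity : 0 ≤ q ^ 6)
  have m3 := mul_le_mul_of_nonneg_left b2.2 (by positivity : 0 ≤ q ^ 6)
  have h3 : |3 * S (K y y) a| ≤ P * q ^ 2 := by
    have hp : 0 < q ^ 2 := by positivity
    rw [abs_le]; constructor
    · refine le_of_mul_le_mul_left ?_ hp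
      rw [hP]; ring_nf at c2 m1 m3 hMq hMq' hCq ⊢
      linarith [mul_nonneg hM.le (pow_nonneg hq.le 4), mul_nonneg hC (pow_nonneg hq.le 4)]
    · refine le_of_mul_le_mul_left ?_ hp
      rw [hP]; ring_nf at c1 m1 m2 hMq hMq' hCq ⊢
      linarith [mul_nonneg hM.le (pow_nonneg hq.le 4), mul_nonneg hC (pow_nonneg hq.le 4)]
  rw [abs_mul, abs_of_pos (by norm_num : (0:ℝ) < 3)] at h3
  have h4 : |S (K y y) a| ≤ P * q ^ 2 := by nlinarith [abs_nonneg (S (K y y) a)]
  have ex : x = hs S x • a := by rw [ha, smul_smul, mul_inv_cancel₀ h0, one_smul]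
  conv_lhs => rw [ex, map_smul, smul_eq_mul, abs_mul, abs_of_nonneg (hS.hs_nonneg x)]
  have := mul_le_mul_of_nonneg_left h4 (hS.hs_nonneg x)
  linarith

theorem max_second {M q : ℝ} (hM : 0 < M) (hq : 0 < q) (hq1 : q ≤ 1)
    (hle : ∀ y, S (K y y) y ≤ M * hs S y ^ 3) {y : W} (hy : hs S y = 1)
    (hyM : M - q ^ 4 ≤ S (K y y) y)
    {x : W} (hx : S y x = 0) : S (K y x) x ≤ (M / 2 + (M + 1) * q ^ 2) * hs S x ^ 2 := by
  have hS := D.form
  have hC := hS.C_nonneg
  have hyy : S y y = 1 := by rw [← hS.hs_sq, hy, one_pow]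
  rcases eq_or_ne (hs S x) 0 with h0 | h0
  · have := hS.cs (K y x) x
    rw [h0, mul_zero] at this
    rw [h0, zero_pow two_ne_zero, mul_zero]
    exact (abs_le.1 this).2
  set a := (hs S x)⁻¹ • x with ha
  have ha1 : hs S a = 1 := hS.hs_normalize h0
  have hay : S y a = 0 := by rw [ha, map_smul, hx, smul_zero]
  have c1 := D.max_cube hM hq hq1 hle hy hyM hay ha1 q
  have c2 := D.max_cube hM hq hq1 hle hy hyM hay ha1 (-q)
  have hMq : M * q ^ 6 ≤ M * q ^ 4 := by
    refine mul_le_mul_of_nonneg_left ?_ hM.le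
    exact pow_le_pow_of_le_one hq.le hq1 (by norm_num)
  have h4 : S (K y a) a ≤ M / 2 + (M + 1) * q ^ 2 := by
    have hp : 0 < q ^ 2 := by positivity
    refine le_of_mul_le_mul_left ?_ hp
    ring_nf at c1 c2 hMq ⊢
    linarith [mul_nonneg hM.le (pow_nonneg hq.le 4), pow_nonneg hq.le 4]
  simp only [ha, map_smul, smul_apply, smul_eq_mul] at h4
  have hpos : 0 < hs S x := lt_of_le_of_ne (hS.hs_nonneg x) (Ne.symm h0)
  field_simp at h4
  linarith

theorem max_res {M q : ℝ} (hM : 0 < M) (hq : 0 < q) (hq1 : q ≤ 1)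
    (hle : ∀ y, S (K y y) y ≤ M * hs S y ^ 3) {y : W} (hy : hs S y = 1)
    (hyM : M - q ^ 4 ≤ S (K y y) y) :
    hs S (K y y - M • y) ≤ (1 + 3 * M + 8 * C + 1) * q := by
  have hS := D.form
  have hC := hS.C_nonneg
  have hyy : S y y = 1 := by rw [← hS.hs_sq, hy, one_pow]
  set P := (1 + 3 * M + 8 * C : ℝ) with hP
  have hP0 : 0 < P := by positivity
  have hq2 : q ^ 2 ≤ q := by nlinarith
  have hq4 : q ^ 4 ≤ q := by nlinarith
  have hyle : S (K y y) y ≤ M := by simpa [hy] using hle y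
  set c := S (K y y) y
  have h1 : hs S (K y y - c • y) ≤ P * q ^ 2 := by
    have h0 : S y (K y y - c • y) = 0 := by
      rw [map_sub, map_smul, hyy, hS.symm y (K y y)]; simp [c]
    have h : _ ≤ P * q ^ 2 * _ := D.max_first hM hq hq1 hle hy hyM h0
    have e : S (K y y - c • y) (K y y - c • y) = S (K y y) (K y y - c • y) := by
      rw [map_sub S, sub_apply, map_smul, smul_apply, h0, smul_zero, sub_zero]
    rw [← e, ← hS.hs_sq, abs_of_nonneg (sq_nonneg _)] at h
    rcases (hS.hs_nonneg (K y y - c • y)).lt_or_eq with h2 | h2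
    · nlinarith
    · rw [← h2]; positivity
  have e2 : K y y - M • y = (K y y - c • y) + (c - M) • y := by module
  rw [e2]
  refine (hS.hs_add_le _ _).trans ?_
  rw [hS.hs_smul, hy, mul_one, abs_of_nonpos (by linarith)]
  nlinarith

theorem idem_close {M q l : ℝ} (hM : 0 < M) (hq : 0 < q) (hq1 : q ≤ 1)
    (hle : ∀ y, S (K y y) y ≤ M * hs S y ^ 3) {y v : W} (hy : hs S y = 1)
    (hyM : M - q ^ 4 ≤ S (K y y) y) (hv : hs S v = 1) (hl : S (K y y) y ≤ l)
    (hlu : l ≤ S (K y v) v + q ^ 2) (ha : 0 ≤ S y v) :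
    hs S (v - y) ≤ Real.sqrt (4 * (2 * (1 + 3 * M + 8 * C) + M + 3) / M) * q := by
  have hS := D.form
  have hC := hS.C_nonneg
  set P := (1 + 3 * M + 8 * C : ℝ) with hP
  set R := (2 * P + M + 3 : ℝ) with hR
  have hP0 : 0 < P := by positivity
  have hq42 : q ^ 4 ≤ q ^ 2 := pow_le_pow_of_le_one hq.le hq1 (by norm_num)
  have hyy : S y y = 1 := by rw [← hS.hs_sq, hy, one_pow]
  have hyle : S (K y y) y ≤ M := by simpa [hy] using hle y
  have first : ∀ x, S y x = 0 → |S (K y y) x| ≤ P * q ^ 2 * hs S x :=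
    fun x hx => D.max_first hM hq hq1 hle hy hyM hx
  have second := fun x hx => D.max_second hM hq hq1 hle hy hyM (x := x) hx
  set a := S y v
  set x := v - a • y with hx
  have hyx : S y x = 0 := by simp [hx, hyy, a]
  have hxx : S x x = 1 - a ^ 2 := by
    have := hS.expand v y 1 (-a)
    rw [one_smul, ← hS.hs_sq v, hv, hyy, hS.symm v y] at this
    have ex : x = v + (-a) • y := by rw [hx]; module
    rw [ex, this]; ring
  have hvq : S (K y v) v = a ^ 2 * S (K y y) y + 2 * a * S (K y y) x + S (K y x) x := by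
    have ev : v = a • y + x := by rw [hx]; module
    conv_lhs => rw [ev]
    simp only [map_add, map_smul, add_apply, smul_apply, smul_eq_mul]
    rw [D.tot y x y]; ring
  have hxs : hs S x ^ 2 = 1 - a ^ 2 := by rw [hS.hs_sq, hxx]
  have hx1 : hs S x ≤ 1 := by nlinarith [sq_nonneg a, hS.hs_nonneg x]
  have ha1 : a ≤ 1 := by nlinarith [sq_nonneg (hs S x)]
  have hgap : (1 - a ^ 2) * M ≤ 2 * R * q ^ 2 := by
    have t1 := (abs_le.1 (first x hyx)).2
    have t2 := second x hyx
    have t3 : 2 * a * S (K y y) x ≤ 2 * P * q ^ 2 := by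
      have := mul_le_mul_of_nonneg_left t1 ha
      have h5 : a * hs S x ≤ 1 := by nlinarith [hS.hs_nonneg x]
      have := mul_le_mul_of_nonneg_left h5 (by positivity : 0 ≤ P * q ^ 2)
      linarith
    have t4 := mul_le_mul_of_nonneg_left hyle (sq_nonneg a)
    rw [hxs] at t2
    have t5 : (M + 1) * q ^ 2 * (1 - a ^ 2) ≤ (M + 1) * q ^ 2 :=
      mul_le_of_le_one_right (by positivity) (by nlinarith [sq_nonneg a])
    rw [hR]
    linarith
  refine (sq_le_sq₀ (hS.hs_nonneg _) (by positivity)).1 ?_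
  rw [hS.hs_sq, mul_pow, Real.sq_sqrt (by positivity)]
  have := hS.expand v y 1 (-1)
  rw [one_smul, ← hS.hs_sq v, hv, hyy, hS.symm v y] at this
  have e3 : v - y = v + (-1 : ℝ) • y := by module
  rw [e3, this, div_mul_eq_mul_div, le_div_iff₀ hM]
  have : 2 * (1 - a) * M ≤ 2 * (1 - a ^ 2) * M := by
    gcongr; nlinarith
  linarith

/-- Near maximisers of the cubic are near idempotents, with a bound on the norm. -/
theorem exists_idem {M : ℝ} (hM : 0 < M) (hle : ∀ y, S (K y y) y ≤ M * hs S y ^ 3)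
    (hnear : ∀ δ, 0 < δ → ∃ y, hs S y = 1 ∧ M - δ ≤ S (K y y) y) {δ : ℝ} (hδ : 0 < δ) :
    ∃ e, hs S e = 1 ∧ ‖e‖ ≤ 1 + 4 / M ∧ hs S (K e e - M • e) ≤ δ := by
  have hS := D.form
  have hC := hS.C_nonneg
  set P := (1 + 3 * M + 8 * C : ℝ) with hP
  set R := (2 * P + M + 3 : ℝ) with hR
  set H := (8 * C + M) * Real.sqrt (4 * R / M) + (P + 1) with hH
  have hP0 : 0 < P := by positivity
  have hH0 : 0 < H := by positivity
  set q := min (min 1 (δ / H)) (M / 2) with hqd
  have hq : 0 < q := lt_min (lt_min one_pos (div_pos hδ hH0)) (by linarith)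
  have hq1 : q ≤ 1 := (min_le_left _ _).trans (min_le_left _ _)
  have hq2 : q ^ 2 ≤ q := by nlinarith
  have hq4 : q ^ 4 ≤ q := by nlinarith
  have hq42 : q ^ 4 ≤ q ^ 2 := by nlinarith
  obtain ⟨y, hy, hyM⟩ := hnear (q ^ 4) (by positivity)
  have hyy : S y y = 1 := by rw [← hS.hs_sq, hy, one_pow]
  have hyle : S (K y y) y ≤ M := by simpa [hy] using hle y
  have first : ∀ x, S y x = 0 → |S (K y y) x| ≤ P * q ^ 2 * hs S x :=
    fun x hx => D.max_first hM hq hq1 hle hy hyM hx
  have second := fun x hx => D.max_second hM hq hq1 hle hy hyM (x := x) hx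
  have hres : hs S (K y y - M • y) ≤ (P + 1) * q := D.max_res hM hq hq1 hle hy hyM
  have hpos : 0 < S (K y y) y := by
    have := min_le_right (min 1 (δ / H)) (M / 2)
    rw [← hqd] at this
    linarith
  obtain ⟨v₁, l, hv₁, hl, hlu, -, hn₁⟩ := D.approx y hy rfl hpos (ε := q ^ 2) (by positivity)
  obtain ⟨v, hv, hn, hlu, ha⟩ : ∃ v, hs S v = 1 ∧ ‖v‖ ≤ 1 + 2 * hs S y / S (K y y) y ∧
      l ≤ S (K y v) v + q ^ 2 ∧ 0 ≤ S y v := by
    rcases le_total 0 (S y v₁) with h | h
    · exact ⟨v₁, hv₁, hn₁, hlu, h⟩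
    · exact ⟨-v₁, by rw [hS.hs_neg, hv₁], by rwa [norm_neg], by simpa using hlu, by simpa using h⟩
  have hvy : hs S (v - y) ≤ Real.sqrt (4 * R / M) * q :=
    D.idem_close hM hq hq1 hle hy hyM hv hl hlu ha
  refine ⟨v, hv, ?_, ?_⟩
  · refine hn.trans ?_
    rw [hy, mul_one]
    have hq4' : q ^ 4 ≤ M / 2 := hq4.trans (min_le_right _ _)
    have : M / 2 ≤ S (K y y) y := by linarith
    have h2 : 2 / S (K y y) y ≤ 2 / (M / 2) := by gcongr
    have h3 : (2:ℝ) / (M / 2) = 4 / M := by field_simp; ring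
    linarith
  · have e4 : K v v - M • v = K (v - y) v + K y (v - y) + (K y y - M • y) + (-M) • (v - y) := by
      simp only [map_sub, sub_apply]; module
    rw [e4]
    have t1 := D.hs_K (v - y) v
    have t2 := D.hs_K y (v - y)
    rw [hv, mul_one] at t1
    rw [hy] at t2
    have t3 : hs S ((-M) • (v - y)) = M * hs S (v - y) := by
      rw [hS.hs_smul, abs_neg, abs_of_pos hM]
    have s1 := hS.hs_add_le (K (v - y) v + K y (v - y) + (K y y - M • y)) ((-M) • (v - y))
    have s2 := hS.hs_add_le (K (v - y) v + K y (v - y)) (K y y - M • y)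
    have s3 := hS.hs_add_le (K (v - y) v) (K y (v - y))
    have s4 := mul_le_mul_of_nonneg_left hvy (by positivity : (0:ℝ) ≤ 8 * C + M)
    have s5 : H * q ≤ δ := by
      have : q ≤ δ / H := (min_le_left _ _).trans (min_le_right _ _)
      rw [le_div_iff₀ hH0] at this
      linarith
    have s6 := mul_nonneg hC (hS.hs_nonneg (v - y))
    have e5 : H * q = (8 * C + M) * (Real.sqrt (4 * R / M) * q) + (P + 1) * q := by rw [hH]; ring
    linarith

theorem cross {M δ C1 : ℝ} {e : W} (he : hs S e = 1) (heC : ‖e‖ ≤ C1)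
    (hres : hs S (K e e - M • e) ≤ δ) {u : W} (w : W) (hu : S e u = 0) :
    |S (K e u) w| ≤ (1 + 2 * C * C1) * δ * hs S u * (2 * hs S w) := by
  have hS := D.form
  have hC := hS.C_nonneg
  have hδ0 : 0 ≤ δ := (hS.hs_nonneg _).trans hres
  have hC1 : 0 ≤ C1 := (norm_nonneg e).trans heC
  have hee : S e e = 1 := by rw [← hS.hs_sq, he, one_pow]
  set Dd := 1 + 2 * C * C1 with hDd
  set a := S e w
  have hw' : S e (w - a • e) = 0 := by simp [a, hee]
  have ha : |a| ≤ hs S w := by simpa [a, he] using hS.cs e w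
  have hw'' : hs S (w - a • e) ≤ 2 * hs S w := by
    refine (hS.hs_sub_le _ _).trans ?_
    rw [hS.hs_smul, he, mul_one]; linarith
  have h1 : |S (K e u) e| ≤ δ * hs S u := by
    rw [D.tot e u e]
    have h := (hS.cs (K e e - M • e) u).trans (mul_le_mul_of_nonneg_right hres (hS.hs_nonneg u))
    rwa [map_sub, map_smul, sub_apply, smul_apply, hu, smul_zero, sub_zero] at h
  have h2 : ∀ u' w', S e u' = 0 → S e w' = 0 → hs S u' = 1 → hs S w' = 1 →
      |S (K e u') w'| ≤ C * (δ * ‖e‖) := by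
    intro u' w' hu' hw1 hu1 hw2
    have p1 := D.deflate he hres (x := u' + w') (by simp [hu', hw1])
    have p2 := D.deflate he hres (x := u' - w') (by simp [hu', hw1])
    rw [hS.hs_sq] at p1 p2
    simp only [map_add, map_sub, add_apply, sub_apply, hS.symm w' u', D.tot e w' u',
      ← hS.hs_sq u', ← hS.hs_sq w', hu1, hw2] at p1 p2
    rw [abs_le] at p1 p2 ⊢
    constructor <;> linarith
  have h3 : |S (K e u) (w - a • e)| ≤ C * (δ * ‖e‖) * hs S u * hs S (w - a • e) := by
    rcases eq_or_ne (hs S (w - a • e)) 0 with h | h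
    · have := hS.cs (K e u) (w - a • e)
      rw [h, mul_zero] at this ⊢
      exact this
    rcases eq_or_ne (hs S u) 0 with h' | h'
    · have := hS.cs (K e (w - a • e)) u
      rw [h', mul_zero, ← D.tot] at this
      rw [h', mul_zero, zero_mul]
      exact this
    have := h2 ((hs S u)⁻¹ • u) ((hs S (w - a • e))⁻¹ • (w - a • e))
      (by rw [map_smul, hu, smul_zero]) (by rw [map_smul, hw', smul_zero]) (hS.hs_normalize h')
      (hS.hs_normalize h)
    rw [map_smul, map_smul, map_smul, smul_apply, smul_eq_mul, smul_eq_mul, abs_mul, abs_mul,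
      abs_inv, abs_inv, abs_of_nonneg (hS.hs_nonneg _), abs_of_nonneg (hS.hs_nonneg _)] at this
    have p1 : 0 < hs S u := lt_of_le_of_ne (hS.hs_nonneg u) (Ne.symm h')
    have p2 : 0 < hs S (w - a • e) := lt_of_le_of_ne (hS.hs_nonneg _) (Ne.symm h)
    field_simp at this
    linarith
  have e0 : S (K e u) w = a * S (K e u) e + S (K e u) (w - a • e) := by simp
  rw [e0]
  have hu0 := hS.hs_nonneg u
  refine (abs_add_le _ _).trans ?_
  rw [abs_mul]
  have t1 := mul_le_mul ha h1 (abs_nonneg _) (hS.hs_nonneg w)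
  have t2 := mul_le_mul_of_nonneg_left hw'' (by positivity : 0 ≤ C * (δ * C1) * hs S u)
  have t3 : C * (δ * ‖e‖) * hs S u * hs S (w - a • e) ≤ C * (δ * C1) * hs S u * hs S (w - a • e) := by
    have := hS.hs_nonneg (w - a • e)
    gcongr
  have t4 : 0 ≤ δ * hs S u * hs S w := by have := hS.hs_nonneg w; positivity
  have t5 : 0 ≤ C * (δ * C1) * hs S u * hs S w := by have := hS.hs_nonneg w; positivity
  rw [hDd]
  linarith

theorem cross_hs {M δ C1 : ℝ} {e : W} (he : hs S e = 1) (heC : ‖e‖ ≤ C1)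
    (hres : hs S (K e e - M • e) ≤ δ) {u : W} (hu : S e u = 0) :
    hs S (K e u) ≤ 2 * (1 + 2 * C * C1) * δ * hs S u := by
  have hS := D.form
  have hC := hS.C_nonneg
  have hδ0 : 0 ≤ δ := (hS.hs_nonneg _).trans hres
  have hC1 : 0 ≤ C1 := (norm_nonneg e).trans heC
  have h := D.cross he heC hres (K e u) hu
  rw [← hS.hs_sq, abs_of_nonneg (sq_nonneg _)] at h
  rcases (hS.hs_nonneg (K e u)).lt_or_eq with h0 | h0
  · nlinarith
  · rw [← h0]; have := hS.hs_nonneg u; positivity

theorem cross_gen {M δ C1 E : ℝ} (hM : 0 < M) (hE : 0 ≤ E) (hδ1 : δ ≤ 1) {e v : W}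
    (he : hs S e = 1) (heC : ‖e‖ ≤ C1) (hres : hs S (K e e - M • e) ≤ δ) (hv : hs S v = 1)
    (hSev : |S e v| ≤ 2 * E * δ) :
    hs S (K e v) ≤ 2 * E * δ * (M + 1) + 4 * (1 + 2 * C * C1) * δ := by
  have hS := D.form
  have hC := hS.C_nonneg
  have hδ0 : 0 ≤ δ := (hS.hs_nonneg _).trans hres
  have hC1 : 0 ≤ C1 := (norm_nonneg e).trans heC
  have hee : S e e = 1 := by rw [← hS.hs_sq, he, one_pow]
  set Dd := 1 + 2 * C * C1 with hDd
  have hK := fun u hu => D.cross_hs he heC hres (u := u) hu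
  set a := S e v
  have hv' : S e (v - a • e) = 0 := by simp [a, hee]
  have e2 : K e v = a • K e e + K e (v - a • e) := by simp
  rw [e2]
  refine (hS.hs_add_le _ _).trans (add_le_add ?_ ?_)
  · rw [hS.hs_smul]
    refine mul_le_mul hSev ?_ (hS.hs_nonneg _) (by positivity)
    have : K e e = (K e e - M • e) + M • e := by module
    rw [this]
    refine (hS.hs_add_le _ _).trans ?_
    rw [hS.hs_smul, he, abs_of_pos hM]
    linarith
  · refine (hK _ hv').trans ?_
    have : hs S (v - a • e) ≤ 2 := by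
      refine (hS.hs_sub_le _ _).trans ?_
      have := hS.cs e v
      rw [he, hv, one_mul] at this
      rw [hS.hs_smul, he, hv]
      linarith
    have := mul_le_mul_of_nonneg_left this (by positivity : 0 ≤ 2 * Dd * δ)
    linarith

/-- A controlled approximate eigenvector orthogonal to its weight. -/
theorem second_vec {M : ℝ} (hM : 0 < M) {δ₀ : ℝ} (hδ₀ : 0 < δ₀) {C1 : ℝ} (hC1 : 0 ≤ C1) :
    ∃ b' C3 eb G ε₁ : ℝ, 0 ≤ b' ∧ 0 ≤ C3 ∧ 0 ≤ eb ∧ 0 ≤ G ∧ 0 < ε₁ ∧
      ∀ δ e x, 0 < δ → δ ≤ 1 → δ ≤ ε₁ → hs S e = 1 → ‖e‖ ≤ C1 → hs S (K e e - M • e) ≤ δ →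
      S e x = 0 → hs S x = 1 → δ₀ ≤ S (K x x) x → ∃ η w l, δ₀ ≤ l ∧ l ≤ b' ∧ hs S η ≤ eb ∧
        S η w = 0 ∧ w ≠ 0 ∧ δ₀ / (2 * M) ≤ hs S w ∧ ‖w‖ ≤ C3 ∧
          hs S (K η w - l • w) ≤ 2 * G * δ := by
  have hS := D.form
  have hC := hS.C_nonneg
  set b' := 2 * C + 1 with hb'
  set C2 := 1 + 2 / δ₀ with hC2
  set ab := b' / M with hab
  set eb := ab + 1 with heb
  set C3 := eb * C1 + ab * C2 with hC3
  set Dd := 1 + 2 * C * C1 with hDd
  set E := (Dd + 1) / δ₀ with hE
  set G := eb * (ab + Dd) + ab * (1 + ab * (E * (M + 1) + 2 * Dd)) with hG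
  set q₀ := δ₀ / (2 * M) with hq₀
  have hb0 : 0 < b' := by positivity
  have hC20 : 0 < C2 := by positivity
  refine ⟨b', C3, eb, G, 3 * q₀ ^ 2 / (4 * eb * ab * E + 1), hb0.le, by positivity, by positivity,
    by positivity, by positivity, fun δ e x hδ0 hδ1 hδε he heC hres hx hx1 hbig => ?_⟩
  have hee : S e e = 1 := by rw [← hS.hs_sq, he, one_pow]
  have hxx : S x x = 1 := by rw [← hS.hs_sq, hx1, one_pow]
  -- cross terms
  have hd : ∀ u w : W, S e u = 0 → |S (K e u) w| ≤ Dd * δ * hs S u * (2 * hs S w) :=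
    fun u w hu => D.cross he heC hres w hu
  have hK : ∀ u, S e u = 0 → hs S (K e u) ≤ 2 * Dd * δ * hs S u :=
    fun u hu => D.cross_hs he heC hres hu
  -- a controlled second eigenvector
  obtain ⟨v, l, hv, hl, hlu, hvr, hvn⟩ := D.approx x hx1 rfl (hδ₀.trans_le hbig) hδ0
  have hlb : l ≤ b' := by
    have := (abs_le.1 (D.abs_quad x v)).2
    rw [hx1, hv] at this
    linarith
  have hl0 : 0 < l := by linarith
  have hvC : ‖v‖ ≤ C2 := by
    refine hvn.trans ?_
    rw [hx1, hC2, mul_one]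
    gcongr
  have hSev : |S e v| ≤ 2 * E * δ := by
    have h1 := hS.cs (K x v - l • v) e
    rw [he, mul_one, map_sub, map_smul, sub_apply, smul_apply, smul_eq_mul, hS.symm v e] at h1
    have h2 := hd x v hx
    rw [hx1, hv, D.c13 e x v, D.c12 v x e] at h2
    rw [abs_le] at h1 h2
    have h3 : |l * S e v| ≤ (2 * (Dd + 1)) * δ := by
      rw [abs_le]; constructor <;> linarith
    rw [abs_mul, abs_of_pos hl0] at h3
    have h4 := mul_le_mul_of_nonneg_right (show δ₀ ≤ l by linarith) (abs_nonneg (S e v))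
    have e : δ₀ * (2 * E * δ) = 2 * (Dd + 1) * δ := by rw [hE]; field_simp
    exact le_of_mul_le_mul_left (by linarith) hδ₀
  set α := l / M with hα
  have hα0 : 0 < α := by positivity
  have hαb : α ≤ ab := by rw [hα, hab]; gcongr
  set η := α • e + x with hη
  have hηe : S η e = α := by simp [hη, hee, hS.symm x e, hx]
  have hηn : hs S η ≤ eb := by
    refine (hS.hs_add_le _ _).trans ?_
    rw [hS.hs_smul, he, abs_of_pos hα0, hx1, mul_one]
    linarith
  set p := -S η v
  have hp : |p| ≤ eb := by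
    rw [abs_neg]
    have := hS.cs η v
    rw [hv, mul_one] at this
    exact this.trans hηn
  set w := p • e + α • v with hw
  have hηw : S η w = 0 := by simp [hw, hηe, p]; ring
  have hq0α : 2 * q₀ ≤ α := by
    have e : 2 * q₀ = δ₀ / M := by rw [hq₀]; field_simp
    rw [e, hα]; gcongr; linarith
  have hwq : q₀ ≤ hs S w := by
    refine Real.le_sqrt_of_sq_le ?_
    have := hS.expand e v p α
    rw [hee, ← hS.hs_sq v, hv] at this
    rw [hw, this]
    have h1 : |2 * p * α * S e v| ≤ 3 * q₀ ^ 2 := by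
      rw [abs_mul, abs_mul, abs_mul, abs_two, abs_of_pos hα0]
      have hden : 0 < 4 * eb * ab * E + 1 := by positivity
      have h2 : δ * (4 * eb * ab * E + 1) ≤ 3 * q₀ ^ 2 :=
        (le_div_iff₀ hden).1 hδε
      have h3 : |p| * α * |S e v| ≤ eb * ab * (2 * E * δ) :=
        mul_le_mul (mul_le_mul hp hαb hα0.le (by positivity)) hSev (abs_nonneg _) (by positivity)
      linarith
    rw [abs_le] at h1
    have h5 : (2 * q₀) ^ 2 ≤ α ^ 2 := pow_le_pow_left₀ (by positivity) hq0α 2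
    linarith [sq_nonneg p]
  have hw0 : w ≠ 0 := by
    intro h; rw [h] at hwq; simp [hs] at hwq
    have : (0:ℝ) < q₀ := by positivity
    linarith
  have hwn : ‖w‖ ≤ C3 := by
    refine (norm_add_le _ _).trans ?_
    rw [norm_smul, norm_smul, Real.norm_eq_abs, Real.norm_of_nonneg hα0.le]
    exact add_le_add (mul_le_mul hp heC (norm_nonneg _) (by positivity))
      (mul_le_mul hαb hvC (norm_nonneg _) (by positivity))
  have hwr : hs S (K η w - l • w) ≤ 2 * G * δ := by
    have e1 : K η w - l • w = p • (α • (K e e - M • e) + K e x)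
        + α • ((K x v - l • v) + α • K e v) := by
      have hαM : α * M = l := div_mul_cancel₀ _ hM.ne'
      rw [hη, hw, ← hαM]
      simp only [map_add, map_smul, add_apply, smul_apply, D.K_symm x e]
      module
    have hKev : hs S (K e v) ≤ 2 * E * δ * (M + 1) + 4 * Dd * δ :=
      D.cross_gen hM (by positivity) hδ1 he heC hres hv hSev
    have h1 : hs S (α • (K e e - M • e) + K e x) ≤ ab * δ + 2 * Dd * δ := by
      refine (hS.hs_add_le _ _).trans (add_le_add ?_ ?_)
      · rw [hS.hs_smul, abs_of_pos hα0]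
        exact mul_le_mul hαb hres (hS.hs_nonneg _) (by positivity)
      · simpa [hx1] using hK x hx
    have h2 : hs S ((K x v - l • v) + α • K e v) ≤ δ + ab * (2 * E * δ * (M + 1) + 4 * Dd * δ) := by
      refine (hS.hs_add_le _ _).trans (add_le_add hvr ?_)
      rw [hS.hs_smul, abs_of_pos hα0]
      exact mul_le_mul hαb hKev (hS.hs_nonneg _) (by positivity)
    rw [e1]
    refine (hS.hs_add_le _ _).trans ?_
    rw [hS.hs_smul, hS.hs_smul, abs_of_pos hα0]
    have t1 := mul_le_mul hp h1 (hS.hs_nonneg _) (by positivity)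
    have t2 := mul_le_mul hαb h2 (hS.hs_nonneg _) (by positivity)
    have : 0 ≤ eb * (ab * δ) + ab * δ := by positivity
    rw [hG]
    linarith
  exact ⟨η, w, l, hbig.trans hl, hlb, hηn, hηw, hw0, hwq, hwn, hwr⟩

/-- Near an idempotent the cubic is small on the orthogonal hyperplane. -/
theorem perp_small {M : ℝ} (hM : 0 < M) {δ₀ : ℝ} (hδ₀ : 0 < δ₀) {C1 : ℝ} (hC1 : 0 ≤ C1) :
    ∃ δ > (0 : ℝ), ∀ e, hs S e = 1 → ‖e‖ ≤ C1 → hs S (K e e - M • e) ≤ δ →
      ∀ x, S e x = 0 → hs S x = 1 → S (K x x) x < δ₀ := by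
  have hS := D.form
  have hC := hS.C_nonneg
  obtain ⟨b', C3, eb, G, ε₁, hb0, hC30, heb, hG0, hε₁, key⟩ := D.second_vec hM hδ₀ hC1
  set q₀ := δ₀ / (2 * M) with hq₀
  have hq₀0 : 0 < q₀ := by positivity
  set T := (C * C3 + 1) / (q₀ * δ₀) with hT
  set kb := 2 * (2 * C * eb) + 1 + 2 * b' with hkb
  set Z := (1 + 2 * C * T * eb) * G * Real.sqrt (T * Real.exp (kb * T)) with hZ
  have hT0 : 0 ≤ T := by positivity
  set δ := min (min 1 (1 / (2 * (Z + 1)))) ε₁ with hδd
  have hδ0 : 0 < δ := lt_min (lt_min one_pos (by positivity)) hε₁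
  refine ⟨δ, hδ0, fun e he heC hres x hx hx1 => ?_⟩
  by_contra! hbig
  obtain ⟨η, w, l, hl, hlb, hηn, hηw, hw0, hwq, hwn, hwr⟩ :=
    key δ e x hδ0 ((min_le_left _ _).trans (min_le_left _ _)) (min_le_right _ _) he heC hres hx hx1 hbig
  have hl0 : 0 < l := hδ₀.trans_le hl
  have hmain := near_eigen hS D.deriv (A := K η) (β := 2 * C * eb) (fun u => ?_)
    (fun u hu => (le_abs_self _).trans (D.move η u hu)) hηw hw0 hl0.le (by positivity)
    (by positivity) hwr hT0
  swap
  · refine (D.hs_K η u).trans ?_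
    have := hS.hs_nonneg u
    gcongr
  have hexp : C * C3 + 1 + q₀ ≤ Real.exp (l * T) * hs S w := by
    have h1 : δ₀ * T + 1 ≤ Real.exp (l * T) :=
      le_trans (by gcongr) (Real.add_one_le_exp _)
    have h2 := mul_le_mul h1 hwq (by positivity) (Real.exp_nonneg _)
    have e : (δ₀ * T + 1) * q₀ = C * C3 + 1 + q₀ := by rw [hT]; field_simp
    linarith
  have hsmall : (1 + 2 * C * T * hs S η) *
      (2 * G * δ * Real.sqrt (T * Real.exp ((2 * (2 * C * eb) + 1 + 2 * l) * T))) < 1 := by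
    have h1 : Real.sqrt (T * Real.exp ((2 * (2 * C * eb) + 1 + 2 * l) * T))
        ≤ Real.sqrt (T * Real.exp (kb * T)) := by rw [hkb]; gcongr
    have h2 : (1 + 2 * C * T * hs S η) *
        (2 * G * δ * Real.sqrt (T * Real.exp ((2 * (2 * C * eb) + 1 + 2 * l) * T)))
        ≤ 2 * δ * Z := by
      have e : 2 * δ * Z = (1 + 2 * C * T * eb) * (2 * G * δ * Real.sqrt (T * Real.exp (kb * T))) := by
        rw [hZ]; ring
      rw [e]
      have := hS.hs_nonneg η
      gcongr
    have h3 : δ * (2 * (Z + 1)) ≤ 1 :=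
      (le_div_iff₀ (by positivity)).1 ((min_le_left _ _).trans (min_le_right _ _))
    linarith
  have := mul_le_mul_of_nonneg_left hwn hC
  have : (0:ℝ) < q₀ := by positivity
  linarith

/-- The cubic form is the cube of a linear form. -/
theorem rank_one (x y z b : W) : S (K x y) z * S (K b b) b ^ 2
    = S (K x b) b * S (K y b) b * S (K z b) b := by
  have hS := D.form
  have hC := hS.C_nonneg
  by_cases hzero : ∀ u, S (K u u) u = 0
  · have hall : ∀ x y z, S (K x y) z = 0 := by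
      intro x y z
      have h2 : ∀ x y, S (K y y) x = 0 := fun x y => by
        have h1 := D.cube_add y x 1
        have h3 := D.cube_add y x (-1)
        rw [hzero, hzero, hzero] at h1 h3
        linarith
      have h1 := h2 z (x + y)
      simp only [map_add, add_apply, h2, D.c12 y x z] at h1
      linarith
    simp [hall]
  push Not at hzero
  obtain ⟨u₀, hu₀⟩ := hzero
  set V := {r | ∃ u, hs S u = 1 ∧ r = S (K u u) u} with hV
  have hbdd : BddAbove V := ⟨2 * C, by
    rintro r ⟨u, hu, rfl⟩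
    simpa [hu] using (abs_le.1 (D.abs_quad u u)).2⟩
  have hu₀h : hs S u₀ ≠ 0 := by
    intro h
    have := D.abs_quad u₀ u₀
    rw [h, mul_zero, zero_mul] at this
    exact hu₀ (abs_nonpos_iff.1 this)
  have hpos₀ : 0 < hs S u₀ := lt_of_le_of_ne (hS.hs_nonneg u₀) (Ne.symm hu₀h)
  have hne : V.Nonempty := ⟨_, _, hS.hs_normalize hu₀h, rfl⟩
  set M := sSup V with hMdef
  have hle : ∀ y, S (K y y) y ≤ M * hs S y ^ 3 := by
    intro y
    rcases eq_or_ne (hs S y) 0 with h | h
    · have := D.abs_quad y y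
      rw [h, mul_zero, zero_mul] at this
      rw [h, zero_pow three_ne_zero, mul_zero, abs_nonpos_iff.1 this]
    have h1 := le_csSup hbdd ⟨_, hS.hs_normalize h, rfl⟩
    have hp : 0 < hs S y := lt_of_le_of_ne (hS.hs_nonneg y) (Ne.symm h)
    simp only [map_smul, smul_apply, smul_eq_mul] at h1
    rw [← hMdef] at h1
    field_simp at h1
    linarith
  have hM : 0 < M := by
    have h1 := hle u₀
    have h2 := hle (-u₀)
    simp only [map_neg, neg_apply, hS.hs_neg, neg_neg] at h2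
    have h3 : 0 < hs S u₀ ^ 3 := by positivity
    rcases lt_or_gt_of_ne hu₀ with h | h <;> nlinarith
  have hnear : ∀ δ, 0 < δ → ∃ y, hs S y = 1 ∧ M - δ ≤ S (K y y) y := by
    intro δ hδ
    obtain ⟨r, ⟨y, hy, rfl⟩, hr⟩ := exists_lt_of_lt_csSup hne (sub_lt_self M hδ)
    exact ⟨y, hy, hr.le⟩
  choose e he heC her using fun n : ℕ =>
    D.exists_idem hM hle hnear (δ := 1 / ((n : ℝ) + 1)) (by positivity)
  have hlim : ∀ u, Tendsto (fun n => M * S (e n) u ^ 3) atTop (𝓝 (S (K u u) u)) := by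
    intro u
    rw [Metric.tendsto_atTop]
    intro ε hε
    set C1 := 1 + 4 / M
    have hC1 : 0 ≤ C1 := by positivity
    set B := hs S u + 1
    have hB : 0 < B := by have := hS.hs_nonneg u; positivity
    obtain ⟨δ, hδ, hperp⟩ := D.perp_small hM (δ₀ := ε / (2 * (2 * B) ^ 3)) (by positivity) hC1
    set L := B ^ 3 + 3 * B ^ 2 * (2 * B) + 3 * B * (C * C1 * (2 * B) ^ 2)
    have hL : 0 < L := by positivity
    obtain ⟨N, hN⟩ := exists_nat_one_div_lt (show 0 < min δ (ε / (2 * L)) from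
      lt_min hδ (by positivity))
    refine ⟨N, fun n hn => ?_⟩
    set d := 1 / ((n : ℝ) + 1)
    have hd0 : 0 ≤ d := by positivity
    have hd : d < min δ (ε / (2 * L)) := lt_of_le_of_lt (by simp only [d]; gcongr) hN
    set s := S (e n) u
    set x := u - s • e n
    have hee : S (e n) (e n) = 1 := by rw [← hS.hs_sq, he, one_pow]
    have hex : S (e n) x = 0 := by simp [x, s, hee]
    have hs' : |s| ≤ B := by
      have := hS.cs (e n) u
      rw [he, one_mul] at this
      exact this.trans (by simp [B])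
    have hx2 : hs S x ≤ 2 * B := by
      refine (hS.hs_sub_le _ _).trans ?_
      rw [hS.hs_smul, he]
      simp only [B] at hs' ⊢
      linarith [hS.hs_nonneg u]
    have eu : u = x + s • e n := by simp [x]
    have hc := D.cube_add x (e n) s
    rw [← eu] at hc
    obtain ⟨b1, b2'⟩ := D.res_apply (he n) (her n)
    have b2 : |S (K (e n) (e n)) x| ≤ d * (2 * B) :=
      (b2' x hex).trans (mul_le_mul_of_nonneg_left hx2 hd0)
    have b3 : |S (K (e n) x) x| ≤ C * (d * C1) * (2 * B) ^ 2 := by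
      refine (D.deflate (he n) (her n) hex).trans ?_
      have := hS.hs_nonneg x
      gcongr
      exact heC n
    have b4 : |S (K x x) x| ≤ ε / 2 := by
      rcases eq_or_ne (hs S x) 0 with h | h
      · have := D.abs_quad x x
        rw [h, mul_zero, zero_mul] at this
        exact this.trans (by linarith)
      have hp : 0 < hs S x := lt_of_le_of_ne (hS.hs_nonneg x) (Ne.symm h)
      have hdδ : d ≤ δ := hd.le.trans (min_le_left _ _)
      have p1 := hperp _ (he n) (heC n) ((her n).trans hdδ) ((hs S x)⁻¹ • x)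
        (by rw [map_smul, hex, smul_zero]) (hS.hs_normalize h)
      have p2 := hperp _ (he n) (heC n) ((her n).trans hdδ) (-((hs S x)⁻¹ • x))
        (by rw [map_neg, map_smul, hex, smul_zero, neg_zero])
        (by rw [hS.hs_neg]; exact hS.hs_normalize h)
      simp only [map_neg, neg_apply, map_smul, smul_apply, smul_eq_mul, neg_neg] at p1 p2
      have h8 : hs S x ^ 3 ≤ (2 * B) ^ 3 := pow_le_pow_left₀ hp.le hx2 3
      have hb : ∀ r : ℝ, (hs S x)⁻¹ * ((hs S x)⁻¹ * ((hs S x)⁻¹ * r)) < ε / (2 * (2 * B) ^ 3) →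
          r ≤ ε / 2 := by
        intro r hr
        have hr' : r < hs S x ^ 3 * (ε / (2 * (2 * B) ^ 3)) := by
          have := mul_lt_mul_of_pos_left hr (pow_pos hp 3)
          have e : hs S x ^ 3 * ((hs S x)⁻¹ * ((hs S x)⁻¹ * ((hs S x)⁻¹ * r))) = r := by
            field_simp
          rwa [e] at this
        have h9 := mul_le_mul_of_nonneg_right h8
          (by positivity : 0 ≤ ε / (2 * (2 * B) ^ 3))
        have e : (2 * B) ^ 3 * (ε / (2 * (2 * B) ^ 3)) = ε / 2 := by field_simp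
        linarith
      rw [abs_le]
      constructor
      · have := hb (-S (K x x) x) (by linarith)
        linarith
      · exact hb _ (by linarith)
    have e5 : S (K u u) u - M * s ^ 3 = s ^ 3 * (S (K (e n) (e n)) (e n) - M)
        + 3 * s ^ 2 * S (K (e n) (e n)) x + 3 * s * S (K (e n) x) x + S (K x x) x := by
      rw [hc, D.c13 x (e n) (e n), D.tot (e n) (e n) x, D.c12 x x (e n), D.tot x x (e n),
        D.c12 x (e n) x]
      ring
    rw [dist_comm, Real.dist_eq, e5]
    have t1 : |s ^ 3 * (S (K (e n) (e n)) (e n) - M)| ≤ B ^ 3 * d := by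
      rw [abs_mul, abs_pow]; gcongr
    have t2 : |3 * s ^ 2 * S (K (e n) (e n)) x| ≤ 3 * B ^ 2 * (d * (2 * B)) := by
      rw [abs_mul, abs_mul, abs_pow, abs_of_pos (by norm_num : (0:ℝ) < 3)]; gcongr
    have t3 : |3 * s * S (K (e n) x) x| ≤ 3 * B * (C * (d * C1) * (2 * B) ^ 2) := by
      rw [abs_mul, abs_mul, abs_of_pos (by norm_num : (0:ℝ) < 3)]; gcongr
    have hdL : d * L < ε / 2 := by
      have := (lt_div_iff₀ (by positivity : 0 < 2 * L)).1 (hd.trans_le (min_le_right _ _))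
      linarith
    refine lt_of_le_of_lt ((abs_add_le _ _).trans (add_le_add ((abs_add_le _ _).trans
      (add_le_add ((abs_add_le _ _).trans (add_le_add t1 t2)) t3)) b4)) ?_
    simp only [L] at hdL
    linarith
  have hlim3 : ∀ x y z, Tendsto (fun n => M * (S (e n) x * S (e n) y * S (e n) z)) atTop
      (𝓝 (S (K x y) z)) := by
    intro x y z
    have h := (((hlim (x + y + z)).sub (hlim (x + y - z))).sub (hlim (x - y + z))).add
      (hlim (x - y - z))
    have h' := h.div_const 24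
    convert h' using 1
    · funext n; simp only [map_add, map_sub]; ring
    · congr 1
      simp only [map_add, map_sub, add_apply, sub_apply]
      have r1 := D.tot x y z
      have r2 := D.c12 x y z
      have r3 := D.c13 x y z
      have r4 := D.c12 x z y
      have r5 := D.tot y x z
      have r6 := D.c12 y z x
      linarith
  have h1 := (hlim3 x y z).mul ((hlim b).pow 2)
  have h2 := ((hlim3 x b b).mul (hlim3 y b b)).mul (hlim3 z b b)
  refine tendsto_nhds_unique h1 (h2.congr fun n => ?_)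
  ring

end Cubic

end Vale.Agent.P084.Sm
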