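import Vale.Agent.P084.Sm.Hyp

/-! A locally uniformly rotund space has no continuous nonzero field in the kernel of the second
derivative of its norm. -/

namespace Vale.Agent.P084.Sm

open Filter Topology Set Metric

/-- Local uniform rotundity. -/
def LUR (E : Type*) [NormedAddCommGroup E] [NormedSpace ℝ E] : Prop :=
  ∀ a : E, ‖a‖ = 1 → ∀ r : ℝ, 0 < r → ∃ ε : ℝ, 0 < ε ∧
    ∀ b : E, ‖b‖ = 1 → r ≤ ‖a - b‖ → ‖a + b‖ ≤ 2 - ε

variable {E : Type*} [NormedAddCommGroup E] [NormedSpace ℝ E]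

theorem strictConvex_of_LUR (h : LUR E) : StrictConvexSpace ℝ E := by
  refine StrictConvexSpace.of_norm_add_ne_two fun a b ha hb hne he => ?_
  obtain ⟨ε, hε, hb'⟩ := h a ha ‖a - b‖ (norm_pos_iff.2 (sub_ne_zero.2 hne))
  have := hb' b hb le_rfl
  linarith

theorem no_kernel_field [CompleteSpace E] (hE : UC2 E) (hL : LUR E) {a : E} (ha : ‖a‖ = 1)
    (v : E → E) (hv : ContinuousAt v a) (hnd : ∀ p : E, ‖p‖ = 1 → nd p (v p) = 0)
    (hker : ∀ p : E, ‖p‖ = 1 → nd2 p (v p) = 0) : v a = 0 := by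
  by_contra hne
  set k := v a with hk
  have hkn := norm_pos_iff.2 hne
  obtain ⟨ψ, hψ, hψk⟩ := exists_dual_vector ℝ k hkn.ne'
  have hψk' : ψ k = ‖k‖ := by simpa using hψk
  have hψle : ∀ x, |ψ x| ≤ ‖x‖ := fun x => by
    have := ψ.le_opNorm x
    rwa [hψ, one_mul, Real.norm_eq_abs] at this
  obtain ⟨r₀, hr₀, hcl⟩ := Metric.continuousAt_iff.1 hv (‖k‖ / 8) (by positivity)
  set r := min (r₀ / 2) (1 / 2)
  have hr : 0 < r := by positivity
  have hnear : ∀ p : E, ‖p - a‖ ≤ r → ‖v p - k‖ ≤ ‖k‖ / 8 := by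
    intro p hp
    have h := hcl (x := p) (by
      rw [dist_eq_norm]; linarith [min_le_left (r₀ / 2) (1 / 2)])
    rw [dist_eq_norm] at h
    exact h.le
  obtain ⟨ε₀, hε₀, hrot⟩ := hL a ha r hr
  set ε := ε₀ / (2 * r)
  have hε : 0 < ε := by positivity
  let R : E → E → Prop := fun p q => ‖nd q - nd p‖ ≤ ε * ψ (q - p) ∧ ‖q - p‖ ≤ 2 * ψ (q - p)
  let G : Set E := {p | ‖p‖ = 1 ∧ ‖p - a‖ ≤ r}
  have hrefl : ∀ p, R p p := fun p => by simp [R]
  have htrans : ∀ p q s, R p q → R q s → R p s := by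
    intro p q s h1 h2
    have t1 := norm_sub_le_norm_sub_add_norm_sub (nd s) (nd q) (nd p)
    have t2 := norm_sub_le_norm_sub_add_norm_sub s q p
    simp only [R, map_sub] at *
    constructor <;> linarith [h1.1, h1.2, h2.1, h2.2]
  have hbdd : ∀ p, BddAbove (ψ '' {q | q ∈ G ∧ R p q}) := fun p =>
    ⟨1, by
      rintro _ ⟨q, hq, rfl⟩
      exact (le_abs_self _).trans ((hψle q).trans_eq hq.1.1)⟩
  have haG : a ∈ G := ⟨ha, by simpa using hr.le⟩
  have hstep : ∀ (n : ℕ) (p : {p // p ∈ G}), ∃ q : {q // q ∈ G}, R p.1 q.1 ∧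
      ∀ s ∈ G, R p.1 s → ψ s ≤ ψ q.1 + 1 / ((n : ℝ) + 1) := by
    intro n p
    have hne : (ψ '' {q | q ∈ G ∧ R p.1 q}).Nonempty := ⟨_, p.1, ⟨p.2, hrefl _⟩, rfl⟩
    obtain ⟨_, ⟨q, ⟨hqG, hqR⟩, rfl⟩, hq⟩ := exists_lt_of_lt_csSup hne
      (sub_lt_self (sSup (ψ '' {q | q ∈ G ∧ R p.1 q}))
        (by positivity : (0:ℝ) < 1 / ((n : ℝ) + 1)))
    refine ⟨⟨q, hqG⟩, hqR, fun s hs hps => ?_⟩
    have : ψ s ≤ sSup (ψ '' {q | q ∈ G ∧ R p.1 q}) := le_csSup (hbdd p.1) ⟨s, ⟨hs, hps⟩, rfl⟩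
    simp only
    linarith
  choose next hnext hnext' using hstep
  let pp : ℕ → {p // p ∈ G} := fun n => Nat.rec ⟨a, haG⟩ (fun n p => next n p) n
  have hR : ∀ n m, n ≤ m → R (pp n).1 (pp m).1 := by
    intro n m hnm
    induction hnm with
    | refl => exact hrefl _
    | step _ ih => exact htrans _ _ _ ih (hnext _ _)
  set f : ℕ → ℝ := fun n => ψ (pp n).1
  have hmono : Monotone f := fun n m hnm => by
    have := (hR n m hnm).2
    rw [map_sub] at this
    simp only [f]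
    linarith [norm_nonneg ((pp m).1 - (pp n).1)]
  have hfb : BddAbove (range f) := ⟨1, by
    rintro _ ⟨n, rfl⟩
    exact (le_abs_self _).trans ((hψle _).trans_eq (pp n).2.1)⟩
  have hlimf := tendsto_atTop_ciSup hmono hfb
  have hC : CauchySeq fun n => (pp n).1 := by
    refine cauchySeq_of_le_tendsto_0 (fun N => 2 * ((⨆ i, f i) - f N) + 2 * ((⨆ i, f i) - f N))
      (fun n m N hn hm => ?_) ?_
    · rw [dist_eq_norm]
      have h1 := (hR N n hn).2
      have h2 := (hR N m hm).2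
      rw [map_sub] at h1 h2
      have h3 : f n ≤ ⨆ i, f i := le_ciSup hfb n
      have h4 : f m ≤ ⨆ i, f i := le_ciSup hfb m
      have h5 := norm_sub_le_norm_sub_add_norm_sub (pp n).1 (pp N).1 (pp m).1
      rw [norm_sub_rev (pp N).1 (pp m).1] at h5
      simp only [f] at h3 h4 ⊢
      linarith
    · have := ((hlimf.const_sub (⨆ i, f i)).const_mul 2)
      simpa using this.add this
  obtain ⟨p, hp⟩ := cauchySeq_tendsto_of_complete hC
  have hp1 : ‖p‖ = 1 :=
    tendsto_nhds_unique hp.norm (tendsto_const_nhds.congr fun n => ((pp n).2.1).symm)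
  have hp0 : p ≠ 0 := norm_pos_iff.1 (hp1 ▸ one_pos)
  have hpr : ‖p - a‖ ≤ r := le_of_tendsto (hp.sub_const a).norm (Eventually.of_forall fun n => (pp n).2.2)
  have hup : ∀ n, R (pp n).1 p := by
    intro n
    have hψc : Tendsto (fun m => ψ ((pp m).1 - (pp n).1)) atTop (𝓝 (ψ (p - (pp n).1))) :=
      (ψ.continuous.tendsto _).comp (hp.sub_const _)
    constructor
    · exact le_of_tendsto_of_tendsto
        (((hE.smooth.continuousAt_nd hp0).tendsto.comp hp).sub_const (nd (pp n).1)).norm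
        (hψc.const_mul ε) (eventually_atTop.2 ⟨n, fun m hm => (hR n m hm).1⟩)
    · exact le_of_tendsto_of_tendsto (hp.sub_const _).norm (hψc.const_mul 2)
        (eventually_atTop.2 ⟨n, fun m hm => (hR n m hm).2⟩)
  have hmax : ∀ s ∈ G, R p s → ψ s ≤ ψ p := by
    intro s hs hps
    refine le_of_forall_pos_le_add fun δ hδ => ?_
    obtain ⟨n, hn⟩ := exists_nat_one_div_lt hδ
    have h1 := hnext' n (pp n) s hs (htrans _ _ _ (hup n) hps)
    have h2 := (hup (n + 1)).2
    rw [map_sub] at h2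
    have : ψ (next n (pp n)).1 = ψ (pp (n + 1)).1 := rfl
    linarith [norm_nonneg (p - (pp (n + 1)).1)]
  rcases hpr.lt_or_eq with hlt | heq
  · -- a longer path
    set w := v p
    have hw := hnear p hpr
    have hwn : ‖w‖ ≤ 9 / 8 * ‖k‖ := by
      have := norm_sub_norm_le w k
      linarith
    have hwψ : 7 / 8 * ‖k‖ ≤ ψ w := by
      have := hψle (w - k)
      rw [map_sub, hψk'] at this
      linarith [(abs_le.1 this).1]
    let q : ℝ → E := fun t => ‖p + t • w‖⁻¹ • (p + t • w)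
    have hl : HasDerivAt (fun t : ℝ => p + t • w) w 0 := by
      simpa using ((hasDerivAt_id (0 : ℝ)).smul_const w).const_add p
    have hn : HasDerivAt (fun t : ℝ => ‖p + t • w‖) 0 0 := by
      have h := (hE.smooth.hasFDerivAt hp0).comp_hasDerivAt_of_eq (0 : ℝ) hl (by simp)
      rwa [hnd p hp1] at h
    have hq : HasDerivAt q w 0 := by
      have := (hn.inv (by simp [hp1])).smul hl
      refine this.congr_deriv ?_
      simp [hp1]
    have hq0 : q 0 = p := by simp [q, hp1]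
    have hN : HasDerivAt (fun t : ℝ => nd (p + t • w)) 0 0 := by
      have h := (hE.hasFDerivAt_nd hp0).comp_hasDerivAt_of_eq (0 : ℝ) hl (by simp)
      rwa [hker p hp1] at h
    have hev0 : ∀ᶠ t in 𝓝 (0 : ℝ), p + t • w ≠ 0 :=
      hl.continuousAt.eventually_ne (by simpa using hp0)
    have s1 := (hasDerivAt_iff_tendsto_slope_zero.1 hq).mono_left (nhdsGT_le_nhdsNE 0)
    have s2 := (hasDerivAt_iff_tendsto_slope_zero.1 hN).mono_left (nhdsGT_le_nhdsNE 0)
    have e1 := ((ψ.continuous.tendsto w).comp s1).eventually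
      (lt_mem_nhds (show 3 / 4 * ‖k‖ < ψ w by linarith))
    have e2 := s1.norm.eventually (gt_mem_nhds (show ‖w‖ < 3 / 2 * ‖k‖ by linarith))
    have e3 := s2.norm.eventually
      (gt_mem_nhds (show ‖(0 : E →L[ℝ] ℝ)‖ < ε * (3 / 4 * ‖k‖) by rw [norm_zero]; positivity))
    have e4 : ∀ᶠ t in 𝓝 (0 : ℝ), ‖q t - a‖ < r := by
      have h : ContinuousAt (fun t => ‖q t - a‖) 0 := (hq.continuousAt.sub continuousAt_const).norm
      exact h.eventually (gt_mem_nhds (by simpa [hq0] using hlt))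
    obtain ⟨t, ⟨⟨⟨⟨t1, t2⟩, t3⟩, t4⟩, t5⟩, ht⟩ := (((((e1.and e2).and e3).and
      (nhdsWithin_le_nhds e4)).and (nhdsWithin_le_nhds hev0)).and self_mem_nhdsWithin).exists
    have ht : (0 : ℝ) < t := ht
    simp only [zero_add, hq0, zero_smul, add_zero, Function.comp_apply, map_smul, smul_eq_mul,
      norm_smul, Real.norm_of_nonneg (inv_nonneg.2 ht.le)] at t1 t2 t3
    rw [lt_inv_mul_iff₀ ht] at t1
    rw [inv_mul_lt_iff₀ ht] at t2 t3
    have hRpq : R p (q t) := by
      refine ⟨?_, by linarith⟩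
      simp only [q] at t1 ⊢
      rw [nd_smul_pos _ (inv_pos.2 (norm_pos_iff.2 t5))]
      have := mul_le_mul_of_nonneg_left t1.le hε.le
      linarith
    have := hmax (q t) ⟨norm_normalize t5, t4.le⟩ hRpq
    rw [map_sub] at t1
    have : 0 < t * (3 / 4 * ‖k‖) := by positivity
    linarith
  · -- the path cannot reach the small sphere
    have h0 := (hup 0).1
    have e0 : (pp 0).1 = a := rfl
    rw [e0] at h0
    have h1 : ψ (p - a) ≤ r := (le_abs_self _).trans ((hψle _).trans hpr)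
    have h2 : |(nd p - nd a) p| ≤ ε * r := by
      refine ((nd p - nd a).le_opNorm p).trans ?_
      rw [hp1, mul_one]
      exact h0.trans (mul_le_mul_of_nonneg_left h1 hε.le)
    rw [sub_apply, hE.smooth.nd_self hp0, hp1] at h2
    have h3 := nd_le a (a + p)
    rw [map_add, hE.smooth.nd_self (norm_pos_iff.1 (ha ▸ one_pos)), ha] at h3
    have h4 := hrot p hp1 (by rw [norm_sub_rev]; exact heq.ge)
    have h5 : ε * r = ε₀ / 2 := by simp only [ε]; field_simp
    linarith [(abs_le.1 h2).2]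

end Vale.Agent.P084.Sm
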