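import Vale.Agent.P084.Sm.Reg

/-! First and second order identities of a sphere isometry (adapted from the finite-dimensional
modules FirstOrder, SecondOrder and CubicSymm). -/

namespace Vale.Agent.P084.Sm

set_option linter.unusedSectionVars false

open Filter Topology Set Metric Asymptotics



variable {E F : Type*} [NormedAddCommGroup E] [NormedSpace ℝ E] [CompleteSpace E]
  [NormedAddCommGroup F] [NormedSpace ℝ F] [CompleteSpace F]

namespace SphereIso

variable (I : SphereIso E F) (hE : SmoothNorm E) (hF : SmoothNorm F)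


include hE hF

theorem hasFDerivAt_T {z : E} (hz : z ≠ 0) : HasFDerivAt I.T (I.M z) z :=
  (I.differentiableAt hE hF hz).hasFDerivAt

theorem M_self {z : E} (hz : z ≠ 0) : I.M z z = I.T z := by
  have hp : HasDerivAt (fun s : ℝ => s • z) z 1 := by
    simpa using (hasDerivAt_id (1 : ℝ)).smul_const z
  have h1 : HasDerivAt (fun s : ℝ => I.T (s • z)) (I.M z z) 1 :=
    (I.hasFDerivAt_T hE hF hz).comp_hasDerivAt_of_eq (1 : ℝ) hp (one_smul ℝ z).symm
  have hev : (fun s : ℝ => I.T (s • z)) =ᶠ[𝓝 1] fun s => s • I.T z := by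
    filter_upwards [lt_mem_nhds (one_pos (α := ℝ))] with s hs
    exact I.smul_T s z hs.le
  have h2 : HasDerivAt (fun s : ℝ => s • I.T z) (I.T z) 1 := by
    simpa using (hasDerivAt_id (1 : ℝ)).smul_const (I.T z)
  exact h1.unique (h2.congr_of_eventuallyEq hev)

theorem M_smul {z : E} (hz : z ≠ 0) {c : ℝ} (hc : 0 < c) : I.M (c • z) = I.M z := by
  have h1 : HasFDerivAt (fun x : E => c • x) (c • ContinuousLinearMap.id ℝ E) z :=
    (hasFDerivAt_id z).const_smul c
  have h2 := (I.hasFDerivAt_T hE hF (smul_ne_zero hc.ne' hz)).comp z h1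
  have h3 := (I.hasFDerivAt_T hE hF hz).const_smul c
  have he : (I.T ∘ fun x : E => c • x) = fun x => c • I.T x := funext fun x => I.smul_T c x hc.le
  rw [he] at h2
  refine ContinuousLinearMap.ext fun x => ?_
  have := congrArg (fun L : E →L[ℝ] F => L x) (h2.unique h3)
  simp only [ContinuousLinearMap.comp_apply, smul_apply, ContinuousLinearMap.id_apply,
    map_smul] at this
  exact smul_right_injective F hc.ne' this

theorem nd_comp_M {z : E} (hz : z ≠ 0) : (nd (I.T z)).comp (I.M z) = nd z := by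
  have h1 := (hF.hasFDerivAt (I.T_ne hz)).comp z (I.hasFDerivAt_T hE hF hz)
  have he : ((fun y : F => ‖y‖) ∘ I.T) = fun x => ‖x‖ := funext I.norm_T
  rw [he] at h1
  exact h1.unique (hE.hasFDerivAt hz)

theorem M_symm_comp {z : E} (hz : z ≠ 0) (x : E) : I.symm.M (I.T z) (I.M z x) = x := by
  have h1 := (I.symm.hasFDerivAt_T hF hE (I.T_ne hz)).comp z (I.hasFDerivAt_T hE hF hz)
  have he : (I.symm.T ∘ I.T) = id := funext I.left_inv
  rw [he] at h1
  exact congrArg (fun L : E →L[ℝ] E => L x) (h1.unique (hasFDerivAt_id z))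

theorem M_bijective {z : E} (hz : z ≠ 0) : Function.Bijective (I.M z) := by
  refine ⟨Function.LeftInverse.injective (I.M_symm_comp hE hF hz), fun y => ?_⟩
  refine ⟨I.symm.M (I.T z) y, ?_⟩
  have := I.symm.M_symm_comp hF hE (I.T_ne hz) y
  have e : I.symm.T (I.T z) = z := I.left_inv z
  rw [e] at this
  exact this

/-- The derivative as a linear equivalence. -/
noncomputable def Meq {z : E} (hz : z ≠ 0) : E ≃L[ℝ] F :=
  (LinearEquiv.ofBijective (I.M z).toLinearMap
    (I.M_bijective hE hF hz)).toContinuousLinearEquivOfContinuous (I.M z).continuous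

theorem coe_Meq {z : E} (hz : z ≠ 0) : (I.Meq hE hF hz : E →L[ℝ] F) = I.M z := by
  ext x; rfl

/-- The derivative is isometric on the tangent hyperplane. -/
theorem norm_M {z v : E} (hz : z ≠ 0) (hv : nd z v = 0) : ‖I.M z v‖ = ‖v‖ := by
  let a : ℝ → E := fun t => (‖z‖ / ‖z + t • v‖) • (z + t • v)
  have ha0 : a 0 = z := by simp [a, div_self (norm_ne_zero_iff.2 hz)]
  have hline : HasDerivAt (fun t : ℝ => z + t • v) v 0 := by
    simpa using ((hasDerivAt_id (0 : ℝ)).smul_const v).const_add z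
  have hn : HasDerivAt (fun t : ℝ => ‖z + t • v‖) 0 0 := by
    have h := (hE.hasFDerivAt hz).comp_hasDerivAt_of_eq (0 : ℝ) hline (by simp)
    rwa [hv] at h
  have ha : HasDerivAt a v 0 := by
    have hn0 : ‖z + (0 : ℝ) • v‖ ≠ 0 := by simp [hz]
    have := ((hasDerivAt_const (0 : ℝ) ‖z‖).div hn hn0).smul hline
    simp only [zero_smul, add_zero, mul_zero, sub_zero, zero_mul, zero_div,
      div_self (norm_ne_zero_iff.2 hz), one_smul, Pi.div_apply] at this
    exact this
  have hTa : HasDerivAt (fun t => I.T (a t)) (I.M z v) 0 :=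
    (I.hasFDerivAt_T hE hF hz).comp_hasDerivAt_of_eq (0 : ℝ) ha ha0.symm
  have s1 := (hasDerivAt_iff_tendsto_slope_zero.1 hTa).norm
  have s2 := (hasDerivAt_iff_tendsto_slope_zero.1 ha).norm
  refine tendsto_nhds_unique (s1.congr' ?_) s2
  have hev : ∀ᶠ t in 𝓝[≠] (0 : ℝ), z + t • v ≠ 0 :=
    nhdsWithin_le_nhds (hline.continuousAt.eventually_ne (by simpa using hz))
  filter_upwards [hev] with t ht
  simp only [zero_add, ha0, norm_smul]
  congr 1
  refine I.dist_T _ _ ?_
  simp only [a]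
  rw [norm_smul, Real.norm_of_nonneg (by positivity), div_mul_cancel₀ _ (norm_ne_zero_iff.2 ht)]

theorem nd_M {z u v : E} (hz : z ≠ 0) (hu : nd z u = 0) (hv : nd z v = 0) (hu0 : u ≠ 0) :
    nd (I.M z u) (I.M z v) = nd u v := by
  have hMu : I.M z u ≠ 0 := by
    rw [← norm_pos_iff, I.norm_M hE hF hz hu]; exact norm_pos_iff.2 hu0
  have hline : HasDerivAt (fun t : ℝ => u + t • v) v 0 := by
    simpa using ((hasDerivAt_id (0 : ℝ)).smul_const v).const_add u
  have hl2 : HasDerivAt (fun t : ℝ => I.M z u + t • I.M z v) (I.M z v) 0 := by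
    simpa using ((hasDerivAt_id (0 : ℝ)).smul_const (I.M z v)).const_add (I.M z u)
  have h1 := (hE.hasFDerivAt hu0).comp_hasDerivAt_of_eq (0 : ℝ) hline (by simp)
  have h2 := (hF.hasFDerivAt hMu).comp_hasDerivAt_of_eq (0 : ℝ) hl2 (by simp)
  have he : ((fun y : F => ‖y‖) ∘ fun t : ℝ => I.M z u + t • I.M z v)
      = ((fun y : E => ‖y‖) ∘ fun t : ℝ => u + t • v) := by
    funext t
    simp only [Function.comp_apply]
    rw [← map_smul, ← map_add, I.norm_M hE hF hz]
    simp [hu, hv]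
  rw [he] at h2
  exact h2.unique h1

/-- Chord identity for sums. -/
theorem chord_sum {z a v : E} (hz : z ≠ 0) (ha : a ≠ 0) (hv : nd a v = 0)
    (hw : ‖z‖ • a + ‖a‖ • z ≠ 0) :
    nd (‖z‖ • I.T a + ‖a‖ • I.T z) (I.M a v) = nd (‖z‖ • a + ‖a‖ • z) v := by
  have hid : ∀ y, ‖‖z‖ • I.T y + ‖y‖ • I.T z‖ = ‖‖z‖ • y + ‖y‖ • z‖ := by
    intro y
    rw [← I.smul_T _ _ (norm_nonneg z), ← I.smul_T _ _ (norm_nonneg y)]
    exact I.add_T (by simp [norm_smul, mul_comm])
  have hW : ‖z‖ • I.T a + ‖a‖ • I.T z ≠ 0 := by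
    rw [← norm_pos_iff, hid]; exact norm_pos_iff.2 hw
  have h1 := (hF.hasFDerivAt hW).comp a (f := fun y => ‖z‖ • I.T y + ‖y‖ • I.T z)
    (((I.hasFDerivAt_T hE hF ha).const_smul ‖z‖).add ((hE.hasFDerivAt ha).smul_const (I.T z)))
  have h2 := (hE.hasFDerivAt hw).comp a (f := fun y : E => ‖z‖ • y + ‖y‖ • z)
    (((hasFDerivAt_id a).const_smul ‖z‖).add ((hE.hasFDerivAt ha).smul_const z))
  have he : ((fun y : F => ‖y‖) ∘ fun y : E => ‖z‖ • I.T y + ‖y‖ • I.T z)
      = ((fun y : E => ‖y‖) ∘ fun y : E => ‖z‖ • y + ‖y‖ • z) := funext hid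
  rw [he] at h1
  have h := congrArg (fun L : E →L[ℝ] ℝ => L v) (h1.unique h2)
  simp only [ContinuousLinearMap.comp_apply, add_apply, smul_apply,
    ContinuousLinearMap.smulRight_apply, ContinuousLinearMap.id_apply, hv, zero_smul, add_zero,
    map_smul, smul_eq_mul] at h
  exact mul_left_cancel₀ (norm_ne_zero_iff.2 hz) h

end SphereIso



section Hessian

variable {G : Type*} [NormedAddCommGroup G] [NormedSpace ℝ G]

theorem SmoothNorm.hess_symm (hG : SmoothNorm G) {y : G} (hy : y ≠ 0)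
    {Q : G →L[ℝ] G →L[ℝ] ℝ} (hQ : HasFDerivAt nd Q y) (x v : G) : Q x v = Q v x :=
  second_derivative_symmetric_of_eventually (f := fun x : G => ‖x‖) (f' := nd)
    (by filter_upwards [isOpen_ne.mem_nhds hy] with z hz using hG.hasFDerivAt hz) hQ x v

theorem SmoothNorm.hess_self (hG : SmoothNorm G) {y : G} (hy : y ≠ 0)
    {Q : G →L[ℝ] G →L[ℝ] ℝ} (hQ : HasFDerivAt nd Q y) : Q y = 0 := by
  have hp : HasDerivAt (fun s : ℝ => s • y) y 1 := by
    simpa using (hasDerivAt_id (1 : ℝ)).smul_const y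
  have h1 : HasDerivAt (fun s : ℝ => nd (s • y)) (Q y) 1 :=
    hQ.comp_hasDerivAt_of_eq (1 : ℝ) hp (one_smul ℝ y).symm
  have hev : (fun s : ℝ => nd (s • y)) =ᶠ[𝓝 1] fun _ => nd y := by
    filter_upwards [lt_mem_nhds (one_pos (α := ℝ))] with s hs
    exact nd_smul_pos y hs
  exact h1.unique ((hasDerivAt_const (1 : ℝ) (nd y)).congr_of_eventuallyEq hev)

theorem SmoothNorm.hess_self_right (hG : SmoothNorm G) {y : G} (hy : y ≠ 0)
    {Q : G →L[ℝ] G →L[ℝ] ℝ} (hQ : HasFDerivAt nd Q y) (x : G) : Q x y = 0 := by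
  rw [hG.hess_symm hy hQ, hG.hess_self hy hQ]; rfl

theorem SmoothNorm.hess_nonneg (hG : SmoothNorm G) {y : G} (hy : y ≠ 0)
    {Q : G →L[ℝ] G →L[ℝ] ℝ} (hQ : HasFDerivAt nd Q y) (v : G) : 0 ≤ Q v v := by
  have hline : HasDerivAt (fun t : ℝ => y + t • v) v 0 := by
    simpa using ((hasDerivAt_id (0 : ℝ)).smul_const v).const_add y
  have hd : HasDerivAt (fun t : ℝ => nd (y + t • v) v) (Q v v) 0 := by
    have := (hQ.comp_hasDerivAt_of_eq (0 : ℝ) hline (by simp)).clm_apply
      (hasDerivAt_const (0 : ℝ) v)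
    simpa using this
  refine ge_of_tendsto ((hasDerivAt_iff_tendsto_slope_zero.1 hd).mono_left
    (nhdsGT_le_nhdsNE 0)) ?_
  have hev : ∀ᶠ t in 𝓝[>] (0 : ℝ), y + t • v ≠ 0 :=
    nhdsWithin_le_nhds (hline.continuousAt.eventually_ne (by simpa using hy))
  filter_upwards [hev, self_mem_nhdsWithin] with t ht (ht0 : 0 < t)
  have h1 := hG.nd_sub_le (x := y + t • v) hy
  have h2 := hG.nd_sub_le (x := y) ht
  simp only [map_sub, map_add, map_smul, smul_eq_mul] at h1 h2
  simp only [zero_add, zero_smul, add_zero, smul_eq_mul]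
  have : 0 ≤ t * (nd (y + t • v) v - nd y v) := by nlinarith
  exact mul_nonneg (inv_nonneg.2 ht0.le) (nonneg_of_mul_nonneg_right this ht0)

end Hessian

variable {E F : Type*} [NormedAddCommGroup E] [NormedSpace ℝ E] [CompleteSpace E]
  [NormedAddCommGroup F] [NormedSpace ℝ F] [CompleteSpace F]

namespace SphereIso

variable (I : SphereIso E F)

/-- A point where the extension is twice differentiable and the norm is twice differentiable. -/
structure Good (a : E) (B : E →L[ℝ] E →L[ℝ] F) (Q : E →L[ℝ] E →L[ℝ] ℝ)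
    (Q' : F →L[ℝ] F →L[ℝ] ℝ) : Prop where
  hE : SmoothNorm E
  hF : SmoothNorm F
  ha : a ≠ 0
  hB : HasFDerivAt I.M B a
  hQ : HasFDerivAt nd Q a
  hQ' : HasFDerivAt nd Q' (I.T a)

variable {I} {a : E} {B : E →L[ℝ] E →L[ℝ] F} {Q : E →L[ℝ] E →L[ℝ] ℝ}
  {Q' : F →L[ℝ] F →L[ℝ] ℝ}

namespace Good

variable (G : I.Good a B Q Q')
include G

theorem B_self : B a = 0 := by
  have hp : HasDerivAt (fun s : ℝ => s • a) a 1 := by
    simpa using (hasDerivAt_id (1 : ℝ)).smul_const a
  have h1 : HasDerivAt (fun s : ℝ => I.M (s • a)) (B a) 1 :=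
    G.hB.comp_hasDerivAt_of_eq (1 : ℝ) hp (one_smul ℝ a).symm
  have hev : (fun s : ℝ => I.M (s • a)) =ᶠ[𝓝 1] fun _ => I.M a := by
    filter_upwards [lt_mem_nhds (one_pos (α := ℝ))] with s hs
    exact I.M_smul G.hE G.hF G.ha hs
  exact h1.unique ((hasDerivAt_const (1 : ℝ) (I.M a)).congr_of_eventuallyEq hev)

theorem B_symm (x v : E) : B x v = B v x :=
  second_derivative_symmetric_of_eventually (f := I.T) (f' := I.M)
    (by filter_upwards [isOpen_ne.mem_nhds G.ha] with z hz using I.hasFDerivAt_T G.hE G.hF hz)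
    G.hB x v

/-- The derivative preserves the Hessian of the norm. -/
theorem hess_eq (p v : E) : Q' (I.M a p) (I.M a v) = Q p v := by
  have hE := G.hE
  have hF := G.hF
  have hMa := I.M_self hE hF G.ha
  have key : ∀ v, nd a v = 0 → Q' (I.M a p) (I.M a v) = Q p v := by
    intro v hv
    have hn := norm_pos_iff.2 G.ha
    set k : ℝ := 1 / (2 * ‖a‖) with hk
    have hk0 : 0 < k := by positivity
    let zl : ℝ → E := fun t => a + t • p
    have hzl : HasDerivAt zl p 0 := by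
      simpa [zl] using ((hasDerivAt_id (0 : ℝ)).smul_const p).const_add a
    have hz0 : zl 0 = a := by simp [zl]
    have hnz : HasDerivAt (fun t => ‖zl t‖) (nd a p) 0 :=
      (hE.hasFDerivAt G.ha).comp_hasDerivAt_of_eq (0 : ℝ) hzl hz0.symm
    have hTz : HasDerivAt (fun t => I.T (zl t)) (I.M a p) 0 :=
      (I.hasFDerivAt_T hE hF G.ha).comp_hasDerivAt_of_eq (0 : ℝ) hzl hz0.symm
    let W : ℝ → F := fun t => k • (‖zl t‖ • I.T a + ‖a‖ • I.T (zl t))
    let w : ℝ → E := fun t => k • (‖zl t‖ • a + ‖a‖ • zl t)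
    have hW : HasDerivAt W (k • (nd a p • I.T a + ‖a‖ • I.M a p)) 0 :=
      ((hnz.smul_const (I.T a)).add (hTz.const_smul ‖a‖)).const_smul k
    have hw : HasDerivAt w (k • (nd a p • a + ‖a‖ • p)) 0 :=
      ((hnz.smul_const a).add (hzl.const_smul ‖a‖)).const_smul k
    have hw0 : w 0 = a := by
      simp only [w, hz0, hk]; match_scalars; field_simp; ring
    have hW0 : W 0 = I.T a := by
      simp only [W, hz0, hk]; match_scalars; field_simp; ring
    have d1 := (G.hQ'.comp_hasDerivAt_of_eq (0 : ℝ) hW hW0.symm).clm_apply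
      (hasDerivAt_const (0 : ℝ) (I.M a v))
    have d2 := (G.hQ.comp_hasDerivAt_of_eq (0 : ℝ) hw hw0.symm).clm_apply
      (hasDerivAt_const (0 : ℝ) v)
    have hev : (fun t => nd (W t) (I.M a v)) =ᶠ[𝓝 0] fun t => nd (w t) v := by
      filter_upwards [hw.continuousAt.eventually_ne (hw0.trans_ne G.ha),
        hzl.continuousAt.eventually_ne (hz0.trans_ne G.ha)] with t ht htz
      simp only [W, w, nd_smul_pos _ hk0]
      exact I.chord_sum hE hF htz G.ha hv fun h => ht (by simp only [w, h, smul_zero])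
    have h := (d1.congr_of_eventuallyEq hev.symm).unique d2
    simp only [map_add, map_smul, add_apply, smul_apply, map_zero, add_zero, smul_eq_mul,
      hE.hess_self G.ha G.hQ, hF.hess_self (I.T_ne G.ha) G.hQ', zero_apply, mul_zero,
      zero_add] at h
    exact mul_left_cancel₀ (mul_ne_zero hk0.ne' hn.ne') (by linarith)
  set c : ℝ := nd a v / ‖a‖
  have hv' : nd a (v - c • a) = 0 := by
    simp only [map_sub, map_smul, hE.nd_self G.ha, smul_eq_mul, c]
    field_simp [norm_ne_zero_iff.2 G.ha]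
    ring
  have h := key _ hv'
  simp only [map_sub, map_smul, hMa, hF.hess_self_right (I.T_ne G.ha) G.hQ',
    hE.hess_self_right G.ha G.hQ, smul_zero, sub_zero] at h
  exact h

/-- The second derivative is tangent. -/
theorem nd_B (p v : E) : nd (I.T a) (B p v) = 0 := by
  have h1 : HasFDerivAt (fun z => nd (I.T z)) (Q'.comp (I.M a)) a :=
    G.hQ'.comp a (I.hasFDerivAt_T G.hE G.hF G.ha)
  have h2 := h1.clm_comp G.hB
  have hev : (fun z => (nd (I.T z)).comp (I.M z)) =ᶠ[𝓝 a] nd := by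
    filter_upwards [isOpen_ne.mem_nhds G.ha] with z hz using I.nd_comp_M G.hE G.hF hz
  have h := congrArg (fun L : E →L[ℝ] E →L[ℝ] ℝ => L p v)
    ((h2.congr_of_eventuallyEq hev.symm).unique G.hQ)
  simp only [add_apply, ContinuousLinearMap.comp_apply, ContinuousLinearMap.compL_apply,
    ContinuousLinearMap.flip_apply, G.hess_eq] at h
  linarith

/-- The main pointwise relation. -/
theorem nd_B_eq {u : E} (hu : nd a u = 0) (hu0 : u ≠ 0) (s : E) :
    nd (I.M a u) (B s u)
      = Q s u * ((nd (I.M a u) (I.T a) - nd u a) / ‖a‖) := by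
  have hE := G.hE
  have hF := G.hF
  have hn := norm_ne_zero_iff.2 G.ha
  let zl : ℝ → E := fun t => a + t • s
  have hzl : HasDerivAt zl s 0 := by
    simpa [zl] using ((hasDerivAt_id (0 : ℝ)).smul_const s).const_add a
  have hz0 : zl 0 = a := by simp [zl]
  have hnz : HasDerivAt (fun t => ‖zl t‖) (nd a s) 0 :=
    (hE.hasFDerivAt G.ha).comp_hasDerivAt_of_eq (0 : ℝ) hzl hz0.symm
  have hnd : HasDerivAt (fun t => nd (zl t) u) (Q s u) 0 := by
    have := (G.hQ.comp_hasDerivAt_of_eq (0 : ℝ) hzl hz0.symm).clm_apply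
      (hasDerivAt_const (0 : ℝ) u)
    simpa using this
  let vf : ℝ → E := fun t => u - (nd (zl t) u / ‖zl t‖) • zl t
  have hvf : HasDerivAt vf (-((Q s u / ‖a‖) • a)) 0 := by
    have h1 := ((hnd.div hnz (by rw [hz0]; exact hn)).smul hzl).const_sub u
    refine h1.congr_deriv ?_
    simp only [Pi.div_apply, hz0, hu, zero_div, zero_smul, zero_mul, sub_zero, zero_add]
    congr 2
    field_simp
  have hv0 : vf 0 = u := by simp [vf, hz0, hu]
  have hM : HasDerivAt (fun t => I.M (zl t) (vf t))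
      (B s u + I.M a (-((Q s u / ‖a‖) • a))) 0 := by
    have := (G.hB.comp_hasDerivAt_of_eq (0 : ℝ) hzl hz0.symm).clm_apply hvf
    simpa [hz0, hv0] using this
  have hMu : I.M a u ≠ 0 := by
    rw [← norm_pos_iff, I.norm_M hE hF G.ha hu]; exact norm_pos_iff.2 hu0
  have d1 := (hF.hasFDerivAt hMu).comp_hasDerivAt_of_eq (0 : ℝ) hM (by simp [hz0, hv0])
  have d2 := (hE.hasFDerivAt hu0).comp_hasDerivAt_of_eq (0 : ℝ) hvf hv0.symm
  have hev : ((fun y : F => ‖y‖) ∘ fun t => I.M (zl t) (vf t))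
      =ᶠ[𝓝 0] ((fun y : E => ‖y‖) ∘ vf) := by
    filter_upwards [hzl.continuousAt.eventually_ne (hz0.trans_ne G.ha)] with t ht
    simp only [Function.comp_apply]
    refine I.norm_M hE hF ht ?_
    simp only [vf, map_sub, map_smul, hE.nd_self ht, smul_eq_mul]
    field_simp [norm_ne_zero_iff.2 ht]
    ring
  have h := (d1.congr_of_eventuallyEq hev.symm).unique d2
  simp only [map_add, map_neg, map_smul, I.M_self hE hF G.ha, smul_eq_mul] at h
  field_simp at h ⊢
  linarith

end Good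

end SphereIso



/-- Perturbation of the norm by a second-order term. -/
theorem SmoothNorm.norm_add_expansion {G : Type*} [NormedAddCommGroup G] [NormedSpace ℝ G]
    (hG : SmoothNorm G) {y : G} (hy : y ≠ 0) {Q : G →L[ℝ] G →L[ℝ] ℝ}
    (hQ : HasFDerivAt nd Q y) (x : G) {e : ℝ → G} (he : e =O[𝓝 0] fun t => t ^ 2) :
    (fun t => ‖y + t • x + e t‖ - ‖y + t • x‖ - nd y (e t) - t * Q x (e t))
      =o[𝓝 0] fun t => t ^ 3 := by
  obtain ⟨C, hC, heC⟩ := he.exists_pos
  refine IsLittleO.of_bound fun ε hε => ?_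
  set ε' := ε / (2 * C * (‖x‖ + 1)) with hε'
  have hε'0 : 0 < ε' := by positivity
  obtain ⟨δ, hδ, hδb⟩ := Metric.eventually_nhds_iff.1
    ((hasFDerivAt_iff_isLittleO_nhds_zero.1 hQ).def hε'0)
  have hyn := norm_pos_iff.2 hy
  have hQC : 0 < ‖Q‖ * C + 1 := by positivity
  have hρ : 0 < min (min (1 / C) (δ / (‖x‖ + 2)))
      (min (ε / (2 * C * (‖Q‖ * C + 1))) (‖y‖ / (‖x‖ + 2))) := by positivity
  filter_upwards [heC.bound, Metric.ball_mem_nhds (0 : ℝ) hρ] with t ht htb
  rw [mem_ball_zero_iff, Real.norm_eq_abs, lt_min_iff, lt_min_iff, lt_min_iff] at htb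
  obtain ⟨⟨htC, htδ⟩, htε, hty⟩ := htb
  rw [lt_div_iff₀ hC] at htC
  rw [lt_div_iff₀ (by positivity)] at htδ htε hty
  simp only [Real.norm_eq_abs, abs_pow] at ht ⊢
  have het : ‖e t‖ ≤ |t| := ht.trans (by nlinarith [abs_nonneg t])
  have hseg : ∀ z ∈ segment ℝ (y + t • x) (y + t • x + e t),
      z ≠ 0 ∧ ∃ θ ∈ Icc (0 : ℝ) 1, z = y + (t • x + θ • e t) ∧
        ‖t • x + θ • e t‖ ≤ |t| * (‖x‖ + 1) := by
    intro z hz
    rw [segment_eq_image'] at hz
    obtain ⟨θ, ⟨h0, h1⟩, rfl⟩ := hz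
    have hb : ‖t • x + θ • e t‖ ≤ |t| * (‖x‖ + 1) := by
      refine (norm_add_le _ _).trans ?_
      rw [norm_smul, norm_smul, Real.norm_eq_abs, Real.norm_of_nonneg h0]
      nlinarith [norm_nonneg (e t)]
    have e1 : y + t • x + θ • (y + t • x + e t - (y + t • x)) = y + (t • x + θ • e t) := by
      rw [add_sub_cancel_left, add_assoc]
    beta_reduce
    rw [e1]
    refine ⟨fun h => ?_, θ, ⟨h0, h1⟩, rfl, hb⟩
    have := congrArg norm (eq_neg_of_add_eq_zero_left h)
    rw [norm_neg] at this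
    nlinarith [abs_nonneg t]
  have hmv := (convex_segment (y + t • x) (y + t • x + e t)).norm_image_sub_le_of_norm_hasFDerivWithin_le
    (f := fun z => ‖z‖ - (nd y + t • Q x) z) (f' := fun z => nd z - (nd y + t • Q x))
    (C := ε / C * |t|)
    (fun z hz => ((hG.hasFDerivAt (hseg z hz).1).sub
      (nd y + t • Q x).hasFDerivAt).hasFDerivWithinAt)
    (fun z hz => ?_) (left_mem_segment ℝ _ _) (right_mem_segment ℝ _ _)
  · rw [add_sub_cancel_left, Real.norm_eq_abs] at hmv
    refine (le_of_eq ?_).trans (hmv.trans ?_)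
    · congr 1
      simp only [add_apply, smul_apply, map_add, smul_eq_mul]
      ring
    · calc ε / C * |t| * ‖e t‖ ≤ ε / C * |t| * (C * |t| ^ 2) := by gcongr
        _ = ε * |t| ^ 3 := by field_simp
  · obtain ⟨-, θ, hθ, rfl, hb⟩ := hseg z hz
    have h1 : ‖nd (y + (t • x + θ • e t)) - nd y - Q (t • x + θ • e t)‖
        ≤ ε' * ‖t • x + θ • e t‖ := by
      refine hδb ?_
      rw [dist_zero_right]
      nlinarith [abs_nonneg t]
    have h2 : ‖Q (θ • e t)‖ ≤ ‖Q‖ * (C * |t| ^ 2) := by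
      refine (Q.le_opNorm _).trans (mul_le_mul_of_nonneg_left ?_ (norm_nonneg Q))
      rw [norm_smul, Real.norm_of_nonneg hθ.1]
      nlinarith [hθ.2, norm_nonneg (e t)]
    have e2 : nd (y + (t • x + θ • e t)) - (nd y + t • Q x)
        = (nd (y + (t • x + θ • e t)) - nd y - Q (t • x + θ • e t)) + Q (θ • e t) := by
      rw [map_add, map_smul Q t x]; abel
    rw [e2]
    refine (norm_add_le _ _).trans ?_
    calc _ ≤ ε' * (|t| * (‖x‖ + 1)) + ‖Q‖ * (C * |t| ^ 2) :=
          add_le_add (h1.trans (mul_le_mul_of_nonneg_left hb hε'0.le)) h2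
      _ ≤ ε / (2 * C) * |t| + ε / (2 * C) * |t| := by
          refine add_le_add (le_of_eq ?_) ?_
          · rw [hε']; field_simp
          · rw [div_mul_eq_mul_div, le_div_iff₀ (by positivity)]
            nlinarith [mul_le_mul_of_nonneg_left htε.le (abs_nonneg t), abs_nonneg t]
      _ = _ := by ring

variable {E F : Type*} [NormedAddCommGroup E] [NormedSpace ℝ E] [CompleteSpace E]
  [NormedAddCommGroup F] [NormedSpace ℝ F] [CompleteSpace F]

namespace SphereIso.Good

variable {I : SphereIso E F} {a : E} {B : E →L[ℝ] E →L[ℝ] F} {Q : E →L[ℝ] E →L[ℝ] ℝ}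
  {Q' : F →L[ℝ] F →L[ℝ] ℝ} (G : I.Good a B Q Q')
include G

/-- Second-order expansion of the extension. -/
theorem T_expansion (p : E) :
    (fun t : ℝ => I.T (a + t • p) - I.T a - t • I.M a p - (t ^ 2 / 2) • B p p)
      =o[𝓝 0] fun t => t ^ 2 := by
  refine IsLittleO.of_bound fun ε hε => ?_
  set ε' := ε / (‖p‖ ^ 2 + 1) with hε'
  have hε'0 : 0 < ε' := by positivity
  obtain ⟨δ, hδ, hδb⟩ := Metric.eventually_nhds_iff.1
    ((hasFDerivAt_iff_isLittleO_nhds_zero.1 G.hB).def hε'0)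
  have han := norm_pos_iff.2 G.ha
  filter_upwards [Metric.ball_mem_nhds (0 : ℝ)
    (show 0 < min (δ / (‖p‖ + 1)) (‖a‖ / (‖p‖ + 1)) by positivity)] with t htb
  rw [mem_ball_zero_iff, Real.norm_eq_abs, lt_min_iff, lt_div_iff₀ (by positivity),
    lt_div_iff₀ (by positivity)] at htb
  have hd : ∀ s ∈ uIcc 0 t, HasDerivWithinAt
      (fun s : ℝ => I.T (a + s • p) - s • I.M a p - (s ^ 2 / 2) • B p p)
      (I.M (a + s • p) p - I.M a p - s • B p p) (uIcc 0 t) s ∧ |s| ≤ |t| := by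
    intro s hs
    have hst : |s| ≤ |t| := by
      have := abs_sub_left_of_mem_uIcc hs
      simpa using this
    have hne : a + s • p ≠ 0 := fun h => by
      have := congrArg norm (eq_neg_of_add_eq_zero_left h)
      rw [norm_neg, norm_smul, Real.norm_eq_abs] at this
      nlinarith [norm_nonneg p, abs_nonneg s]
    have h0 : HasDerivAt (fun s : ℝ => a + s • p) p s := by
      simpa using ((hasDerivAt_id s).smul_const p).const_add a
    have h1 := (I.hasFDerivAt_T G.hE G.hF hne).comp_hasDerivAt_of_eq s h0 rfl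
    have h2 : HasDerivAt (fun s : ℝ => s • I.M a p) (I.M a p) s := by
      simpa using (hasDerivAt_id s).smul_const (I.M a p)
    have h3 : HasDerivAt (fun s : ℝ => (s ^ 2 / 2) • B p p) (s • B p p) s := by
      have := (((hasDerivAt_id s).pow 2).div_const 2).smul_const (B p p)
      simpa using this
    exact ⟨((h1.sub h2).sub h3).hasDerivWithinAt, hst⟩
  have hmv := (convex_uIcc 0 t).norm_image_sub_le_of_norm_hasDerivWithin_le
    (fun s hs => (hd s hs).1) (C := ε' * ‖p‖ ^ 2 * |t|) (fun s hs => ?_) left_mem_uIcc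
    right_mem_uIcc
  · simp only [zero_smul, add_zero, sub_zero, ne_eq, OfNat.ofNat_ne_zero, not_false_eq_true,
      zero_pow, zero_div, Real.norm_eq_abs, abs_pow] at hmv ⊢
    refine le_of_eq_of_le (congrArg norm (by abel)) (hmv.trans ?_)
    have : ε' * ‖p‖ ^ 2 ≤ ε := by
      rw [hε', div_mul_eq_mul_div, div_le_iff₀ (by positivity)]
      nlinarith
    calc ε' * ‖p‖ ^ 2 * |t| * |t| ≤ ε * |t| * |t| := by gcongr
      _ = ε * |t| ^ 2 := by ring
  · have hst := (hd s hs).2
    have hb := hδb (y := s • p) (by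
      rw [dist_zero_right, norm_smul, Real.norm_eq_abs]
      nlinarith [norm_nonneg p, abs_nonneg s])
    have e : I.M (a + s • p) p - I.M a p - s • B p p
        = (I.M (a + s • p) - I.M a - B (s • p)) p := by simp [map_smul]
    rw [e]
    refine ((I.M (a + s • p) - I.M a - B (s • p)).le_opNorm p).trans ?_
    refine (mul_le_mul_of_nonneg_right hb (norm_nonneg p)).trans ?_
    rw [norm_smul, Real.norm_eq_abs]
    calc ε' * (|s| * ‖p‖) * ‖p‖ = ε' * ‖p‖ ^ 2 * |s| := by ring
      _ ≤ _ := by gcongr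

theorem norm_line (p : E) (hp : nd a p = 0) :
    (fun t : ℝ => ‖a + t • p‖ - ‖a‖) =O[𝓝 0] fun t => t ^ 2 := by
  obtain ⟨L, hL0, hL⟩ := G.hE.lip
  have han := norm_pos_iff.2 G.ha
  refine IsBigO.of_bound (L * ‖p‖ ^ 2 / ‖a‖) ?_
  have hev : ∀ᶠ t in 𝓝 (0 : ℝ), a + t • p ≠ 0 := by
    refine ContinuousAt.eventually_ne (by fun_prop) ?_
    simpa using G.ha
  filter_upwards [hev] with t ht
  have h1 := G.hE.nd_sub_le (x := a + t • p) G.ha
  have h2 := G.hE.nd_sub_le (x := a) ht
  simp only [add_sub_cancel_left, sub_add_cancel_left, map_neg, map_smul, hp, smul_eq_mul,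
    mul_zero] at h1 h2
  have h3 : (nd (a + t • p) - nd a) (t • p) ≤ L * ‖p‖ ^ 2 / ‖a‖ * |t| ^ 2 := by
    refine (Real.le_norm_self _).trans ?_
    refine ((nd (a + t • p) - nd a).le_opNorm _).trans ?_
    have := hL a _ G.ha ht
    rw [norm_sub_rev] at this
    refine (mul_le_mul_of_nonneg_right this (norm_nonneg _)).trans (le_of_eq ?_)
    rw [sub_add_cancel_left, norm_neg, norm_smul, Real.norm_eq_abs]
    ring
  simp only [sub_apply, map_smul, hp, smul_eq_mul, mul_zero, sub_zero] at h3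
  rw [Real.norm_eq_abs, Real.norm_eq_abs, abs_pow, abs_le]
  constructor <;> nlinarith

/-- The antipodal identity at third order for two nearby points. -/
theorem pair_expansion {p₁ p₂ m : E} (h₁ : nd a p₁ = 0) (h₂ : nd a p₂ = 0)
    (hm : m = (1 / 2 : ℝ) • (p₁ + p₂)) :
    (fun t : ℝ => (‖I.T a + t • I.M a m‖ - ‖a + t • m‖)
      + (nd (I.T a) (I.T (a + t • p₁) - I.T a - t • I.M a p₁)
        + nd (I.T a) (I.T (a + t • p₂) - I.T a - t • I.M a p₂)) / 2
      + t ^ 3 * (Q' (I.M a m) (B p₁ p₁ + B p₂ p₂) / 4)) =o[𝓝 0] fun t => t ^ 3 := by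
  have han := norm_pos_iff.2 G.ha
  set E1 : ℝ → F := fun t => I.T (a + t • p₁) - I.T a - t • I.M a p₁ with hE1
  set E2 : ℝ → F := fun t => I.T (a + t • p₂) - I.T a - t • I.M a p₂ with hE2
  set n1 : ℝ → ℝ := fun t => ‖a + t • p₁‖ with hn1
  set n2 : ℝ → ℝ := fun t => ‖a + t • p₂‖ with hn2
  set d : ℝ → ℝ := fun t => (n2 t - n1 t) * (2 * (n1 t + n2 t))⁻¹ with hd
  have o43 : (fun t : ℝ => t ^ 4) =o[𝓝 0] fun t => t ^ 3 := isLittleO_pow_pow (by norm_num)
  have hE : ∀ p, (fun t : ℝ => I.T (a + t • p) - I.T a - t • I.M a p) =O[𝓝 0]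
      fun t => t ^ 2 := by
    intro p
    have h1 : (fun t : ℝ => (t ^ 2 / 2) • B p p) =O[𝓝 0] fun t => t ^ 2 := by
      refine IsBigO.of_bound ‖B p p‖ (Eventually.of_forall fun t => ?_)
      rw [norm_smul, norm_div, Real.norm_two]
      nlinarith [norm_nonneg (B p p), norm_nonneg (t ^ 2)]
    exact ((G.T_expansion p).isBigO.add h1).congr_left fun t => by abel
  have hρ : ∀ p, (fun t : ℝ => nd (I.T a) (I.T (a + t • p) - I.T a - t • I.M a p)) =O[𝓝 0]
      fun t => t ^ 2 := fun p => ((nd (I.T a)).isBigO_comp _ _).trans (hE p)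
  have hsum : Tendsto (fun t => (2 * (n1 t + n2 t))⁻¹) (𝓝 0) (𝓝 (2 * (‖a‖ + ‖a‖))⁻¹) := by
    have hc : Continuous fun t : ℝ => 2 * (n1 t + n2 t) := by simp only [hn1, hn2]; fun_prop
    have := hc.tendsto (0 : ℝ)
    simp only [hn1, hn2, zero_smul, add_zero] at this
    exact this.inv₀ (by positivity)
  have hdO : d =O[𝓝 0] fun t => t ^ 2 := by
    have h := ((G.norm_line p₂ h₂).sub (G.norm_line p₁ h₁)).mul (hsum.isBigO_one ℝ)
    refine h.congr' ?_ (Eventually.of_forall fun t => mul_one _)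
    exact Eventually.of_forall fun t => by simp only [hd, hn1, hn2]; ring
  have hw : ∀ᶠ t in 𝓝 (0 : ℝ), 0 < n1 t ∧ 0 < n2 t := by
    have c1 : Continuous n1 := by simp only [hn1]; fun_prop
    have c2 : Continuous n2 := by simp only [hn2]; fun_prop
    exact ((c1.tendsto 0).eventually (lt_mem_nhds (by simpa [hn1] using han))).and
      ((c2.tendsto 0).eventually (lt_mem_nhds (by simpa [hn2] using han)))
  set es : ℝ → E := fun t => (t * d t) • (p₁ - p₂) with hes
  set et : ℝ → F := fun t =>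
    (t * d t) • I.M a (p₁ - p₂) + ((1 / 2 + d t) • E1 t + (1 / 2 - d t) • E2 t) with het
  have o32 : (fun t : ℝ => t ^ 3) =o[𝓝 0] fun t => t ^ 2 := isLittleO_pow_pow (by norm_num)
  have htd : (fun t : ℝ => t * d t) =O[𝓝 0] fun t => t ^ 3 :=
    ((isBigO_refl (fun t : ℝ => t) _).mul hdO).congr_right fun t => by ring
  have hw1 : ∀ σ : ℝ, (fun t => 1 / 2 + σ * d t) =O[𝓝 0] fun _ => (1 : ℝ) := by
    intro σ
    refine (isBigO_const_const (1 / 2 : ℝ) one_ne_zero _).add ((hdO.const_mul_left σ).trans ?_)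
    exact ((continuous_pow 2).tendsto 0).isBigO_one ℝ
  have hesO : es =O[𝓝 0] fun t => t ^ 2 :=
    ((htd.smul (isBigO_const_const (p₁ - p₂) one_ne_zero _)).congr_right
      (fun t => by rw [smul_eq_mul, mul_one])).trans o32.isBigO
  have hetO : et =O[𝓝 0] fun t => t ^ 2 := by
    have a1 : (fun t => (t * d t) • I.M a (p₁ - p₂)) =O[𝓝 0] fun t => t ^ 2 :=
      ((htd.smul (isBigO_const_const (I.M a (p₁ - p₂)) one_ne_zero _)).congr_right
        (fun t => by rw [smul_eq_mul, mul_one])).trans o32.isBigO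
    have a2 : (fun t => (1 / 2 + d t) • E1 t) =O[𝓝 0] fun t => t ^ 2 :=
      ((hw1 1).smul (hE p₁)).congr (fun t => by simp [hE1]) (fun t => by simp)
    have a3 : (fun t => (1 / 2 - d t) • E2 t) =O[𝓝 0] fun t => t ^ 2 :=
      ((hw1 (-1)).smul (hE p₂)).congr (fun t => by simp [hE2, sub_eq_add_neg]) (fun t => by simp)
    exact a1.add (a2.add a3)
  have hnds : ∀ t, nd a (es t) = 0 := fun t => by simp [hes, map_sub, h₁, h₂]
  have hkS := G.hE.norm_add_expansion G.ha G.hQ m hesO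
  have hkT := G.hF.norm_add_expansion (I.T_ne G.ha) G.hQ' (I.M a m) hetO
  have hQs : (fun t => t * Q m (es t)) =o[𝓝 0] fun t => t ^ 3 := by
    refine IsBigO.trans_isLittleO ?_ o43
    have h1 : (fun t => Q m (es t)) =O[𝓝 0] fun t => t ^ 3 :=
      ((Q m).isBigO_comp _ _).trans ((htd.smul (isBigO_const_const (p₁ - p₂) one_ne_zero _)
        ).congr_right (fun t => by rw [smul_eq_mul, mul_one]))
    exact ((isBigO_refl (fun t : ℝ => t) _).mul h1).congr_right fun t => by ring
  have hρd : (fun t => d t * (nd (I.T a) (E1 t) - nd (I.T a) (E2 t))) =o[𝓝 0] fun t => t ^ 3 :=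
    ((hdO.mul ((hρ p₁).sub (hρ p₂))).congr_right fun t => by ring).trans_isLittleO o43
  have hrest : (fun t => et t - (t ^ 2 / 4) • (B p₁ p₁ + B p₂ p₂)) =o[𝓝 0] fun t => t ^ 2 := by
    have a1 : (fun t => (t * d t) • I.M a (p₁ - p₂)) =o[𝓝 0] fun t => t ^ 2 :=
      ((htd.smul (isBigO_const_const (I.M a (p₁ - p₂)) one_ne_zero _)).congr_right
        (fun t => by rw [smul_eq_mul, mul_one])).trans_isLittleO o32
    have a2 : (fun t => d t • (E1 t - E2 t)) =o[𝓝 0] fun t => t ^ 2 :=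
      ((hdO.smul ((hE p₁).sub (hE p₂))).congr_right fun t => by
        rw [smul_eq_mul, ← pow_add]).trans_isLittleO (isLittleO_pow_pow (by norm_num : 2 < 2 + 2))
    have a3 := ((G.T_expansion p₁).const_smul_left (1 / 2 : ℝ)).add
      ((G.T_expansion p₂).const_smul_left (1 / 2 : ℝ))
    refine ((a1.add a2).add a3).congr_left fun t => ?_
    simp only [het, hE1, hE2, Pi.smul_apply]
    module
  have hQt : (fun t => t * Q' (I.M a m) (et t)
      - t ^ 3 * (Q' (I.M a m) (B p₁ p₁ + B p₂ p₂) / 4)) =o[𝓝 0] fun t => t ^ 3 := by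
    have h1 := ((Q' (I.M a m)).isBigO_comp _ _).trans_isLittleO hrest
    refine ((isBigO_refl (fun t : ℝ => t) _).mul_isLittleO h1).congr (fun t => ?_) fun t => by ring
    simp only [map_sub, map_smul, smul_eq_mul]
    ring
  have hMp : ∀ p, nd a p = 0 → nd (I.T a) (I.M a p) = 0 := fun p hp => by
    rw [← hp, ← I.nd_comp_M G.hE G.hF G.ha]; rfl
  have htot := (((hkT.sub hkS).add hQt).sub hQs).add hρd
  refine htot.neg_left.congr' ?_ EventuallyEq.rfl
  filter_upwards [hw] with t ⟨ht1, ht2⟩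
  have hpos : 0 < n1 t + n2 t := by linarith
  have hdh : 1 / 2 + d t = n2 t / (n1 t + n2 t) ∧ 1 / 2 - d t = n1 t / (n1 t + n2 t) := by
    simp only [hd]; constructor <;> field_simp <;> ring
  have hc1 : 0 ≤ 1 / 2 + d t := by rw [hdh.1]; positivity
  have hc2 : 0 ≤ 1 / 2 - d t := by rw [hdh.2]; positivity
  have hY : I.T a + t • I.M a m + et t
      = (1 / 2 + d t) • I.T (a + t • p₁) + (1 / 2 - d t) • I.T (a + t • p₂) := by
    simp only [het, hE1, hE2, hm, map_smul, map_add, map_sub]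
    module
  have hys : a + t • m + es t
      = (1 / 2 + d t) • (a + t • p₁) + (1 / 2 - d t) • (a + t • p₂) := by
    simp only [hes, hm]
    module
  have hnorm : ‖I.T a + t • I.M a m + et t‖ = ‖a + t • m + es t‖ := by
    rw [hY, hys, ← I.smul_T _ _ hc1, ← I.smul_T _ _ hc2]
    refine I.add_T ?_
    rw [norm_smul, norm_smul, Real.norm_of_nonneg hc1, Real.norm_of_nonneg hc2, hdh.1, hdh.2]
    simp only [hn1, hn2]
    ring
  have hφ : nd (I.T a) (et t)
      = (1 / 2 + d t) * nd (I.T a) (E1 t) + (1 / 2 - d t) * nd (I.T a) (E2 t) := by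
    simp [het, map_sub, hMp p₁ h₁, hMp p₂ h₂]
  rw [hnorm, hφ, hnds t]
  simp only [hE1, hE2]
  ring

/-- The cubic form is symmetric. -/
theorem cubic_symm {u v : E} (hu : nd a u = 0) (hv : nd a v = 0) :
    Q' (I.M a u) (B v v) = Q' (I.M a v) (B u v) := by
  have hA : nd a (u + v) = 0 := by simp [hu, hv]
  have hB' : nd a (u - v) = 0 := by simp [hu, hv]
  have hR : nd a (-u) = 0 := by simp [hu]
  have hh : nd a ((1 / 2 : ℝ) • v) = 0 := by simp [hv]
  have hh' : nd a (-((1 / 2 : ℝ) • v)) = 0 := by simp [hv]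
  have K1 := G.pair_expansion (m := u) hA hB' (by module)
  have K2 := G.pair_expansion (m := (0 : E)) hu hR (by module)
  have K3 := G.pair_expansion (m := (1 / 2 : ℝ) • v) hA hR (by module)
  have K4 := G.pair_expansion (m := -((1 / 2 : ℝ) • v)) hB' hR (by module)
  have K5 := G.pair_expansion (m := (0 : E)) hh hh' (by module)
  have S1 := G.pair_expansion (m := u + v) hA hA (by module)
  have S2 := G.pair_expansion (m := u - v) hB' hB' (by module)
  have S3 := G.pair_expansion (m := -u) hR hR (by module)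
  have S4 := G.pair_expansion (m := u) hu hu (by module)
  have S5 := G.pair_expansion (m := (1 / 2 : ℝ) • v) hh hh (by module)
  have S6 := G.pair_expansion (m := -((1 / 2 : ℝ) • v)) hh' hh' (by module)
  have F1 := (K1.sub (S1.const_mul_left (1 / 2))).sub (S2.const_mul_left (1 / 2))
  have F2 := (K2.sub (S4.const_mul_left (1 / 2))).sub (S3.const_mul_left (1 / 2))
  have F3 := (K3.sub (S1.const_mul_left (1 / 2))).sub (S3.const_mul_left (1 / 2))
  have F4 := (K4.sub (S2.const_mul_left (1 / 2))).sub (S3.const_mul_left (1 / 2))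
  have F5 := (K5.sub (S5.const_mul_left (1 / 2))).sub (S6.const_mul_left (1 / 2))
  have htot := (((F2.const_mul_left 2).add F1).sub (F5.const_mul_left 2)).sub (F3.add F4)
  have hc : (fun t : ℝ => t ^ 3 * ((Q' (I.M a u) (B v v) - Q' (I.M a v) (B u v)) / 2))
      =o[𝓝 0] fun t => t ^ 3 := by
    refine htot.congr_left fun t => ?_
    simp only [map_add, map_sub, map_neg, map_smul, map_zero, smul_zero, add_apply, sub_apply,
      neg_apply, smul_apply, zero_apply, smul_eq_mul, G.B_symm v u]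
    ring
  by_contra hne
  have h1 := (hc.mono (nhdsWithin_le_nhds (s := ({0} : Set ℝ)ᶜ))).def
    (show (0 : ℝ) < |Q' (I.M a u) (B v v) - Q' (I.M a v) (B u v)| / 4 by
      have := abs_pos.2 (sub_ne_zero.2 hne); positivity)
  obtain ⟨t, ht, ht0⟩ := (h1.and (self_mem_nhdsWithin (a := (0 : ℝ)) (s := ({0} : Set ℝ)ᶜ))).exists
  simp only [Real.norm_eq_abs, abs_mul, abs_div, abs_two] at ht
  have h3 : 0 < |t ^ 3| := abs_pos.2 (pow_ne_zero 3 ht0)
  have h4 := abs_pos.2 (sub_ne_zero.2 hne)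
  nlinarith

end SphereIso.Good

end Vale.Agent.P084.Sm
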