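import Vale.Agent.P084.Sm.Alg
import Vale.Agent.P084.Sm.Ident
import Vale.Agent.P084.Sm.Flat

/-! The second derivative of the extension vanishes. -/

namespace Vale.Agent.P084.Sm

set_option linter.unusedSectionVars false

open Filter Topology Set Metric

variable {E F : Type*} [NormedAddCommGroup E] [NormedSpace ℝ E] [CompleteSpace E]
  [NormedAddCommGroup F] [NormedSpace ℝ F] [CompleteSpace F]

namespace SphereIso

variable (I : SphereIso E F) (hE : UC2 E) (hF : UC2 F)

/-- The second derivative pulled back to the source. -/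
noncomputable def acc (p : E) : E →L[ℝ] E →L[ℝ] E :=
  (ContinuousLinearMap.compL ℝ E F E (I.symm.M (I.T p))).comp (I.M2 p)

theorem acc_apply (p s t : E) : I.acc p s t = I.symm.M (I.T p) (I.M2 p s t) := rfl

include hE hF

variable {p : E}

theorem good_at (hp : ‖p‖ = 1) : I.Good p (I.M2 p) (nd2 p) (nd2 (I.T p)) := by
  have hp0 : p ≠ 0 := norm_pos_iff.1 (hp ▸ one_pos)
  exact ⟨hE.smooth, hF.smooth, hp0, (I.taylor_M hE hF).1 p (by rw [hp]; norm_num), hE.hasFDerivAt_nd hp0,
    hF.hasFDerivAt_nd (I.T_ne hp0)⟩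

theorem M_acc (hp : ‖p‖ = 1) (s t : E) : I.M p (I.acc p s t) = I.M2 p s t := by
  have hp0 : p ≠ 0 := norm_pos_iff.1 (hp ▸ one_pos)
  have h := I.symm.M_symm_comp hF.smooth hE.smooth (I.T_ne hp0) (I.M2 p s t)
  have e : I.symm.T (I.T p) = p := I.left_inv p
  rw [e] at h
  exact h

theorem nd_acc (hp : ‖p‖ = 1) (s t : E) : nd p (I.acc p s t) = 0 := by
  have hp0 : p ≠ 0 := norm_pos_iff.1 (hp ▸ one_pos)
  rw [← I.nd_comp_M hE.smooth hF.smooth hp0, ContinuousLinearMap.comp_apply, I.M_acc hE hF hp]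
  exact (I.good_at hE hF hp).nd_B s t

theorem acc_symm (hp : ‖p‖ = 1) (s t : E) : I.acc p s t = I.acc p t s := by
  rw [acc_apply, acc_apply, (I.good_at hE hF hp).B_symm]

theorem cubic_eq (hp : ‖p‖ = 1) (x y z : E) :
    nd2 p (I.acc p x y) z = nd2 (I.T p) (I.M p z) (I.M2 p x y) := by
  have hp0 : p ≠ 0 := norm_pos_iff.1 (hp ▸ one_pos)
  rw [← (I.good_at hE hF hp).hess_eq, I.M_acc hE hF hp]
  exact hF.smooth.hess_symm (I.T_ne hp0) (hF.hasFDerivAt_nd (I.T_ne hp0)) _ _

theorem cubic_tot (hp : ‖p‖ = 1) {x y z : E} (hx : nd p x = 0) (hy : nd p y = 0)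
    (hz : nd p z = 0) : nd2 p (I.acc p x y) z = nd2 p (I.acc p x z) y := by
  have G := I.good_at hE hF hp
  rw [I.cubic_eq hE hF hp, I.cubic_eq hE hF hp]
  have pol : ∀ u v w : E, nd p u = 0 → nd p v = 0 → nd p w = 0 →
      2 * nd2 (I.T p) (I.M p u) (I.M2 p v w) = nd2 (I.T p) (I.M p v) (I.M2 p u w)
        + nd2 (I.T p) (I.M p w) (I.M2 p u v) := by
    intro u v w hu hv hw
    have h0 := G.cubic_symm hu (show nd p (v + w) = 0 by simp [hv, hw])
    have h1 := G.cubic_symm hu hv
    have h2 := G.cubic_symm hu hw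
    simp only [map_add, add_apply] at h0
    rw [G.B_symm w v] at h0
    linarith
  have e1 := pol z x y hz hx hy
  have e2 := pol y x z hy hx hz
  have e3 := pol x y z hx hy hz
  rw [G.B_symm y z, G.B_symm y x] at *
  rw [G.B_symm z x, G.B_symm z y] at *
  linarith

theorem nd_acc_eq (hp : ‖p‖ = 1) {u : E} (hu : nd p u = 0) (hu0 : u ≠ 0) (s : E) :
    nd u (I.acc p s u) = nd2 p s u * (nd (I.M p u) (I.T p) - nd u p) := by
  have hp0 : p ≠ 0 := norm_pos_iff.1 (hp ▸ one_pos)
  have h := (I.good_at hE hF hp).nd_B_eq hu hu0 s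
  rw [hp, div_one, ← I.M_acc hE hF hp, I.nd_M hE.smooth hF.smooth hp0 hu (I.nd_acc hE hF hp s u) hu0] at h
  exact h

theorem hess_form (hp : ‖p‖ = 1) : Form (nd2 p) (Real.sqrt ‖nd2 p‖) := by
  have hp0 : p ≠ 0 := norm_pos_iff.1 (hp ▸ one_pos)
  have hQ := hE.hasFDerivAt_nd hp0
  refine ⟨fun x y => hE.smooth.hess_symm hp0 hQ x y, fun x => hE.smooth.hess_nonneg hp0 hQ x,
    Real.sqrt_nonneg _, fun x => ?_⟩
  rw [hs, ← Real.sqrt_sq (norm_nonneg x), ← Real.sqrt_mul' _ (sq_nonneg _)]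
  refine Real.sqrt_le_sqrt ((le_abs_self _).trans (((nd2 p).le_opNorm₂ x x).trans ?_))
  rw [sq, mul_assoc]

/-- The algebraic lemma, on the tangent hyperplane. -/
theorem cubic_rank_one (hp : ‖p‖ = 1) {x y z b : E} (hx : nd p x = 0) (hy : nd p y = 0)
    (hz : nd p z = 0) (hb : nd p b = 0) :
    nd2 p (I.acc p x y) z * nd2 p (I.acc p b b) b ^ 2
      = nd2 p (I.acc p x b) b * nd2 p (I.acc p y b) b * nd2 p (I.acc p z b) b := by
  let W : Submodule ℝ E := LinearMap.ker (nd p).toLinearMap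
  haveI : CompleteSpace W := (nd p).isClosed_ker.completeSpace_coe
  have hW : ∀ w : W, nd p (w : E) = 0 := fun w => w.2
  let K : W →L[ℝ] W →L[ℝ] W := LinearMap.mkContinuous₂
    (LinearMap.mk₂ ℝ (fun s t : W => (⟨I.acc p s t, I.nd_acc hE hF hp s t⟩ : W))
      (fun a b c => Subtype.ext (by simp)) (fun c a b => Subtype.ext (by simp))
      (fun a b c => Subtype.ext (by simp)) (fun c a b => Subtype.ext (by simp)))
    ‖I.acc p‖ (fun s t => (I.acc p).le_opNorm₂ (s : E) (t : E))
  let S : W →L[ℝ] W →L[ℝ] ℝ := (nd2 p).bilinearComp W.subtypeL W.subtypeL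
  have hSW : ∀ s t : W, S s t = nd2 p (s : E) (t : E) := fun s t => rfl
  have hKW : ∀ s t : W, ((K s t : W) : E) = I.acc p (s : E) (t : E) := fun s t => rfl
  have hf := hess_form hE hF hp
  have D : Cubic S (Real.sqrt ‖nd2 p‖) (fun u : W => (nd (u : E)).comp W.subtypeL) K := by
    refine ⟨⟨fun s t => hf.symm _ _, fun s => hf.nonneg _, hf.C_nonneg, fun s => hf.le (s : E)⟩,
      fun u hu => (hE.smooth.hasFDerivAt (fun h => hu (Subtype.ext h))).comp u W.subtypeL.hasFDerivAt,
      fun s t => Subtype.ext (I.acc_symm hE hF hp _ _), fun s t w => ?_, fun s u hu => ?_⟩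
    · simp only [hSW, hKW]; exact I.cubic_tot hE hF hp (hW s) (hW t) (hW w)
    · have hu0 : (u : E) ≠ 0 := fun h => hu (Subtype.ext h)
      simp only [ContinuousLinearMap.comp_apply, Submodule.subtypeL_apply, hKW, hSW,
        I.nd_acc_eq hE hF hp (hW u) hu0, abs_mul]
      rw [mul_comm (2 : ℝ)]
      refine mul_le_mul_of_nonneg_left ?_ (abs_nonneg _)
      have t1 := (nd (I.M p u)).le_of_opNorm_le (norm_nd_le _) (I.T p)
      have t2 := (nd (u : E)).le_of_opNorm_le (norm_nd_le _) p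
      simp only [Real.norm_eq_abs, I.norm_T, hp, one_mul] at t1 t2
      exact (abs_sub _ _).trans (by linarith)
  exact D.rank_one ⟨x, hx⟩ ⟨y, hy⟩ ⟨z, hz⟩ ⟨b, hb⟩

omit hE hF in
theorem continuousAt_proj (hE : UC2 E) {a : E} (ha : a ≠ 0) (s : E) :
    ContinuousAt (fun p : E => s - nd p s • p) a :=
  continuousAt_const.sub (((hE.smooth.continuousAt_nd ha).clm_apply continuousAt_const).smul continuousAt_id)

theorem continuousAt_acc {a : E} (ha : ‖a‖ = 1) {f g : E → E} (hf : ContinuousAt f a)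
    (hg : ContinuousAt g a) : ContinuousAt (fun p => I.acc p (f p) (g p)) a := by
  have hS : ContinuousAt (fun p => I.symm.M (I.T p)) a :=
    ((I.symm.taylor_M hF hE).1 (I.T a) (by rw [I.norm_T, ha]; norm_num)).continuousAt.comp
      I.continuous.continuousAt
  simp only [acc_apply]
  exact hS.clm_apply (((I.continuousAt_M2 hE hF ha).clm_apply hf).clm_apply hg)

theorem continuousAt_cubic {a : E} (ha : ‖a‖ = 1) {f g k : E → E} (hf : ContinuousAt f a)
    (hg : ContinuousAt g a) (hk : ContinuousAt k a) :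
    ContinuousAt (fun p => nd2 p (I.acc p (f p) (g p)) (k p)) a := by
  have hQ : ContinuousAt (fun p : E => nd2 p) a :=
    hE.continuousAt_nd2 (norm_pos_iff.1 (ha ▸ one_pos))
  exact (hQ.clm_apply (I.continuousAt_acc hE hF ha hf hg)).clm_apply hk

variable (hL : LUR E)
include hL

/-- A continuous field of tangent vectors orthogonal to all tangents vanishes. -/
theorem field_zero {a : E} (ha : ‖a‖ = 1) (v : E → E) (hv : ContinuousAt v a)
    (hnd : ∀ p : E, ‖p‖ = 1 → nd p (v p) = 0)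
    (horth : ∀ p : E, ‖p‖ = 1 → ∀ z, nd p z = 0 → nd2 p (v p) z = 0) : v a = 0 := by
  refine no_kernel_field hE hL ha v hv hnd fun p hp => ?_
  have hp0 : p ≠ 0 := norm_pos_iff.1 (hp ▸ one_pos)
  refine ContinuousLinearMap.ext fun z => ?_
  have h := horth p hp (z - nd p z • p) (by simp [hE.smooth.nd_self hp0, hp])
  rw [map_sub, map_smul, hE.smooth.hess_self_right hp0 (hE.hasFDerivAt_nd hp0), smul_zero, sub_zero] at h
  simp [h]

/-- Where the cubic form is nonzero, the second derivative is a product. -/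
theorem prod_formula {q c : E} (hq : ‖q‖ = 1) (hc : nd q c = 0)
    (hγ' : nd2 q (I.acc q c c) c ≠ 0) {s t : E} (hs' : nd q s = 0) (ht' : nd q t = 0) :
    nd2 q (I.acc q c c) c ^ 2 • I.acc q s t
      = (nd2 q (I.acc q s c) c * nd2 q (I.acc q t c) c) • I.acc q c c := by
  let P : E → E → E := fun p s => s - nd p s • p
  have hP : ∀ p : E, ‖p‖ = 1 → ∀ s, nd p (P p s) = 0 := fun p hp s => by
    simp [P, hE.smooth.nd_self (norm_pos_iff.1 (hp ▸ one_pos : (0:ℝ) < ‖p‖)), hp]
  have hq0 : q ≠ 0 := norm_pos_iff.1 (hq ▸ one_pos)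
  have hQc : ∀ r : E → E, ContinuousAt r q → ∀ (r' : E → E), ContinuousAt r' q →
      ContinuousAt (fun p => nd2 p (I.acc p (r p) (r' p)) (P p c)) q := fun r hr r' hr' =>
    I.continuousAt_cubic hE hF hq hr hr' (continuousAt_proj hE hq0 c)
  let G : E → ℝ := fun p => nd2 p (I.acc p (P p c) (P p c)) (P p c)
  let n : E → E → E := fun p s =>
    G p • P p s - nd2 p (I.acc p (P p s) (P p c)) (P p c) • P p c
  have hPq : ∀ s, ContinuousAt (fun p => P p s) q := fun s => continuousAt_proj hE hq0 s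
  have hGc : ContinuousAt G q := hQc _ (hPq c) _ (hPq c)
  have hnc : ∀ s, ContinuousAt (fun p => n p s) q := fun s =>
    (hGc.smul (hPq s)).sub ((hQc _ (hPq s) _ (hPq c)).smul (hPq c))
  have hnnd : ∀ p : E, ‖p‖ = 1 → ∀ s, nd p (n p s) = 0 := fun p hp s => by simp [n, hP p hp]
  have hnl : ∀ p s, nd2 p (I.acc p (n p s) (P p c)) (P p c) = 0 := fun p s => by
    simp [n, G]; ring
  have F : ∀ (u : E) (r : E → E), ContinuousAt r q → (∀ p : E, ‖p‖ = 1 → nd p (r p) = 0) →
      G q • I.acc q (n q u) (r q) = 0 := by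
    intro u r hr hr'
    refine field_zero hE hF hL hq (fun p => G p • I.acc p (n p u) (r p))
      (hGc.smul (I.continuousAt_acc hE hF hq (hnc u) hr))
      (fun p hp => by simp [I.nd_acc hE hF hp]) fun p hp z hz => ?_
    have h := I.cubic_rank_one hE hF hp (hnnd p hp u) (hr' p hp) hz (hP p hp c)
    rw [hnl, zero_mul, zero_mul] at h
    rcases mul_eq_zero.1 h with h | h
    · simp [h]
    · simp [G, eq_zero_of_pow_eq_zero h]
  have hqc : P q c = c := by simp [P, hc]
  have hqs : P q s = s := by simp [P, hs']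
  have hqt : P q t = t := by simp [P, ht']
  have eG : G q = nd2 q (I.acc q c c) c := by simp [G, hqc]
  have h1 := F s (fun p => P p c) (hPq c) (fun p hp => hP p hp c)
  have h2 := F t (fun p => P p c) (hPq c) (fun p hp => hP p hp c)
  have h3 := F s (fun p => n p t) (hnc t) (fun p hp => hnnd p hp t)
  simp only [smul_eq_zero, eG, hγ', false_or] at h1 h2 h3
  simp only [n, eG, hqc, hqs, hqt, map_sub, map_smul, sub_apply, smul_apply] at h1 h2 h3
  rw [I.acc_symm hE hF hq c t] at h3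
  rw [h1, smul_zero, sub_zero] at h3
  have h4 := (smul_eq_zero.1 h3).resolve_left hγ'
  linear_combination (norm := module) (nd2 q (I.acc q c c) c) • h4
    + (nd2 q (I.acc q s c) c) • h2

/-- Where the cubic form is nonzero, the Hessian has rank one. -/
theorem hess_rank_one {q c : E} (hq : ‖q‖ = 1) (hc : nd q c = 0)
    (hγ' : nd2 q (I.acc q c c) c ≠ 0) : ∀ s u, nd q s = 0 → nd q u = 0 →
      nd2 q (I.acc q c c) c * nd2 q s u = nd2 q (I.acc q s c) c * nd2 q c u := by
  have hprod := fun s t hs' ht' => I.prod_formula hE hF hL hq hc hγ' (s := s) (t := t) hs' ht'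
  set g := nd2 q (I.acc q c c) c
  set k := I.acc q c c
  have hf := hess_form hE hF hq
  have hk : nd q k = 0 := I.nd_acc hE hF hq c c
  by_contra! hcon
  obtain ⟨s₀, u₀, hs₀, hu₀, hne⟩ := hcon
  have hkk : nd2 q k k ≠ 0 := fun h => hγ' (by
    have := hf.cs_sq k c
    rw [h, zero_mul] at this
    exact pow_eq_zero_iff two_ne_zero |>.1 (le_antisymm this (sq_nonneg _)))
  have hk0 : k ≠ 0 := fun h => hkk (by simp [h])
  have hlk : nd2 q (I.acc q k c) c = nd2 q k k := by
    rw [I.acc_symm hE hF hq k c, I.cubic_tot hE hF hq hc hk hc]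
  have hgood : ∀ u, nd q u = 0 → nd2 q (I.acc q u c) c ≠ 0 →
      (∃ s, nd q s = 0 ∧ g * nd2 q s u ≠ nd2 q (I.acc q s c) c * nd2 q c u) → nd u k = 0 := by
    intro u hu hlu ⟨s, hs', hsu⟩
    have hu0 : u ≠ 0 := by intro h; simp [h] at hlu
    set s₁ := g • s - nd2 q (I.acc q s c) c • c
    have hs₁ : nd q s₁ = 0 := by simp [s₁, hs', hc]
    have hls₁ : nd2 q (I.acc q s₁ c) c = 0 := by simp [s₁, g]; ring
    have h1 := congrArg (nd u) (hprod s₁ u hs₁ hu)
    rw [hls₁, zero_mul, zero_smul, map_zero, map_smul, I.nd_acc_eq hE hF hq hu hu0,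
      smul_eq_mul] at h1
    have hs1u : nd2 q s₁ u ≠ 0 := by
      have : nd2 q s₁ u = g * nd2 q s u - nd2 q (I.acc q s c) c * nd2 q c u := by simp [s₁]
      rw [this]; exact sub_ne_zero.2 hsu
    have hτ : nd (I.M q u) (I.T q) - nd u q = 0 := by
      rcases mul_eq_zero.1 h1 with h | h
      · exact absurd (pow_eq_zero_iff two_ne_zero |>.1 h) hγ'
      · exact (mul_eq_zero.1 h).resolve_left hs1u
    have h2 := congrArg (nd u) (hprod c u hc hu)
    rw [map_smul, I.nd_acc_eq hE hF hq hu hu0, hτ, mul_zero, smul_zero, map_smul,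
      smul_eq_mul] at h2
    exact (mul_eq_zero.1 h2.symm).resolve_left (mul_ne_zero hγ' hlu)
  have hkn : nd k k ≠ 0 := by rw [hE.smooth.nd_self hk0]; exact norm_ne_zero_iff.2 hk0
  by_cases hGk : ∃ s, nd q s = 0 ∧ g * nd2 q s k ≠ nd2 q (I.acc q s c) c * nd2 q c k
  · exact hkn (hgood k hk (by rwa [hlk]) hGk)
  push Not at hGk
  let ut : ℝ → E := fun t => k + t • u₀
  have hlim : Tendsto (fun t => nd (ut t) k) (𝓝[≠] 0) (𝓝 (nd k k)) := by
    have h1 : ContinuousAt nd (ut 0) := by simpa [ut] using hE.smooth.continuousAt_nd hk0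
    have h2 : ContinuousAt (fun t => nd (ut t)) 0 :=
      h1.comp (show ContinuousAt ut 0 by simp only [ut]; fun_prop)
    have h3 : ContinuousAt (fun t => nd (ut t) k) 0 := h2.clm_apply continuousAt_const
    simpa [ut] using h3.tendsto.mono_left nhdsWithin_le_nhds
  refine hkn (tendsto_nhds_unique hlim (tendsto_const_nhds.congr' ?_))
  have hne2 : ∀ᶠ t in 𝓝[≠] (0:ℝ), nd2 q (I.acc q (ut t) c) c ≠ 0 := by
    have : ContinuousAt (fun t => nd2 q (I.acc q (ut t) c) c) 0 := by simp only [ut]; fun_prop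
    exact nhdsWithin_le_nhds (this.eventually_ne (by simpa [ut, hlk] using hkk))
  filter_upwards [hne2, self_mem_nhdsWithin] with t ht ht0
  refine (hgood (ut t) (by simp [ut, hk, hu₀]) ht ⟨s₀, hs₀, fun h => hne ?_⟩).symm
  have hk' := hGk s₀ hs₀
  simp only [ut, map_add, map_smul, smul_eq_mul] at h
  refine mul_left_cancel₀ (ht0 : t ≠ 0) ?_
  linarith

/-- The cubic form vanishes on the diagonal, unless the space is finite-dimensional. -/
theorem cubic_diag_zero (hinf : ¬ FiniteDimensional ℝ E) {a b : E} (ha : ‖a‖ = 1)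
    (hb : nd a b = 0) : nd2 a (I.acc a b b) b = 0 := by
  by_contra hγ
  have ha0 : a ≠ 0 := norm_pos_iff.1 (ha ▸ one_pos)
  let P : E → E → E := fun p s => s - nd p s • p
  have hP : ∀ p : E, ‖p‖ = 1 → ∀ s, nd p (P p s) = 0 := fun p hp s => by
    simp [P, hE.smooth.nd_self (norm_pos_iff.1 (hp ▸ one_pos : (0:ℝ) < ‖p‖)), hp]
  have hPa : ∀ s, nd a s = 0 → P a s = s := fun s hs => by simp [P, hs]
  have hPc : ∀ s, ContinuousAt (fun p => P p s) a := fun s => continuousAt_proj hE ha0 s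
  let γ : E → ℝ := fun p => nd2 p (I.acc p (P p b) (P p b)) (P p b)
  let m : E → E → E := fun p s =>
    γ p • P p s - nd2 p (I.acc p (P p s) (P p b)) (P p b) • P p b
  have hγc : ContinuousAt γ a := I.continuousAt_cubic hE hF ha (hPc b) (hPc b) (hPc b)
  have hmc : ∀ s, ContinuousAt (fun p => m p s) a := fun s =>
    (hγc.smul (hPc s)).sub ((I.continuousAt_cubic hE hF ha (hPc s) (hPc b) (hPc b)).smul (hPc b))
  have hmnd : ∀ p : E, ‖p‖ = 1 → ∀ s, nd p (m p s) = 0 := fun p hp s => by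
    simp [m, hP p hp]
  have hbb : nd2 a b b ≠ 0 := fun h => hγ (by
    have := (hess_form hE hF ha).cs_sq (I.acc a b b) b
    rw [h, mul_zero] at this
    exact pow_eq_zero_iff two_ne_zero |>.1 (le_antisymm this (sq_nonneg _)))
  have f3 : ∀ s, γ a • (nd2 a (P a b) (P a b) • P a s - nd2 a (P a s) (P a b) • P a b) = 0 := by
    intro s
    have hQ : ∀ r r' : E → E, ContinuousAt r a → ContinuousAt r' a →
        ContinuousAt (fun p => nd2 p (r p) (r' p)) a := fun r r' hr hr' => by
      have hQ : ContinuousAt (fun p : E => nd2 p) a :=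
        hE.continuousAt_nd2 ha0
      exact (hQ.clm_apply hr).clm_apply hr'
    refine field_zero hE hF hL ha
      (fun p => γ p • (nd2 p (P p b) (P p b) • P p s - nd2 p (P p s) (P p b) • P p b))
      (hγc.smul (((hQ _ _ (hPc b) (hPc b)).smul (hPc s)).sub
        ((hQ _ _ (hPc s) (hPc b)).smul (hPc b))))
      (fun p hp => by simp [hP p hp]) fun p hp z hz => ?_
    rcases eq_or_ne (γ p) 0 with h | h
    · simp [h]
    have hk := I.hess_rank_one hE hF hL hp (hP p hp b) h
    have k1 := hk (P p s) z (hP p hp s) hz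
    have k2 := hk (P p s) (P p b) (hP p hp s) (hP p hp b)
    simp only [map_smul, map_sub, smul_apply, sub_apply, smul_eq_mul]
    linear_combination (nd2 p (P p b) (P p b)) * k1 - (nd2 p (P p b) z) * k2
  refine hinf ?_
  have hspan : ∀ x : E, x ∈ Submodule.span ℝ ({a, b} : Set E) := by
    intro x
    have hxa : nd a (x - nd a x • a) = 0 := by simp [hE.smooth.nd_self ha0, ha]
    have h := f3 (x - nd a x • a)
    rw [hPa b hb, hPa _ hxa] at h
    have hγa : γ a ≠ 0 := by simp only [γ, hPa b hb]; exact hγ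
    have h' := sub_eq_zero.1 ((smul_eq_zero.1 h).resolve_left hγa)
    have e : x - nd a x • a = (nd2 a b b)⁻¹ • (nd2 a (x - nd a x • a) b • b) := by
      rw [← h', smul_smul, inv_mul_cancel₀ hbb, one_smul]
    rw [smul_smul, sub_eq_iff_eq_add'] at e
    exact Submodule.mem_span_pair.2 ⟨nd a x, _, e.symm⟩
  have htop : Submodule.span ℝ ({a, b} : Set E) = ⊤ := eq_top_iff.2 fun x _ => hspan x
  exact ⟨htop ▸ Submodule.fg_span (Set.toFinite _)⟩

theorem M2_eq_zero (hinf : ¬ FiniteDimensional ℝ E) {a : E} (ha : ‖a‖ = 1) : I.M2 a = 0 := by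
  have ha0 : a ≠ 0 := norm_pos_iff.1 (ha ▸ one_pos)
  let P : E → E → E := fun p s => s - nd p s • p
  have hP : ∀ p : E, ‖p‖ = 1 → ∀ s, nd p (P p s) = 0 := fun p hp s => by
    simp [P, hE.smooth.nd_self (norm_pos_iff.1 (hp ▸ one_pos : (0:ℝ) < ‖p‖)), hp]
  have hzero : ∀ p : E, ‖p‖ = 1 → ∀ x y z, nd p x = 0 → nd p y = 0 → nd p z = 0 →
      nd2 p (I.acc p x y) z = 0 := by
    intro p hp
    have d := fun w hw => I.cubic_diag_zero hE hF hL hinf hp (b := w) hw
    have s2 : ∀ x y, nd p x = 0 → nd p y = 0 → nd2 p (I.acc p y y) x = 0 := by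
      intro x y hx hy
      have h1 := d (y + x) (by simp [hx, hy])
      have h2 := d (y - x) (by simp [hx, hy])
      have h3 := d x hx
      have t1 := I.cubic_tot hE hF hp hy hx hy
      have t2 := I.acc_symm hE hF hp x y
      simp only [map_add, map_sub, add_apply, sub_apply, t2] at h1 h2
      linarith
    intro x y z hx hy hz
    have h := s2 z (x + y) hz (by simp [hx, hy])
    simp only [map_add, add_apply, s2 z x hz hx, s2 z y hz hy, I.acc_symm hE hF hp y x] at h
    linarith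
  have hacc : ∀ s t, nd a s = 0 → nd a t = 0 → I.acc a s t = 0 := by
    intro s t hs' ht'
    have h := field_zero hE hF hL ha (fun p => I.acc p (P p s) (P p t))
      (I.continuousAt_acc hE hF ha (continuousAt_proj hE ha0 s) (continuousAt_proj hE ha0 t))
      (fun p hp => I.nd_acc hE hF hp _ _)
      (fun p hp z hz => hzero p hp _ _ z (hP p hp s) (hP p hp t) hz)
    simpa [P, hs', ht'] using h
  have G := I.good_at hE hF ha
  refine ContinuousLinearMap.ext fun x => ContinuousLinearMap.ext fun y => ?_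
  have hx : nd a (x - nd a x • a) = 0 := by simp [hE.smooth.nd_self ha0, ha]
  have hy : nd a (y - nd a y • a) = 0 := by simp [hE.smooth.nd_self ha0, ha]
  have h := congrArg (I.M a) (hacc _ _ hx hy)
  rw [I.M_acc hE hF ha, map_zero] at h
  simpa [G.B_self, G.B_symm x a] using h

/-- The extension is linear. -/
theorem exists_linear (hinf : ¬ FiniteDimensional ℝ E) :
    ∃ L : E ≃ₗᵢ[ℝ] F, ∀ x, L x = I.T x := by
  haveI : Nontrivial E := by
    by_contra h
    rw [not_nontrivial_iff_subsingleton] at h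
    exact hinf inferInstance
  have hconn : IsPreconnected ({0}ᶜ : Set E) := by
    refine (isConnected_compl_singleton_of_one_lt_rank ?_ 0).isPreconnected
    by_contra! hle
    exact hinf (Module.rank_lt_aleph0_iff.1 (hle.trans_lt Cardinal.one_lt_aleph0))
  obtain ⟨z₀, hz₀⟩ := exists_ne (0 : E)
  have hder : ∀ z : E, z ≠ 0 → HasFDerivAt I.M (0 : E →L[ℝ] E →L[ℝ] F) z := by
    intro z hz
    have hn := norm_pos_iff.2 hz
    have h1 := (I.taylor_M hE hF).1 (‖z‖⁻¹ • z) (by rw [norm_normalize hz]; norm_num)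
    rw [I.M2_eq_zero hE hF hL hinf (norm_normalize hz)] at h1
    have h2 := h1.comp z ((hasFDerivAt_id z).const_smul (‖z‖⁻¹))
    rw [ContinuousLinearMap.zero_comp] at h2
    refine h2.congr_of_eventuallyEq ?_
    filter_upwards [isOpen_ne.mem_nhds hz] with x hx
    exact (I.M_smul hE.smooth hF.smooth hx (inv_pos.2 hn)).symm
  have hconst : ∀ z, z ≠ 0 → I.M z = I.M z₀ := fun z hz =>
    isOpen_compl_singleton.is_const_of_fderiv_eq_zero hconn
      (fun x hx => (hder x hx).differentiableAt.differentiableWithinAt)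
      (fun x hx => (hder x hx).fderiv) hz hz₀
  have hT : ∀ x, I.M z₀ x = I.T x := by
    intro x
    rcases eq_or_ne x 0 with rfl | hx
    · simp [I.T_zero]
    · rw [← hconst x hx, I.M_self hE.smooth hF.smooth hx]
  refine ⟨{ (LinearEquiv.ofBijective (I.M z₀).toLinearMap (I.M_bijective hE.smooth hF.smooth hz₀)) with
    norm_map' := fun x => by
      show ‖I.M z₀ x‖ = ‖x‖
      rw [hT, I.norm_T] }, fun x => hT x⟩

end SphereIso

end Vale.Agent.P084.Sm
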