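import Mathlib

/-! Growth of linear flows, compared in a norm and in a dominated quadratic seminorm. -/

namespace Vale.Agent.P084.Sm

open Filter Topology Set

variable {W : Type*} [NormedAddCommGroup W] [NormedSpace ℝ W]

/-- The seminorm of a form. -/
noncomputable def hs (S : W →L[ℝ] W →L[ℝ] ℝ) (x : W) : ℝ := Real.sqrt (S x x)

/-- Standing hypotheses on a form. -/
structure Form (S : W →L[ℝ] W →L[ℝ] ℝ) (C : ℝ) : Prop where
  symm : ∀ x y, S x y = S y x
  nonneg : ∀ x, 0 ≤ S x x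
  C_nonneg : 0 ≤ C
  le : ∀ x, hs S x ≤ C * ‖x‖

namespace Form

variable {S : W →L[ℝ] W →L[ℝ] ℝ} {C : ℝ} (hS : Form S C)
include hS

theorem hs_nonneg (x : W) : 0 ≤ hs S x := Real.sqrt_nonneg _

theorem hs_sq (x : W) : hs S x ^ 2 = S x x := Real.sq_sqrt (hS.nonneg x)

theorem expand (x y : W) (s t : ℝ) :
    S (s • x + t • y) (s • x + t • y) = s ^ 2 * S x x + 2 * s * t * S x y + t ^ 2 * S y y := by
  simp only [map_add, map_smul, add_apply, smul_apply, smul_eq_mul]
  rw [hS.symm y x]; ring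

theorem cs_sq (x y : W) : S x y ^ 2 ≤ S x x * S y y := by
  have key : ∀ s : ℝ, 0 ≤ S x x + 2 * s * S x y + s ^ 2 * S y y := fun s => by
    have := hS.nonneg ((1 : ℝ) • x + s • y)
    rw [hS.expand] at this; linarith
  by_cases hy : S y y = 0
  · rw [hy, mul_zero]
    by_contra h
    have hne : S x y ≠ 0 := by
      intro h0; rw [h0] at h; simp at h
    have := key (-(S x x + 1) / (2 * S x y))
    have e : 2 * (-(S x x + 1) / (2 * S x y)) * S x y = -(S x x + 1) := by field_simp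
    rw [hy, e] at this
    linarith
  · have hy' : 0 < S y y := lt_of_le_of_ne (hS.nonneg y) (Ne.symm hy)
    have := key (-(S x y) / S y y)
    field_simp at this
    nlinarith

theorem cs (x y : W) : |S x y| ≤ hs S x * hs S y := by
  refine abs_le_of_sq_le_sq ?_ (mul_nonneg (hS.hs_nonneg x) (hS.hs_nonneg y))
  rw [mul_pow, hS.hs_sq, hS.hs_sq]
  exact hS.cs_sq x y

theorem hs_add_le (x y : W) : hs S (x + y) ≤ hs S x + hs S y := by
  refine (sq_le_sq₀ (hS.hs_nonneg _) (add_nonneg (hS.hs_nonneg x) (hS.hs_nonneg y))).1 ?_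
  have h := hS.expand x y 1 1
  rw [one_smul, one_smul] at h
  rw [hS.hs_sq, h, add_sq, hS.hs_sq, hS.hs_sq]
  have := hS.cs x y
  have := le_abs_self (S x y)
  nlinarith

theorem hs_smul (s : ℝ) (x : W) : hs S (s • x) = |s| * hs S x := by
  simp only [hs, map_smul, smul_apply, smul_eq_mul]
  rw [← mul_assoc, Real.sqrt_mul' _ (hS.nonneg x), Real.sqrt_mul_self_eq_abs]

theorem hs_neg (x : W) : hs S (-x) = hs S x := by simp [hs]

theorem hs_sub_le (x y : W) : hs S (x - y) ≤ hs S x + hs S y := by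
  rw [sub_eq_add_neg]; exact (hS.hs_add_le x (-y)).trans (by rw [hS.hs_neg])

theorem hs_normalize {x : W} (hx : hs S x ≠ 0) : hs S ((hs S x)⁻¹ • x) = 1 := by
  rw [hS.hs_smul, abs_inv, abs_of_nonneg (hS.hs_nonneg x), inv_mul_cancel₀ hx]

end Form

/-- A derivative of the norm away from zero. -/
def NormDeriv (φ : W → W →L[ℝ] ℝ) : Prop :=
  ∀ u, u ≠ 0 → HasFDerivAt (fun x : W => ‖x‖) (φ u) u

variable [CompleteSpace W]

/-- The orbit of a bounded operator. -/
noncomputable def orbit (A : W →L[ℝ] W) (u : W) (t : ℝ) : W := NormedSpace.exp (t • A) u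

theorem orbit_zero (A : W →L[ℝ] W) (u : W) : orbit A u 0 = u := by
  simp [orbit, NormedSpace.exp_zero]

theorem hasDerivAt_orbit (A : W →L[ℝ] W) (u : W) (t : ℝ) :
    HasDerivAt (orbit A u) (A (orbit A u t)) t := by
  have h := (ContinuousLinearMap.apply ℝ W u).hasFDerivAt.comp_hasDerivAt t
    (hasDerivAt_exp_smul_const' A t)
  exact h

theorem orbit_ne_zero (A : W →L[ℝ] W) {u : W} (hu : u ≠ 0) (t : ℝ) : orbit A u t ≠ 0 := by
  intro h
  let g : ℝ → W := fun s => NormedSpace.exp (s • A) (orbit A u t)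
  letI : NormedAlgebra ℚ (W →L[ℝ] W) := NormedAlgebra.restrictScalars ℚ ℝ _
  have e : g (-t) = u := by
    show (NormedSpace.exp ((-t) • A) * NormedSpace.exp (t • A)) u = u
    rw [← NormedSpace.exp_add_of_commute ((Commute.refl A).smul_left _ |>.smul_right _), ← add_smul,
      neg_add_cancel, zero_smul, NormedSpace.exp_zero]
    rfl
  simp [g, h] at e
  exact hu e.symm

theorem orbit_mem {A : W →L[ℝ] W} (f : W →L[ℝ] ℝ) (hf : ∀ x, f (A x) = 0) {u : W} (t : ℝ) :
    f (orbit A u t) = f u := by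
  have h : ∀ s, HasDerivAt (fun s => f (orbit A u s)) 0 s := fun s => by
    have := f.hasFDerivAt.comp_hasDerivAt s (hasDerivAt_orbit A u s)
    rwa [hf] at this
  rw [is_const_of_deriv_eq_zero (fun s => (h s).differentiableAt) (fun s => (h s).deriv) t 0,
    orbit_zero]

variable {S : W →L[ℝ] W →L[ℝ] ℝ} {C : ℝ}

/-- An operator, symmetric on an invariant set, that moves the norm at most like the seminorm. -/
structure Mover (S : W →L[ℝ] W →L[ℝ] ℝ) (φ : W → W →L[ℝ] ℝ) (A : W →L[ℝ] W) (σ : ℝ)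
    (Z : Set W) : Prop where
  inv : ∀ u ∈ Z, ∀ t, orbit A u t ∈ Z
  mem : ∀ u ∈ Z, A u ∈ Z
  symm : ∀ u ∈ Z, ∀ v ∈ Z, S (A u) v = S u (A v)
  move : ∀ u ∈ Z, u ≠ 0 → φ u (A u) ≤ σ * hs S u

/-- Growth estimate and approximate eigenvectors of controlled norm. -/
theorem grow (hS : Form S C) {φ : W → W →L[ℝ] ℝ} (hφ : NormDeriv φ) {A : W →L[ℝ] W} {σ : ℝ}
    {Z : Set W} (hA : Mover S φ A σ Z) (hσ : 0 ≤ σ) {u : W} (hu : u ∈ Z) (hu1 : hs S u = 1)
    {Λ : ℝ} (hΛ : S (A u) u = Λ) (hpos : 0 < Λ) :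
    Λ ≤ C * σ ∧ ∀ ε : ℝ, 0 < ε → ∃ (v : W) (l : ℝ), hs S v = 1 ∧ Λ ≤ l ∧
      hs S (A v - l • v) ≤ ε ∧ ‖v‖ ≤ 1 + σ / Λ := by
  set x := orbit A u with hx
  have hxz : ∀ t, x t ∈ Z := hA.inv u hu
  have hd : ∀ t, HasDerivAt x (A (x t)) t := hasDerivAt_orbit A u
  have hu0 : u ≠ 0 := by intro h; simp [h, hs] at hu1
  have hx0 : ∀ t, x t ≠ 0 := orbit_ne_zero A hu0
  let H : ℝ → ℝ := fun t => S (x t) (x t)
  let P : ℝ → ℝ := fun t => S (A (x t)) (x t)
  have hH : ∀ t, HasDerivAt H (2 * P t) t := fun t => by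
    have := (S.hasFDerivAt.comp_hasDerivAt t (hd t)).clm_apply (hd t)
    refine this.congr_deriv ?_
    simp only [P, Function.comp_apply]
    rw [hS.symm (x t) (A (x t))]; ring
  have hP : ∀ t, HasDerivAt P (2 * S (A (x t)) (A (x t))) t := fun t => by
    have := (S.hasFDerivAt.comp_hasDerivAt t (A.hasFDerivAt.comp_hasDerivAt t (hd t))).clm_apply
      (hd t)
    refine this.congr_deriv ?_
    simp only [Function.comp_apply]
    rw [hA.symm _ (hA.mem _ (hxz t)) _ (hxz t)]; ring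
  have hPH : ∀ t, P t ^ 2 ≤ S (A (x t)) (A (x t)) * H t := fun t => hS.cs_sq _ _
  have hH0 : H 0 = 1 := by simp [H, hx, orbit_zero, ← hS.hs_sq, hu1]
  have hP0 : P 0 = Λ := by simp [P, hx, orbit_zero, hΛ]
  have hPmono : Monotone P := monotone_of_deriv_nonneg (fun t => (hP t).differentiableAt)
    fun t => by rw [(hP t).deriv]; linarith [hS.nonneg (A (x t))]
  have hH1 : ∀ t, 0 ≤ t → 1 + 2 * Λ * t ≤ H t := by
    intro t ht
    have hm : MonotoneOn (fun s => H s - 2 * Λ * s) (Ici 0) := by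
      refine monotoneOn_of_hasDerivWithinAt_nonneg (convex_Ici 0)
        (fun s _ => ((hH s).sub ((hasDerivAt_id s).const_mul (2 * Λ))).continuousAt.continuousWithinAt)
        (fun s _ => ((hH s).sub ((hasDerivAt_id s).const_mul (2 * Λ))).hasDerivWithinAt) ?_
      intro s hs
      rw [interior_Ici] at hs
      have := hPmono (le_of_lt hs : (0:ℝ) ≤ s)
      linarith
    have h := hm self_mem_Ici ht ht
    simp only [hH0, mul_zero, sub_zero] at h
    linarith
  have hHpos : ∀ t, 0 ≤ t → 0 < H t := fun t ht => by nlinarith [hH1 t ht]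
  have hr : ∀ t, 0 ≤ t → HasDerivAt (fun s => P s / H s)
      (2 * (S (A (x t)) (A (x t)) * H t - P t ^ 2) / H t ^ 2) t := fun t ht =>
    ((hP t).div (hH t) (hHpos t ht).ne').congr_deriv (by ring)
  have hrmono : MonotoneOn (fun s => P s / H s) (Ici 0) := by
    refine monotoneOn_of_hasDerivWithinAt_nonneg (convex_Ici 0)
      (fun s hs => (hr s hs).continuousAt.continuousWithinAt)
      (fun s hs => (hr s (interior_subset hs)).hasDerivWithinAt) ?_
    intro s hs
    have := hPH s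
    exact div_nonneg (by linarith) (sq_nonneg _)
  have hrle : ∀ t, 0 ≤ t → Λ ≤ P t / H t := fun t ht => by
    have := hrmono self_mem_Ici ht ht
    simpa [hP0, hH0] using this
  have hsH : ∀ t, 0 ≤ t → HasDerivAt (fun s => Real.sqrt (H s)) (P t / Real.sqrt (H t)) t :=
    fun t ht => ((hH t).sqrt (hHpos t ht).ne').congr_deriv (by ring)
  -- norm of the orbit
  have hF : ∀ t, 0 ≤ t → ‖x t‖ ≤ ‖u‖ + σ / Λ * Real.sqrt (H t) := by
    intro t ht
    have hG : ∀ s, 0 ≤ s → HasDerivAt (fun s => ‖x s‖ - σ / Λ * Real.sqrt (H s))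
        (φ (x s) (A (x s)) - σ / Λ * (P s / Real.sqrt (H s))) s := fun s h0 =>
      ((hφ _ (hx0 s)).comp_hasDerivAt s (hd s)).sub ((hsH s h0).const_mul _)
    have hanti : AntitoneOn (fun s => ‖x s‖ - σ / Λ * Real.sqrt (H s)) (Ici 0) := by
      refine antitoneOn_of_hasDerivWithinAt_nonpos (convex_Ici 0)
        (fun s hs => (hG s hs).continuousAt.continuousWithinAt)
        (fun s hs => (hG s (interior_subset hs)).hasDerivWithinAt) ?_
      intro s hs'
      have h0 : (0:ℝ) ≤ s := mem_Ici.1 (interior_subset hs')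
      have h1 := hA.move _ (hxz s) (hx0 s)
      have hsq : 0 < Real.sqrt (H s) := Real.sqrt_pos.2 (hHpos s h0)
      have h2 : Λ * Real.sqrt (H s) ≤ P s / Real.sqrt (H s) := by
        rw [le_div_iff₀ hsq, mul_assoc, Real.mul_self_sqrt (hHpos s h0).le, ← le_div_iff₀ (hHpos s h0)]
        exact hrle s h0
      have h3 := mul_le_mul_of_nonneg_left h2 (div_nonneg hσ hpos.le)
      rw [← mul_assoc, div_mul_cancel₀ _ hpos.ne'] at h3
      have : hs S (x s) = Real.sqrt (H s) := rfl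
      rw [this] at h1
      linarith
    have h := hanti self_mem_Ici ht ht
    simp only [hH0, Real.sqrt_one, hx, orbit_zero] at h
    have : 0 ≤ σ / Λ := by positivity
    simp only [hx] at *
    linarith
  obtain ⟨B, hB⟩ : ∃ B, ∀ t, 0 ≤ t → P t / H t ≤ B := by
    refine ⟨‖A‖ * C * C * (1 + σ / Λ) ^ 2 + ‖A‖ * C * C * (‖u‖ + σ / Λ) ^ 2, fun t ht => ?_⟩
    have h1 := hS.cs (A (x t)) (x t)
    have h2 : hs S (A (x t)) ≤ C * (‖A‖ * ‖x t‖) :=
      (hS.le _).trans (mul_le_mul_of_nonneg_left (A.le_opNorm _) hS.C_nonneg)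
    have h3 := hS.le (x t)
    have hs1 : 1 ≤ Real.sqrt (H t) := by
      rw [← Real.sqrt_one]
      exact Real.sqrt_le_sqrt (by nlinarith [hH1 t ht])
    have h4 : ‖x t‖ ≤ (‖u‖ + σ / Λ) * Real.sqrt (H t) := by
      refine (hF t ht).trans ?_
      nlinarith [norm_nonneg u]
    rw [div_le_iff₀ (hHpos t ht)]
    have hC := hS.C_nonneg
    have h5 : P t ≤ ‖A‖ * C * C * ‖x t‖ ^ 2 := by
      refine (le_abs_self _).trans (h1.trans ?_)
      refine (mul_le_mul h2 h3 (hS.hs_nonneg _) (by positivity)).trans (le_of_eq ?_)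
      ring
    have h6 : ‖x t‖ ^ 2 ≤ (‖u‖ + σ / Λ) ^ 2 * H t := by
      have := pow_le_pow_left₀ (norm_nonneg _) h4 2
      rwa [mul_pow, Real.sq_sqrt (hHpos t ht).le] at this
    have h7 := mul_le_mul_of_nonneg_left h6 (by positivity : 0 ≤ ‖A‖ * C * C)
    have h8 : 0 ≤ ‖A‖ * C * C * (1 + σ / Λ) ^ 2 * H t := by
      have := (hHpos t ht).le
      positivity
    linarith
  constructor
  · by_contra! hlt
    have hC := hS.C_nonneg
    have hgap : 0 < 1 - C * (σ / Λ) := by
      rw [sub_pos, ← mul_div_assoc, div_lt_one hpos]; exact hlt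
    set R := C * ‖u‖ / (1 - C * (σ / Λ)) with hR
    have hR0 : 0 ≤ R := by positivity
    obtain ⟨t, ht, hbig⟩ : ∃ t : ℝ, 0 ≤ t ∧ (R + 1) ^ 2 < 1 + 2 * Λ * t :=
      ⟨((R + 1) ^ 2) / (2 * Λ), by positivity, by field_simp; linarith⟩
    have h1 : Real.sqrt (H t) ≤ C * ‖x t‖ := hS.le (x t)
    have h2 := mul_le_mul_of_nonneg_left (hF t ht) hC
    have h3 : R + 1 < Real.sqrt (H t) :=
      Real.lt_sqrt_of_sq_lt (lt_of_lt_of_le hbig (hH1 t ht))
    have h4 : R * (1 - C * (σ / Λ)) = C * ‖u‖ := div_mul_cancel₀ _ hgap.ne'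
    nlinarith
  · intro ε hε
    set t₀ := (‖u‖ ^ 2 + 1) / (2 * Λ) with ht₀
    have ht₀0 : 0 ≤ t₀ := by positivity
    set N := (B - Λ + 1) / (2 * ε ^ 2) with hN
    have hBΛ : Λ ≤ B := (hrle 0 le_rfl).trans (hB 0 le_rfl)
    have hN0 : 0 < N := div_pos (by linarith) (by positivity)
    obtain ⟨t, ⟨htl, htu⟩, hte⟩ := exists_hasDerivAt_eq_slope (fun s => P s / H s)
      (fun s => 2 * (S (A (x s)) (A (x s)) * H s - P s ^ 2) / H s ^ 2) (lt_add_of_pos_right t₀ hN0)
      (fun s hs => (hr s (ht₀0.trans hs.1)).continuousAt.continuousWithinAt)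
      (fun s hs => hr s (ht₀0.trans hs.1.le))
    have ht : 0 ≤ t := ht₀0.trans htl.le
    have hHt := hHpos t ht
    have hsq : 0 < Real.sqrt (H t) := Real.sqrt_pos.2 hHt
    refine ⟨(Real.sqrt (H t))⁻¹ • x t, P t / H t, hS.hs_normalize hsq.ne', hrle t ht, ?_, ?_⟩
    · have hslope : 2 * (S (A (x t)) (A (x t)) * H t - P t ^ 2) / H t ^ 2 ≤ 2 * ε ^ 2 := by
        rw [hte, div_le_iff₀ (by linarith)]
        have h1 := hB (t₀ + N) (by linarith)
        have h2 := hrle t₀ ht₀0
        have h3 : 2 * ε ^ 2 * (t₀ + N - t₀) = B - Λ + 1 := by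
          rw [hN, add_sub_cancel_left]; field_simp
        linarith
      refine (sq_le_sq₀ (hS.hs_nonneg _) hε.le).1 ?_
      rw [hS.hs_sq]
      have e : A ((Real.sqrt (H t))⁻¹ • x t) - (P t / H t) • ((Real.sqrt (H t))⁻¹ • x t)
          = (Real.sqrt (H t))⁻¹ • A (x t) + (-((P t / H t) * (Real.sqrt (H t))⁻¹)) • x t := by
        rw [map_smul, smul_smul]; module
      rw [e, hS.expand]
      have : (Real.sqrt (H t))⁻¹ ^ 2 * S (A (x t)) (A (x t)) + 2 * (Real.sqrt (H t))⁻¹ *
          (-((P t / H t) * (Real.sqrt (H t))⁻¹)) * P t + (-((P t / H t) * (Real.sqrt (H t))⁻¹)) ^ 2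
            * H t = (S (A (x t)) (A (x t)) * H t - P t ^ 2) / H t ^ 2 := by
        have hh := Real.sq_sqrt hHt.le
        field_simp
        rw [hh]; ring
      simp only [P, H] at this ⊢
      rw [this]
      rw [mul_div_assoc] at hslope
      linarith
    · rw [norm_smul, norm_inv, Real.norm_of_nonneg hsq.le, inv_mul_le_iff₀ hsq]
      refine (hF t ht).trans ?_
      have : ‖u‖ ≤ Real.sqrt (H t) := by
        refine Real.le_sqrt_of_sq_le ?_
        have h1 := hH1 t ht
        have h2 : ‖u‖ ^ 2 + 1 ≤ 2 * Λ * t := by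
          have := mul_le_mul_of_nonneg_left htl.le (by linarith : (0:ℝ) ≤ 2 * Λ)
          rwa [ht₀, mul_div_cancel₀ _ (by linarith : (2:ℝ) * Λ ≠ 0)] at this
        linarith
      rw [mul_add, mul_one, mul_comm]
      linarith

/-- An orbit starting near an eigenvector and orthogonal to the weight keeps its norm small. -/
theorem near_eigen (hS : Form S C) {φ : W → W →L[ℝ] ℝ} (hφ : NormDeriv φ) {A : W →L[ℝ] W}
    {η w : W} {l β δ T : ℝ} (hsym : ∀ x, hs S (A x) ≤ β * hs S x)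
    (hmove : ∀ u, u ≠ 0 → φ u (A u) ≤ 2 * |S η u|) (hw : S η w = 0) (hw0 : w ≠ 0) (hl : 0 ≤ l)
    (hβ : 0 ≤ β) (hδ0 : 0 ≤ δ) (hδ : hs S (A w - l • w) ≤ δ) (hT : 0 ≤ T) :
    Real.exp (l * T) * hs S w ≤ C * ‖w‖ +
      (1 + 2 * C * T * hs S η) * (δ * Real.sqrt (T * Real.exp ((2 * β + 1 + 2 * l) * T))) := by
  set k := 2 * β + 1 + 2 * l with hk
  set x := orbit A w with hx
  have hd : ∀ t, HasDerivAt x (A (x t)) t := hasDerivAt_orbit A w
  let D : ℝ → W := fun t => x t - Real.exp (l * t) • w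
  have hD : ∀ t, HasDerivAt D (A (D t) + Real.exp (l * t) • (A w - l • w)) t := fun t => by
    refine ((hd t).sub (((hasDerivAt_id t).const_mul l).exp.smul_const w)).congr_deriv ?_
    simp only [D, map_sub, map_smul, id, mul_one]
    module
  let G : ℝ → ℝ := fun t => S (D t) (D t) * Real.exp (-(k * t))
  have hG : ∀ t, HasDerivAt G ((2 * S (A (D t) + Real.exp (l * t) • (A w - l • w)) (D t)
      - k * S (D t) (D t)) * Real.exp (-(k * t))) t := fun t => by
    refine (((S.hasFDerivAt.comp_hasDerivAt t (hD t)).clm_apply (hD t)).mul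
      (((hasDerivAt_id t).const_mul k).neg.exp)).congr_deriv ?_
    simp only [id, mul_one, Function.comp_apply, Pi.neg_apply]
    rw [hS.symm (D t) (A (D t) + _)]
    ring
  have hGb : ∀ t ∈ Icc (0:ℝ) T, S (D t) (D t) ≤ δ ^ 2 * T * Real.exp (k * T) := by
    intro t ht
    have hanti : AntitoneOn (fun s => G s - δ ^ 2 * s) (Ici 0) := by
      refine antitoneOn_of_hasDerivWithinAt_nonpos (convex_Ici 0)
        (fun s _ => ((hG s).sub ((hasDerivAt_id s).const_mul (δ ^ 2))).continuousAt.continuousWithinAt)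
        (fun s _ => ((hG s).sub ((hasDerivAt_id s).const_mul (δ ^ 2))).hasDerivWithinAt) ?_
      intro s hs'
      rw [interior_Ici] at hs'
      have h1 := hS.cs (A (D s)) (D s)
      have h2 := hS.cs (A w - l • w) (D s)
      rw [abs_le] at h1 h2
      have h3 := mul_le_mul_of_nonneg_right (hsym (D s)) (hS.hs_nonneg (D s))
      have he : 0 < Real.exp (l * s) := Real.exp_pos _
      have h4 := mul_le_mul_of_nonneg_right hδ (hS.hs_nonneg (D s))
      have hp := hS.hs_sq (D s)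
      have key : 2 * S (A (D s) + Real.exp (l * s) • (A w - l • w)) (D s) - k * S (D s) (D s)
          ≤ Real.exp (l * s) ^ 2 * δ ^ 2 := by
        rw [map_add, map_smul, add_apply, smul_apply, smul_eq_mul]
        have h5 := mul_le_mul_of_nonneg_left (h2.2.trans h4) he.le
        nlinarith [sq_nonneg (Real.exp (l * s) * δ - hs S (D s)), hS.nonneg (D s)]
      have h6 : Real.exp (l * s) ^ 2 * Real.exp (-(k * s)) ≤ 1 := by
        rw [← Real.exp_nat_mul, ← Real.exp_add, Real.exp_le_one_iff]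
        push_cast
        nlinarith [le_of_lt (mem_Ioi.1 hs')]
      have h7 := mul_le_mul_of_nonneg_right key (Real.exp_nonneg (-(k * s)))
      have h8 := mul_le_mul_of_nonneg_right h6 (sq_nonneg δ)
      linarith
    have h := hanti self_mem_Ici (mem_Ici.2 ht.1) ht.1
    have e0 : D 0 = 0 := by simp [D, hx, orbit_zero]
    simp only [G, e0, map_zero, zero_mul, mul_zero, sub_zero] at h
    have h9 : S (D t) (D t) * Real.exp (-(k * t)) ≤ δ ^ 2 * t := by linarith
    have h10 := mul_le_mul_of_nonneg_right h9 (Real.exp_nonneg (k * t))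
    rw [mul_assoc, ← Real.exp_add, neg_add_cancel, Real.exp_zero, mul_one] at h10
    refine h10.trans ?_
    have hk0 : 0 ≤ k := by positivity
    gcongr
    · exact ht.2
    · exact ht.2
  set E := δ * Real.sqrt (T * Real.exp (k * T)) with hE
  have hDs : ∀ t ∈ Icc (0:ℝ) T, hs S (D t) ≤ E := by
    intro t ht
    refine (sq_le_sq₀ (hS.hs_nonneg _) (by positivity)).1 ?_
    rw [hS.hs_sq, hE, mul_pow, Real.sq_sqrt (by positivity), ← mul_assoc]
    exact hGb t ht
  have hx0 : ∀ t, x t ≠ 0 := orbit_ne_zero A hw0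
  have hN : ∀ t, HasDerivAt (fun s => ‖x s‖) (φ (x t) (A (x t))) t := fun t =>
    (hφ _ (hx0 t)).comp_hasDerivAt t (hd t)
  have hnorm : ‖x T‖ ≤ ‖w‖ + 2 * (hs S η * E) * T := by
    have hanti : AntitoneOn (fun s => ‖x s‖ - 2 * (hs S η * E) * s) (Icc 0 T) := by
      refine antitoneOn_of_hasDerivWithinAt_nonpos (convex_Icc 0 T)
        (fun s _ => ((hN s).sub ((hasDerivAt_id s).const_mul _)).continuousAt.continuousWithinAt)
        (fun s _ => ((hN s).sub ((hasDerivAt_id s).const_mul _)).hasDerivWithinAt) ?_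
      intro s hs'
      have hm := interior_subset hs'
      have h1 := hmove _ (hx0 s)
      have h2 : S η (x s) = S η (D s) := by simp [D, hw]
      have h3 := (hS.cs η (D s)).trans (mul_le_mul_of_nonneg_left (hDs s hm) (hS.hs_nonneg η))
      rw [← h2] at h3
      linarith
    have h := hanti (left_mem_Icc.2 hT) (right_mem_Icc.2 hT) hT
    simp only [hx, orbit_zero, mul_zero, sub_zero] at h ⊢
    linarith
  have h1 : Real.exp (l * T) * hs S w ≤ hs S (x T) + hs S (D T) := by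
    have h := hS.hs_sub_le (x T) (D T)
    simp only [D, sub_sub_cancel, hS.hs_smul, abs_of_pos (Real.exp_pos _)] at h
    exact h
  have h2 := mul_le_mul_of_nonneg_left hnorm hS.C_nonneg
  have h3 := hDs T (right_mem_Icc.2 hT)
  have h4 := hS.le (x T)
  linarith

end Vale.Agent.P084.Sm
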