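import Vale.Agent.P084.Sm.Iso

/-! Norms with uniformly continuous bounded second derivative, and their chord functionals. -/

namespace Vale.Agent.P084.Sm

set_option linter.unusedSectionVars false

open Filter Topology Set Metric

/-- Second derivative of the norm. -/
noncomputable def nd2 {E : Type*} [NormedAddCommGroup E] [NormedSpace ℝ E] (z : E) :
    E →L[ℝ] E →L[ℝ] ℝ := fderiv ℝ (nd : E → E →L[ℝ] ℝ) z

/-- The norm is twice differentiable away from zero, with a second derivative that is bounded and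
uniformly continuous on the unit sphere. -/
structure UC2 (E : Type*) [NormedAddCommGroup E] [NormedSpace ℝ E] : Prop where
  diff : ∀ z : E, z ≠ 0 → DifferentiableAt ℝ (fun x : E => ‖x‖) z
  diff2 : ∀ z : E, z ≠ 0 → DifferentiableAt ℝ (nd : E → E →L[ℝ] ℝ) z
  bdd : ∃ C : ℝ, ∀ x : E, ‖x‖ = 1 → ‖nd2 x‖ ≤ C
  unif : UniformContinuousOn (fun x : E => nd2 x) (sphere (0 : E) 1)

theorem norm_smul2 {E : Type*} [NormedAddCommGroup E] [NormedSpace ℝ E] (r : ℝ)
    (T : E →L[ℝ] E →L[ℝ] ℝ) : ‖r • T‖ ≤ |r| * ‖T‖ := by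
  rw [← Real.norm_eq_abs]; exact ContinuousLinearMap.opNorm_smul_le r T

namespace UC2

variable {E : Type*} [NormedAddCommGroup E] [NormedSpace ℝ E] (h : UC2 E)
include h

theorem hasFDerivAt_nd {z : E} (hz : z ≠ 0) : HasFDerivAt nd (nd2 z) z :=
  (h.diff2 z hz).hasFDerivAt

theorem nd2_smul {z : E} (hz : z ≠ 0) {c : ℝ} (hc : 0 < c) : nd2 (c • z) = c⁻¹ • nd2 z := by
  have h1 := (h.hasFDerivAt_nd (smul_ne_zero hc.ne' hz)).comp z
    ((hasFDerivAt_id z).const_smul c)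
  have he : (nd ∘ fun x : E => c • x) = nd := funext fun x => nd_smul_pos x hc
  erw [he] at h1
  rw [(h.hasFDerivAt_nd hz).unique h1]
  refine ContinuousLinearMap.ext fun x => ?_
  simp only [smul_apply, ContinuousLinearMap.comp_apply, ContinuousLinearMap.id_apply, map_smul,
    smul_smul, inv_mul_cancel₀ hc.ne', one_smul]

theorem nd2_normalize {z : E} (hz : z ≠ 0) : nd2 z = ‖z‖⁻¹ • nd2 (‖z‖⁻¹ • z) := by
  rw [h.nd2_smul hz (inv_pos.2 (norm_pos_iff.2 hz)), inv_inv, smul_smul,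
    inv_mul_cancel₀ (norm_ne_zero_iff.2 hz), one_smul]

theorem exists_bound : ∃ C : ℝ, 0 ≤ C ∧ ∀ z : E, z ≠ 0 → ‖nd2 z‖ ≤ C / ‖z‖ := by
  obtain ⟨C, hC⟩ := h.bdd
  refine ⟨|C|, abs_nonneg _, fun z hz => ?_⟩
  rw [h.nd2_normalize hz, div_eq_inv_mul]
  refine (norm_smul2 _ _).trans ?_
  rw [abs_inv, abs_norm]
  exact mul_le_mul_of_nonneg_left ((hC _ (norm_normalize hz)).trans (le_abs_self C))
    (inv_nonneg.2 (norm_nonneg z))

theorem seg_ne {a b : E} (ha : ‖a‖ = 1) (hab : ‖a - b‖ ≤ 1 / 2) :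
    ∀ x ∈ segment ℝ a b, x ≠ 0 ∧ 1 / 2 ≤ ‖x‖ := by
  intro x hx
  have h1 : ‖x - a‖ ≤ 1 / 2 := by
    have := norm_sub_le_of_mem_segment hx
    rw [norm_sub_rev b] at this
    exact this.trans hab
  have h2 := norm_sub_norm_le a x
  rw [norm_sub_rev a x, ha] at h2
  exact ⟨norm_pos_iff.1 (by linarith), by linarith⟩

theorem smooth : SmoothNorm E := by
  obtain ⟨C, hC0, hC⟩ := h.exists_bound
  have hunit : ∀ a b : E, ‖a‖ = 1 → ‖b‖ = 1 → ‖nd a - nd b‖ ≤ (2 * C + 4) * ‖a - b‖ := by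
    intro a b ha hb
    rcases le_or_gt ‖a - b‖ (1 / 2) with hab | hab
    · have hs := h.seg_ne ha hab
      have hmv := (convex_segment a b).norm_image_sub_le_of_norm_hasFDerivWithin_le
        (f := nd) (f' := nd2) (C := 2 * C)
        (fun x hx => (h.hasFDerivAt_nd (hs x hx).1).hasFDerivWithinAt)
        (fun x hx => (hC x (hs x hx).1).trans (by
          rw [div_le_iff₀ (by linarith [(hs x hx).2])]
          nlinarith [(hs x hx).2]))
        (right_mem_segment ℝ a b) (left_mem_segment ℝ a b)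
      refine hmv.trans ?_
      gcongr; linarith
    · refine (norm_sub_le _ _).trans ?_
      have := norm_nd_le a
      have := norm_nd_le b
      nlinarith
  refine ⟨fun z hz => h.diff z hz, 2 * (2 * C + 4), by positivity, fun z w hz hw => ?_⟩
  have h := hunit _ _ (norm_normalize hz) (norm_normalize hw)
  rw [nd_smul_pos z (inv_pos.2 (norm_pos_iff.2 hz)), nd_smul_pos w (inv_pos.2 (norm_pos_iff.2 hw))]
    at h
  refine h.trans ?_
  refine (mul_le_mul_of_nonneg_left (normalize_sub_le hz hw) (by positivity)).trans (le_of_eq ?_)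
  ring

theorem unif_outside {ρ : ℝ} (hρ : 0 < ρ) {ε : ℝ} (hε : 0 < ε) :
    ∃ η > (0 : ℝ), ∀ x y : E, ρ ≤ ‖x‖ → ρ ≤ ‖y‖ → ‖x - y‖ ≤ η → ‖nd2 x - nd2 y‖ ≤ ε := by
  obtain ⟨C, hC0, hC⟩ := h.exists_bound
  have hun : UniformContinuousOn (nd2 : E → E →L[ℝ] E →L[ℝ] ℝ) (sphere (0 : E) 1) := h.unif
  have hu' : ∀ r > (0 : ℝ), ∃ d > (0 : ℝ), ∀ a ∈ sphere (0 : E) 1, ∀ b ∈ sphere (0 : E) 1,
      dist a b ≤ d → dist (nd2 a) (nd2 b) ≤ r := Metric.uniformContinuousOn_iff_le.1 hun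
  obtain ⟨η₁, hη₁, hu⟩ := hu' (ε * ρ / 2) (by positivity)
  refine ⟨min (η₁ * ρ / 2) (ε * ρ ^ 2 / (2 * (C + 1))), lt_min (by positivity) (by positivity),
    fun x y hx hy hxy => ?_⟩
  have hxn : 0 < ‖x‖ := hρ.trans_le hx
  have hyn : 0 < ‖y‖ := hρ.trans_le hy
  have hx0 := norm_pos_iff.1 hxn
  have hy0 := norm_pos_iff.1 hyn
  rw [h.nd2_normalize hx0, h.nd2_normalize hy0]
  set a := ‖x‖⁻¹ • x
  set b := ‖y‖⁻¹ • y
  have ha : ‖a‖ = 1 := norm_normalize hx0
  have hb : ‖b‖ = 1 := norm_normalize hy0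
  have hab : dist a b ≤ η₁ := by
    rw [dist_eq_norm]
    refine (normalize_sub_le hx0 hy0).trans ?_
    rw [div_le_iff₀ hxn]
    have := hxy.trans (min_le_left _ _)
    have := mul_le_mul_of_nonneg_left hx hη₁.le
    linarith
  have h1 : ‖nd2 a - nd2 b‖ ≤ ε * ρ / 2 := le_trans (le_of_eq (dist_eq_norm (nd2 a) (nd2 b)).symm)
    (hu a (by simpa using ha) b (by simpa using hb) hab)
  have hC1 : ‖nd2 a‖ ≤ C := by
    have := hC a (norm_pos_iff.1 (ha ▸ one_pos)); rwa [ha, div_one] at this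
  have e : ‖x‖⁻¹ • nd2 a - ‖y‖⁻¹ • nd2 b
      = (‖x‖⁻¹ - ‖y‖⁻¹) • nd2 a + ‖y‖⁻¹ • (nd2 a - nd2 b) := by module
  rw [e]
  refine le_trans (norm_add_le ((‖x‖⁻¹ - ‖y‖⁻¹) • nd2 a) (‖y‖⁻¹ • (nd2 a - nd2 b)))
    (le_trans (add_le_add (norm_smul2 (‖x‖⁻¹ - ‖y‖⁻¹) (nd2 a))
      (norm_smul2 ‖y‖⁻¹ (nd2 a - nd2 b))) ?_)
  rw [abs_inv ‖y‖, abs_norm]
  have h2 : |‖x‖⁻¹ - ‖y‖⁻¹| ≤ ‖x - y‖ / ρ ^ 2 := by
    rw [inv_sub_inv hxn.ne' hyn.ne', abs_div, abs_mul, abs_of_pos hxn, abs_of_pos hyn, sq,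
      norm_sub_rev x y]
    exact div_le_div₀ (norm_nonneg _) (abs_norm_sub_norm_le y x) (by positivity)
      (mul_le_mul hx hy hρ.le hxn.le)
  have h3 : ‖y‖⁻¹ ≤ ρ⁻¹ := inv_anti₀ hρ hy
  have t1 := mul_le_mul h2 hC1 (norm_nonneg (nd2 a)) (by positivity)
  have t2 := mul_le_mul h3 h1 (norm_nonneg (nd2 a - nd2 b)) (by positivity)
  have e2 : ρ⁻¹ * (ε * ρ / 2) = ε / 2 := by field_simp
  have t3 : ‖x - y‖ / ρ ^ 2 * C ≤ ε / 2 := by
    have h5 := hxy.trans (min_le_right _ _)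
    rw [le_div_iff₀ (by positivity)] at h5
    rw [div_mul_eq_mul_div, div_le_iff₀ (by positivity)]
    nlinarith [norm_nonneg (x - y)]
  linarith

theorem continuousAt_nd2 {a : E} (ha : a ≠ 0) : ContinuousAt (fun p : E => nd2 p) a := by
  have han := norm_pos_iff.2 ha
  refine (Metric.continuousAt_iff (f := fun p : E => nd2 p)).2 fun ε hε => ?_
  obtain ⟨η, hη, hu⟩ := h.unif_outside (half_pos han) (half_pos hε)
  refine ⟨min η (‖a‖ / 2), lt_min hη (half_pos han), fun {z} hz => ?_⟩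
  rw [dist_eq_norm, lt_min_iff] at hz
  rw [dist_eq_norm (nd2 z) (nd2 a)]
  have hzn := norm_sub_norm_le a z
  rw [norm_sub_rev a z] at hzn
  exact lt_of_le_of_lt (hu z a (by linarith [hz.2]) (by linarith) hz.1.le) (half_lt_self hε)

theorem taylor {ρ : ℝ} (hρ : 0 < ρ) {ε : ℝ} (hε : 0 < ε) :
    ∃ η > (0 : ℝ), ∀ v k : E, ρ ≤ ‖v‖ → ‖k‖ ≤ η → ‖nd (v + k) - nd v - nd2 v k‖ ≤ ε * ‖k‖ := by
  obtain ⟨η, hη, hu⟩ := h.unif_outside (half_pos hρ) hε
  refine ⟨min η (ρ / 2), lt_min hη (half_pos hρ), fun v k hv hk => ?_⟩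
  have hs : ∀ x ∈ segment ℝ v (v + k), ρ / 2 ≤ ‖x‖ ∧ ‖x - v‖ ≤ η := by
    intro x hx
    have h1 := norm_sub_le_of_mem_segment hx
    rw [add_sub_cancel_left] at h1
    have h2 := norm_sub_norm_le v x
    rw [norm_sub_rev v x] at h2
    exact ⟨by linarith [hk.trans (min_le_right _ _)], h1.trans (hk.trans (min_le_left _ _))⟩
  have hne : ∀ x ∈ segment ℝ v (v + k), x ≠ 0 := fun x hx =>
    norm_pos_iff.1 (by linarith [(hs x hx).1])
  have hmv := (convex_segment v (v + k)).norm_image_sub_le_of_norm_hasFDerivWithin_le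
    (f := fun x => nd x - nd2 v x) (f' := fun x => nd2 x - nd2 v) (C := ε)
    (fun x hx => ((h.hasFDerivAt_nd (hne x hx)).sub (nd2 v).hasFDerivAt).hasFDerivWithinAt)
    (fun x hx => hu x v (hs x hx).1 (by linarith) (hs x hx).2)
    (left_mem_segment ℝ _ _) (right_mem_segment ℝ _ _)
  rw [add_sub_cancel_left] at hmv
  refine le_trans (le_of_eq ?_) hmv
  rw [map_add]; congr 1; abel

end UC2

section Chord

variable {G : Type*} [NormedAddCommGroup G] [NormedSpace ℝ G]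

/-- Derivative of `y ↦ ‖y - ‖y‖ • c‖`. -/
noncomputable def chordD (c y : G) : G →L[ℝ] ℝ :=
  (nd (y - ‖y‖ • c)).comp (ContinuousLinearMap.id ℝ G - (nd y).smulRight c)

theorem hasFDerivAt_chord (hG : SmoothNorm G) {c y : G} (hy : y ≠ 0) (hv : y - ‖y‖ • c ≠ 0) :
    HasFDerivAt (fun y => ‖y - ‖y‖ • c‖) (chordD c y) y :=
  HasFDerivAt.comp y (f := fun y => y - ‖y‖ • c) (g := fun x : G => ‖x‖) (hG.hasFDerivAt hv)
    ((hasFDerivAt_id y).sub ((hG.hasFDerivAt hy).smul_const c))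

theorem chordD_lip {L : ℝ} (hL0 : 0 ≤ L)
    (hL : ∀ z w : G, z ≠ 0 → w ≠ 0 → ‖nd z - nd w‖ ≤ L * ‖z - w‖ / ‖z‖)
    {c y y' : G} (hc : ‖c‖ ≤ 1) (hy : y ≠ 0) (hy' : y' ≠ 0) (hv : y - ‖y‖ • c ≠ 0)
    (hv' : y' - ‖y'‖ • c ≠ 0) :
    ‖chordD c y - chordD c y'‖ ≤ (4 * L / ‖y - ‖y‖ • c‖ + L / ‖y‖) * ‖y - y'‖ := by
  set v := y - ‖y‖ • c
  set v' := y' - ‖y'‖ • c
  have h1 : ‖v - v'‖ ≤ 2 * ‖y - y'‖ := by
    have : v - v' = (y - y') - (‖y‖ - ‖y'‖) • c := by simp only [v, v']; module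
    rw [this]
    refine (norm_sub_le _ _).trans ?_
    rw [norm_smul, Real.norm_eq_abs]
    have := mul_le_mul (abs_norm_sub_norm_le y y') hc (norm_nonneg c) (norm_nonneg _)
    linarith
  have e : chordD c y - chordD c y' =
      (nd v - nd v').comp (ContinuousLinearMap.id ℝ G - (nd y).smulRight c)
      - (nd v').comp ((nd y - nd y').smulRight c) := by
    refine ContinuousLinearMap.ext fun x => ?_
    simp only [chordD, sub_apply, ContinuousLinearMap.comp_apply, ContinuousLinearMap.id_apply,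
      ContinuousLinearMap.smulRight_apply, map_sub, map_smul, smul_eq_mul, v, v']
    ring
  have n1 : ‖ContinuousLinearMap.id ℝ G - (nd y).smulRight c‖ ≤ 2 := by
    refine ContinuousLinearMap.opNorm_le_bound _ (by norm_num) fun x => ?_
    simp only [sub_apply, ContinuousLinearMap.id_apply, ContinuousLinearMap.smulRight_apply]
    refine (norm_sub_le _ _).trans ?_
    rw [norm_smul]
    have := (nd y).le_of_opNorm_le (norm_nd_le y) x
    nlinarith [norm_nonneg (nd y x), norm_nonneg x, norm_nonneg c]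
  have n2 : ‖(nd y - nd y').smulRight c‖ ≤ ‖nd y - nd y'‖ := by
    rw [ContinuousLinearMap.norm_smulRight_apply]
    exact mul_le_of_le_one_right (norm_nonneg _) hc
  rw [e]
  refine (norm_sub_le _ _).trans ?_
  have t1 : ‖(nd v - nd v').comp (ContinuousLinearMap.id ℝ G - (nd y).smulRight c)‖
      ≤ 4 * L / ‖v‖ * ‖y - y'‖ := by
    refine (ContinuousLinearMap.opNorm_comp_le _ _).trans ?_
    calc ‖nd v - nd v'‖ * _ ≤ (L * (2 * ‖y - y'‖) / ‖v‖) * 2 := by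
          refine mul_le_mul ((hL v v' hv hv').trans ?_) n1 (norm_nonneg _) (by positivity)
          gcongr
      _ = _ := by ring
  have t2 : ‖(nd v').comp ((nd y - nd y').smulRight c)‖ ≤ L / ‖y‖ * ‖y - y'‖ := by
    refine (ContinuousLinearMap.opNorm_comp_le _ _).trans ?_
    calc ‖nd v'‖ * _ ≤ 1 * (L * ‖y - y'‖ / ‖y‖) :=
          mul_le_mul (norm_nd_le v') (n2.trans (hL y y' hy hy')) (norm_nonneg _) zero_le_one
      _ = _ := by ring
  linarith

/-- A vector annihilated by all chord functionals at `y` vanishes. -/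
theorem eq_zero_of_chords (hG : SmoothNorm G) {y x : G} (hy : y ≠ 0) (h0 : nd y x = 0)
    (h : ∀ c : G, ‖c‖ = 1 → y - ‖y‖ • c ≠ 0 → nd (y - ‖y‖ • c) x = 0) : x = 0 := by
  have hyn := norm_pos_iff.2 hy
  have key : ∀ w : G, 0 < nd y w → nd w x = 0 := by
    intro w hw
    have hw0 : w ≠ 0 := by intro h; simp [h] at hw
    have hwn := norm_pos_iff.2 hw0
    let g : ℝ → ℝ := fun τ => ‖y - τ • w‖
    have hd : HasDerivAt g (-nd y w) 0 := by
      have h1 : HasDerivAt (fun τ : ℝ => y - τ • w) (-w) 0 := by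
        simpa using ((hasDerivAt_id (0 : ℝ)).smul_const w).const_sub y
      have := (hG.hasFDerivAt hy).comp_hasDerivAt_of_eq (0 : ℝ) h1 (by simp)
      rwa [map_neg] at this
    have hsl := (hasDerivAt_iff_tendsto_slope_zero.1 hd).mono_left (nhdsGT_le_nhdsNE 0)
    obtain ⟨τ₁, hτ₁, hτ₁'⟩ :=
      ((hsl.eventually (gt_mem_nhds (by linarith : -nd y w < 0))).and
        self_mem_nhdsWithin).exists
    simp only [g, zero_add, zero_smul, sub_zero, smul_eq_mul] at hτ₁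
    have hlt : g τ₁ < ‖y‖ := by
      have hpos : (0 : ℝ) < τ₁ := hτ₁'
      have : g τ₁ - ‖y‖ < 0 := by
        by_contra hcon
        push Not at hcon
        exact absurd (mul_nonneg (inv_nonneg.2 hpos.le) hcon) (by simpa [g] using hτ₁)
      linarith
    set τ₂ := max τ₁ ((2 * ‖y‖ + 1) / ‖w‖)
    have hgt : ‖y‖ < g τ₂ := by
      have h1 := norm_sub_norm_le (τ₂ • w) y
      rw [norm_sub_rev, norm_smul, Real.norm_of_nonneg
        (le_max_of_le_right (by positivity) : (0:ℝ) ≤ τ₂)] at h1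
      have h2 : 2 * ‖y‖ + 1 ≤ τ₂ * ‖w‖ := (div_le_iff₀ hwn).1 (le_max_right _ _)
      show ‖y‖ < ‖y - τ₂ • w‖
      linarith
    have hgc : Continuous g := by simp only [g]; fun_prop
    obtain ⟨τ, hτI, hτ⟩ := intermediate_value_Icc (le_max_left _ _) hgc.continuousOn
      ⟨hlt.le, hgt.le⟩
    have hτ' : ‖y - τ • w‖ = ‖y‖ := hτ
    have hτpos : 0 < τ := lt_of_lt_of_le hτ₁' hτI.1
    set c := ‖y‖⁻¹ • (y - τ • w)
    have hc : ‖c‖ = 1 := by
      simp only [c]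
      rw [norm_smul, norm_inv, norm_norm, hτ', inv_mul_cancel₀ hyn.ne']
    have hv : y - ‖y‖ • c = τ • w := by
      simp only [c, smul_smul, mul_inv_cancel₀ hyn.ne', one_smul]
      abel
    have := h c hc (by rw [hv]; exact smul_ne_zero hτpos.ne' hw0)
    rwa [hv, nd_smul_pos w hτpos] at this
  by_contra hx
  have hc : ContinuousAt (fun ε : ℝ => nd (x + ε • y) x) 0 := by
    have h2 : ContinuousAt nd (x + (0 : ℝ) • y) := by simpa using hG.continuousAt_nd hx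
    have h3 : ContinuousAt (fun ε : ℝ => x + ε • y) 0 := by fun_prop
    have h4 : ContinuousAt (nd ∘ fun ε : ℝ => x + ε • y) 0 := ContinuousAt.comp h2 h3
    exact h4.clm_apply continuousAt_const
  have hlim : Tendsto (fun ε : ℝ => nd (x + ε • y) x) (𝓝[>] 0) (𝓝 0) := by
    refine tendsto_const_nhds.congr' ?_
    filter_upwards [self_mem_nhdsWithin] with ε (hε : 0 < ε)
    refine (key _ ?_).symm
    simp [h0, hG.nd_self hy, hε, hyn]
  have := tendsto_nhds_unique (hc.tendsto.mono_left nhdsWithin_le_nhds) hlim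
  simp only [zero_smul, add_zero, hG.nd_self hx, norm_eq_zero] at this
  exact hx this

end Chord

section Select

variable {G : Type*} [NormedAddCommGroup G] [NormedSpace ℝ G]

/-- The chord functionals bound the norm from below, uniformly. -/
theorem exists_select (hG : SmoothNorm G) :
    ∃ δ > (0 : ℝ), δ ≤ 1 ∧ ∀ y x : G, y ≠ 0 → ∃ c : G, (‖c‖ = 1 ∨ c = 0) ∧
      δ * ‖y‖ ≤ ‖y - ‖y‖ • c‖ ∧ (1 / 16 : ℝ) * ‖x‖ ≤ |chordD c y x| := by
  obtain ⟨L, hL0, hL⟩ := hG.lip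
  refine ⟨min 1 (3 / (4 * (4 * (25 / 16) * (L + 1)))), lt_min one_pos (by positivity),
    min_le_left _ _, fun y x hy => ?_⟩
  set δ := min 1 (3 / (4 * (4 * (25 / 16) * (L + 1)))) with hδ
  have hyn := norm_pos_iff.2 hy
  rcases le_or_gt ((1 / 16 : ℝ) * ‖x‖) |nd y x| with hsmall | hbig
  · refine ⟨0, Or.inr rfl, ?_, ?_⟩
    · simp only [smul_zero, sub_zero]; nlinarith [min_le_left 1 (3 / (4 * (4 * (25 / 16) * (L + 1))))]
    · simpa [chordD] using hsmall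
  -- normalise
  set y₁ := ‖y‖⁻¹ • y with hy₁
  have hy₁n : ‖y₁‖ = 1 := norm_normalize hy
  have hy₁0 : y₁ ≠ 0 := norm_pos_iff.1 (hy₁n ▸ one_pos)
  have hnd : nd y₁ = nd y := nd_smul_pos y (inv_pos.2 hyn)
  set α := nd y x
  set x₀ := x - α • y₁
  have hx₀ : nd y₁ x₀ = 0 := by
    simp only [x₀, map_sub, map_smul, hG.nd_self hy₁0, hy₁n, smul_eq_mul, mul_one]
    rw [hnd, sub_self]
  have hx₀n : 15 / 16 * ‖x‖ ≤ ‖x₀‖ := by
    have := norm_sub_norm_le x (α • y₁)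
    rw [norm_smul, hy₁n, mul_one, Real.norm_eq_abs] at this
    linarith
  have hxpos : 0 < ‖x‖ := by nlinarith [abs_nonneg α, norm_nonneg x]
  have hx₀pos : 0 < ‖x₀‖ := by linarith
  set u := ‖x₀‖⁻¹ • x₀
  have hu : ‖u‖ = 1 := norm_normalize (norm_pos_iff.1 hx₀pos)
  have hu0 : nd y₁ u = 0 := by simp [u, hx₀]
  set w := u + (1 / 4 : ℝ) • y₁
  have hw1 : 3 / 4 ≤ ‖w‖ := by
    have := norm_sub_norm_le u (-((1 / 4 : ℝ) • y₁))
    rw [sub_neg_eq_add, norm_neg, norm_smul (1 / 4 : ℝ) y₁, hy₁n, hu,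
      Real.norm_of_nonneg (by norm_num)] at this
    linarith
  have hw2 : ‖w‖ ≤ 5 / 4 := by
    refine (norm_add_le _ _).trans ?_
    rw [norm_smul (1 / 4 : ℝ) y₁, hy₁n, hu, Real.norm_of_nonneg (by norm_num)]
    norm_num
  have hw0 : w ≠ 0 := norm_pos_iff.1 (by linarith)
  have hwy : nd y₁ w = 1 / 4 := by simp [w, hu0, hG.nd_self hy₁0, hy₁n]
  -- second intersection with the sphere
  let g : ℝ → ℝ := fun τ => ‖y₁ - τ • w‖
  have hd : HasDerivAt g (-(1 / 4)) 0 := by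
    have h1 : HasDerivAt (fun τ : ℝ => y₁ - τ • w) (-w) 0 := by
      simpa using ((hasDerivAt_id (0 : ℝ)).smul_const w).const_sub y₁
    have := (hG.hasFDerivAt hy₁0).comp_hasDerivAt_of_eq (0 : ℝ) h1 (by simp)
    rwa [map_neg, hwy] at this
  have hsl := (hasDerivAt_iff_tendsto_slope_zero.1 hd).mono_left (nhdsGT_le_nhdsNE 0)
  obtain ⟨τ₁, ⟨hτ₁, hτ₁b⟩, hτ₁'⟩ := (((hsl.eventually (gt_mem_nhds (by norm_num :
    -(1 / 4 : ℝ) < 0))).and (nhdsWithin_le_nhds (gt_mem_nhds (by norm_num : (0:ℝ) < 4)))).and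
      self_mem_nhdsWithin).exists
  simp only [g, zero_add, zero_smul, sub_zero, smul_eq_mul] at hτ₁
  have hτ₁' : (0:ℝ) < τ₁ := hτ₁'
  have hlt : g τ₁ ≤ 1 := by
    by_contra! hcon
    have h5 : 0 ≤ τ₁⁻¹ * (g τ₁ - ‖y₁‖) := mul_nonneg (inv_nonneg.2 hτ₁'.le) (by rw [hy₁n]; linarith)
    simp only [g] at h5
    linarith
  have hgt : 1 ≤ g 4 := by
    have h1 := norm_sub_norm_le ((4:ℝ) • w) y₁
    rw [norm_sub_rev, norm_smul, Real.norm_of_nonneg (by norm_num : (0:ℝ) ≤ 4), hy₁n] at h1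
    show 1 ≤ ‖y₁ - (4:ℝ) • w‖
    linarith
  have hgc : Continuous g := by simp only [g]; fun_prop
  obtain ⟨τ, hτI, hτ⟩ := intermediate_value_Icc (le_of_lt hτ₁b) hgc.continuousOn ⟨hlt, hgt⟩
  have hτ : ‖y₁ - τ • w‖ = 1 := hτ
  have hτpos : 0 < τ := hτ₁'.trans_le hτI.1
  have hτlow : 1 / (4 * (25 / 16) * (L + 1)) ≤ τ := by
    have hv0 : y₁ - τ • w ≠ 0 := norm_pos_iff.1 (hτ ▸ one_pos)
    have h1 := nd_le (y₁ - τ • w) y₁
    rw [hy₁n] at h1
    have h2 : nd (y₁ - τ • w) y₁ = 1 + τ * nd (y₁ - τ • w) w := by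
      have := hG.nd_self hv0
      rw [hτ, map_sub, (nd (y₁ - τ • w)).map_smul τ w, smul_eq_mul] at this
      linarith
    have h3 : nd (y₁ - τ • w) w ≤ 0 := by nlinarith
    have h4 := hL y₁ (y₁ - τ • w) hy₁0 hv0
    rw [hy₁n, div_one, sub_sub_cancel, norm_smul, Real.norm_of_nonneg hτpos.le] at h4
    have h6 : |(nd y₁ - nd (y₁ - τ • w)) w| ≤ L * (τ * ‖w‖) * ‖w‖ :=
      ((nd y₁ - nd (y₁ - τ • w)).le_opNorm w).trans (mul_le_mul_of_nonneg_right h4 (norm_nonneg _))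
    rw [sub_apply, hwy] at h6
    have h7 : ‖w‖ * ‖w‖ ≤ 25 / 16 := by nlinarith
    have h8 : L * τ * (‖w‖ * ‖w‖) ≤ (L + 1) * τ * (25 / 16) :=
      mul_le_mul (by gcongr; linarith) h7 (by positivity) (by positivity)
    rw [div_le_iff₀ (by positivity)]
    linarith [(abs_le.1 h6).2]
  set c := y₁ - τ • w
  refine ⟨c, Or.inl hτ, ?_, ?_⟩
  · have e : y - ‖y‖ • c = (‖y‖ * τ) • w := by
      simp only [c, y₁, smul_sub, smul_smul, mul_inv_cancel₀ hyn.ne', one_smul]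
      abel
    rw [e, norm_smul, Real.norm_of_nonneg (by positivity), mul_comm δ, mul_assoc]
    refine mul_le_mul_of_nonneg_left ?_ hyn.le
    refine (min_le_right _ _).trans ?_
    refine le_trans (le_of_eq ?_) (mul_le_mul hτlow hw1 (by norm_num) hτpos.le)
    field_simp
  · have e : y - ‖y‖ • c = (‖y‖ * τ) • w := by
      simp only [c, y₁, smul_sub, smul_smul, mul_inv_cancel₀ hyn.ne', one_smul]
      abel
    have e2 : chordD c y x = nd w x₀ + α * nd w (τ • w) := by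
      simp only [chordD, e, nd_smul_pos w (mul_pos hyn hτpos), ContinuousLinearMap.comp_apply,
        sub_apply, ContinuousLinearMap.id_apply, ContinuousLinearMap.smulRight_apply, map_sub,
        map_smul, smul_eq_mul, x₀, c, α]
      ring
    have h1 : nd w x₀ ≥ ‖x₀‖ / 2 := by
      have h2 : nd w u = ‖w‖ - 1 / 4 * nd w y₁ := by
        have := hG.nd_self hw0
        simp only [w, map_add, map_smul, smul_eq_mul] at this ⊢
        linarith
      have h3 := nd_le w y₁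
      rw [hy₁n] at h3
      have ex : x₀ = ‖x₀‖ • u := by
        simp [u, smul_smul, mul_inv_cancel₀ hx₀pos.ne']
      rw [ex, map_smul, smul_eq_mul, norm_smul, hu, norm_norm, mul_one]
      nlinarith
    have h4 : |α * nd w (τ • w)| ≤ 1 / 16 * ‖x‖ * 2 := by
      rw [abs_mul]
      refine mul_le_mul hbig.le ?_ (abs_nonneg _) (by positivity)
      rw [map_smul, hG.nd_self hw0, smul_eq_mul, abs_of_nonneg (by positivity)]
      have h5 := norm_sub_le y₁ c
      simp only [c, sub_sub_cancel, hτ, hy₁n, norm_smul, Real.norm_of_nonneg hτpos.le] at h5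
      linarith
    rw [e2]
    refine le_trans ?_ (le_abs_self _)
    rw [abs_le] at h4
    linarith

end Select

end Vale.Agent.P084.Sm
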