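import Vale.Agent.P084.Sm.Norm

/-! The homogeneous extension of a surjective isometry between unit spheres. -/

namespace Vale.Agent.P084.Sm

set_option linter.unusedSectionVars false

open Metric Set

variable {E F : Type*} [NormedAddCommGroup E] [NormedSpace ℝ E]
  [NormedAddCommGroup F] [NormedSpace ℝ F]

/-- Positively homogeneous, odd, norm preserving bijection that is isometric on every sphere. -/
structure SphereIso (E F : Type*) [NormedAddCommGroup E] [NormedSpace ℝ E]
    [NormedAddCommGroup F] [NormedSpace ℝ F] where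
  T : E → F
  S : F → E
  left_inv : ∀ x, S (T x) = x
  right_inv : ∀ y, T (S y) = y
  norm_T : ∀ x, ‖T x‖ = ‖x‖
  smul_T : ∀ (c : ℝ) x, 0 ≤ c → T (c • x) = c • T x
  neg_T : ∀ x, T (-x) = -T x
  dist_T : ∀ a b, ‖a‖ = ‖b‖ → ‖T a - T b‖ = ‖a - b‖

namespace SphereIso

variable (I : SphereIso E F)

theorem T_zero : I.T 0 = 0 := norm_eq_zero.1 (by rw [I.norm_T, norm_zero])

theorem add_T {a b : E} (h : ‖a‖ = ‖b‖) : ‖I.T a + I.T b‖ = ‖a + b‖ := by
  have := I.dist_T a (-b) (by rw [h, norm_neg])
  rwa [I.neg_T, sub_neg_eq_add, sub_neg_eq_add] at this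

theorem T_ne {a : E} (h : a ≠ 0) : I.T a ≠ 0 := by
  rw [← norm_pos_iff, I.norm_T]; exact norm_pos_iff.2 h

/-- The inverse. -/
def symm : SphereIso F E where
  T := I.S
  S := I.T
  left_inv := I.right_inv
  right_inv := I.left_inv
  norm_T y := by rw [← I.norm_T (I.S y), I.right_inv]
  smul_T c y hc := by
    conv_lhs => rw [← I.right_inv y, ← I.smul_T c _ hc, I.left_inv]
  neg_T y := by
    conv_lhs => rw [← I.right_inv y, ← I.neg_T, I.left_inv]
  dist_T a b h := by
    have h' : ‖I.S a‖ = ‖I.S b‖ := by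
      rw [← I.norm_T (I.S a), ← I.norm_T (I.S b), I.right_inv, I.right_inv, h]
    have := I.dist_T _ _ h'
    rw [I.right_inv, I.right_inv] at this
    exact this.symm

theorem lipschitz : LipschitzWith 3 I.T := by
  refine LipschitzWith.of_dist_le_mul fun x y => ?_
  simp only [dist_eq_norm]
  change ‖I.T x - I.T y‖ ≤ 3 * ‖x - y‖
  rcases eq_or_ne x 0 with rfl | hx
  · rw [I.T_zero, zero_sub, zero_sub, norm_neg, norm_neg, I.norm_T]
    linarith [norm_nonneg y]
  have hxn := norm_pos_iff.2 hx
  set c := ‖y‖ / ‖x‖ with hc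
  have hc0 : 0 ≤ c := by positivity
  have hcx : ‖c • x‖ = ‖y‖ := by
    rw [norm_smul, Real.norm_of_nonneg hc0, hc]; field_simp
  have h1 : ‖(1 - c) • x‖ = |‖x‖ - ‖y‖| := by
    rw [norm_smul, Real.norm_eq_abs, hc, ← abs_of_pos hxn, ← abs_mul, abs_of_pos hxn]
    congr 1; field_simp
  have h2 : I.T x - I.T y = (1 - c) • I.T x + (I.T (c • x) - I.T y) := by
    rw [I.smul_T c x hc0]; module
  have h3 : ‖c • x - y‖ ≤ ‖x - y‖ + ‖(1 - c) • x‖ := by
    have : c • x - y = (x - y) - (1 - c) • x := by module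
    rw [this]; exact norm_sub_le _ _
  have h4 := abs_norm_sub_norm_le x y
  rw [h2]
  refine (norm_add_le _ _).trans ?_
  have h5 : ‖(1 - c) • I.T x‖ = ‖(1 - c) • x‖ := by rw [norm_smul, norm_smul, I.norm_T]
  rw [I.dist_T _ _ hcx, h5, h1]
  rw [h1] at h3
  linarith

theorem continuous : Continuous I.T := I.lipschitz.continuous

end SphereIso

/-- A surjective sphere isometry out of a strictly convex space is odd. -/
theorem sphere_isometry_neg [StrictConvexSpace ℝ E]
    (f : sphere (0 : E) 1 → sphere (0 : F) 1) (hf : Isometry f) (hs : Function.Surjective f)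
    (x : sphere (0 : E) 1) : (f (-x) : F) = -(f x : F) := by
  obtain ⟨y, hy⟩ := hs (-f x)
  have hd : dist (f x) (f y) = 2 := by
    rw [hy, Subtype.dist_eq, dist_eq_norm]
    have : (f x : F) - ((-f x : sphere (0:F) 1) : F) = (2 : ℝ) • (f x : F) := by
      simp [two_smul]
    rw [this, norm_smul, norm_eq_of_mem_sphere (f x), Real.norm_of_nonneg two_pos.le, mul_one]
  rw [hf.dist_eq, Subtype.dist_eq, dist_eq_norm] at hd
  have hyn : ‖-(y : E)‖ = 1 := by rw [norm_neg]; exact norm_eq_of_mem_sphere y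
  have hxy : (x : E) = -(y : E) := by
    by_contra hne
    have := norm_add_lt_of_not_sameRay (x := (x : E)) (y := -(y : E))
      (fun h => hne (h.eq_of_norm_eq (by rw [hyn, norm_eq_of_mem_sphere x])))
    rw [← sub_eq_add_neg, hd, hyn, norm_eq_of_mem_sphere x] at this
    norm_num at this
  have : -x = y := Subtype.ext (by simp [hxy])
  rw [this, hy]
  rfl

/-- The target of a surjective sphere isometry from a strictly convex space is strictly convex. -/
theorem strictConvex_of_sphere_isometry [StrictConvexSpace ℝ E]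
    (f : sphere (0 : E) 1 → sphere (0 : F) 1) (hf : Isometry f) (hs : Function.Surjective f) :
    StrictConvexSpace ℝ F := by
  refine StrictConvexSpace.of_norm_add_ne_two fun a b ha hb hne h => hne ?_
  obtain ⟨x, hx⟩ := hs ⟨a, by simpa using ha⟩
  obtain ⟨y, hy⟩ := hs ⟨b, by simpa using hb⟩
  have hd : dist (f x) (f (-y)) = 2 := by
    rw [Subtype.dist_eq, dist_eq_norm, sphere_isometry_neg f hf hs, hx, hy, sub_neg_eq_add]
    exact h
  rw [hf.dist_eq, Subtype.dist_eq, dist_eq_norm, coe_neg_sphere, sub_neg_eq_add] at hd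
  have hxy : (x : E) = y := by
    by_contra hne
    have := norm_add_lt_of_not_sameRay (x := (x : E)) (y := (y : E))
      (fun h => hne (h.eq_of_norm_eq (by rw [norm_eq_of_mem_sphere x, norm_eq_of_mem_sphere y])))
    rw [hd, norm_eq_of_mem_sphere x, norm_eq_of_mem_sphere y] at this
    norm_num at this
  have : x = y := Subtype.ext hxy
  subst this
  rw [hx] at hy
  exact congrArg Subtype.val hy

section Make

variable [StrictConvexSpace ℝ E]
  (f : sphere (0 : E) 1 → sphere (0 : F) 1) (hf : Isometry f) (hs : Function.Surjective f)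

open Classical in
/-- Positively homogeneous extension. -/
noncomputable def homExt (z : E) : F :=
  if h : z = 0 then 0 else ‖z‖ • (f ⟨‖z‖⁻¹ • z, by simpa using norm_normalize h⟩ : F)

theorem homExt_zero : homExt f 0 = 0 := by simp [homExt]

theorem homExt_smul_sphere (x : sphere (0 : E) 1) {c : ℝ} (hc : 0 ≤ c) :
    homExt f (c • (x : E)) = c • (f x : F) := by
  rcases hc.eq_or_lt with rfl | hc
  · simp [homExt]
  have hx : (x : E) ≠ 0 := ne_zero_of_mem_unit_sphere x
  have hn : ‖c • (x : E)‖ = c := by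
    rw [norm_smul, norm_eq_of_mem_sphere x, Real.norm_of_nonneg hc.le, mul_one]
  rw [homExt, dif_neg (smul_ne_zero hc.ne' hx)]
  simp only [hn]
  congr 3
  exact Subtype.ext (by simp [smul_smul, inv_mul_cancel₀ hc.ne'])

theorem exists_polar (z : E) (hz : z ≠ 0) : ∃ x : sphere (0 : E) 1, z = ‖z‖ • (x : E) :=
  ⟨⟨‖z‖⁻¹ • z, by simpa using norm_normalize hz⟩, by
    simp [smul_smul, mul_inv_cancel₀ (norm_ne_zero_iff.2 hz)]⟩

theorem homExt_norm (z : E) : ‖homExt f z‖ = ‖z‖ := by
  rcases eq_or_ne z 0 with rfl | hz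
  · simp [homExt]
  obtain ⟨x, hx⟩ := exists_polar z hz
  conv_lhs => rw [hx]
  rw [homExt_smul_sphere f x (norm_nonneg z), norm_smul, norm_eq_of_mem_sphere (f x), mul_one,
    norm_norm]

theorem homExt_smul (c : ℝ) (z : E) (hc : 0 ≤ c) : homExt f (c • z) = c • homExt f z := by
  rcases eq_or_ne z 0 with rfl | hz
  · simp [homExt]
  obtain ⟨x, hx⟩ := exists_polar z hz
  rw [hx, smul_smul, homExt_smul_sphere f x (by positivity),
    homExt_smul_sphere f x (norm_nonneg z), smul_smul]

include hf hs

theorem homExt_neg (z : E) : homExt f (-z) = -homExt f z := by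
  rcases eq_or_ne z 0 with rfl | hz
  · simp [homExt]
  obtain ⟨x, hx⟩ := exists_polar z hz
  rw [hx, ← smul_neg, ← coe_neg_sphere, homExt_smul_sphere f _ (norm_nonneg z),
    homExt_smul_sphere f x (norm_nonneg z), sphere_isometry_neg f hf hs, smul_neg]

theorem homExt_bijective : Function.Bijective (homExt f) := by
  constructor
  · intro z w h
    have hn : ‖z‖ = ‖w‖ := by rw [← homExt_norm f z, h, homExt_norm f w]
    rcases eq_or_ne z 0 with rfl | hz
    · rw [norm_zero] at hn; exact (norm_eq_zero.1 hn.symm).symm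
    have hw : w ≠ 0 := by intro h0; rw [h0, norm_zero] at hn; exact hz (norm_eq_zero.1 hn)
    obtain ⟨x, hx⟩ := exists_polar z hz
    obtain ⟨y, hy⟩ := exists_polar w hw
    rw [hx, hy, homExt_smul_sphere f x (norm_nonneg z), homExt_smul_sphere f y (norm_nonneg w),
      hn] at h
    have := smul_right_injective F (norm_ne_zero_iff.2 hw) h
    rw [hx, hy, hn, hf.injective (Subtype.ext this)]
  · intro w
    rcases eq_or_ne w 0 with rfl | hw
    · exact ⟨0, homExt_zero f⟩
    obtain ⟨x, hx⟩ := hs ⟨‖w‖⁻¹ • w, by simpa using norm_normalize hw⟩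
    refine ⟨‖w‖ • (x : E), ?_⟩
    rw [homExt_smul_sphere f x (norm_nonneg w), hx]
    simp [smul_smul, mul_inv_cancel₀ (norm_ne_zero_iff.2 hw)]

/-- The sphere isometry as a `SphereIso`. -/
noncomputable def toSphereIso : SphereIso E F where
  T := homExt f
  S := Function.surjInv (homExt_bijective f hf hs).2
  left_inv := Function.leftInverse_surjInv (homExt_bijective f hf hs)
  right_inv := Function.rightInverse_surjInv (homExt_bijective f hf hs).2
  norm_T := homExt_norm f
  smul_T := homExt_smul f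
  neg_T := homExt_neg f hf hs
  dist_T a b h := by
    rcases eq_or_ne a 0 with rfl | ha
    · rw [norm_zero] at h
      rw [norm_eq_zero.1 h.symm]; simp [homExt]
    have hb : b ≠ 0 := by intro h0; rw [h0, norm_zero] at h; exact ha (norm_eq_zero.1 h)
    obtain ⟨x, hx⟩ := exists_polar a ha
    obtain ⟨y, hy⟩ := exists_polar b hb
    rw [hx, hy, homExt_smul_sphere f x (norm_nonneg a), homExt_smul_sphere f y (norm_nonneg b),
      h, ← smul_sub, ← smul_sub, norm_smul, norm_smul]
    congr 1
    have := hf.dist_eq x y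
    rw [Subtype.dist_eq, Subtype.dist_eq, dist_eq_norm, dist_eq_norm] at this
    exact this

end Make

end Vale.Agent.P084.Sm
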