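import Vale.Agent.P084.Sm.Ident

/-! The target of a sphere isometry inherits the hypotheses on the norm. -/

namespace Vale.Agent.P084.Sm

set_option linter.unusedSectionVars false

open Filter Topology Set Metric

theorem smoothMod_of_smooth {E : Type*} [NormedAddCommGroup E] [NormedSpace ℝ E]
    (h : SmoothNorm E) : ∃ C : ℝ, 0 ≤ C ∧ SmoothMod E C := by
  obtain ⟨L, hL0, hL⟩ := h.lip
  refine ⟨L, hL0, fun a b ha hb => ?_⟩
  have ha0 : a ≠ 0 := norm_pos_iff.1 (ha ▸ one_pos)
  have hb0 : b ≠ 0 := norm_pos_iff.1 (hb ▸ one_pos)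
  have h1 := nd_le a (a + b)
  have h2 := nd_le b (a + b)
  rw [map_add, h.nd_self ha0, ha] at h1
  rw [map_add, h.nd_self hb0, hb] at h2
  have h3 := (nd a - nd b).le_of_opNorm_le (hL a b ha0 hb0) (a - b)
  rw [ha, div_one, Real.norm_eq_abs] at h3
  simp only [sub_apply, map_sub, h.nd_self ha0, h.nd_self hb0, ha, hb] at h3
  have h4 := (abs_le.1 h3).2
  nlinarith [mul_nonneg hL0 (sq_nonneg ‖a - b‖)]

namespace SphereIso

variable {E F : Type*} [NormedAddCommGroup E] [NormedSpace ℝ E]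
  [NormedAddCommGroup F] [NormedSpace ℝ F] (I : SphereIso E F)

include I

theorem complete_target [CompleteSpace E] : CompleteSpace F := by
  refine Metric.complete_of_cauchySeq_tendsto fun u hu => ?_
  obtain ⟨x, hx⟩ := cauchySeq_tendsto_of_complete
    (I.symm.lipschitz.uniformContinuous.comp_cauchySeq hu)
  refine ⟨I.T x, ?_⟩
  have := (I.continuous.tendsto x).comp hx
  exact this.congr fun n => I.right_inv (u n)

theorem smooth_target (hE : SmoothNorm E) : SmoothNorm F := by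
  obtain ⟨C, hC0, hC⟩ := smoothMod_of_smooth hE
  refine smoothNorm_of_mod hC0 fun a b ha hb => ?_
  have hSa : ‖I.S a‖ = 1 := by rw [← I.norm_T, I.right_inv, ha]
  have hSb : ‖I.S b‖ = 1 := by rw [← I.norm_T, I.right_inv, hb]
  have h1 := I.add_T (hSa.trans hSb.symm)
  have h2 := I.dist_T _ _ (hSa.trans hSb.symm)
  rw [I.right_inv, I.right_inv] at h1 h2
  rw [h1, h2]
  exact hC _ _ hSa hSb

variable [CompleteSpace E] [CompleteSpace F]

theorem hess_pullback {a : E} (ha : a ≠ 0) {Q : E →L[ℝ] E →L[ℝ] ℝ} {Q' : F →L[ℝ] F →L[ℝ] ℝ}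
    (hE : SmoothNorm E) (hF : SmoothNorm F) (hQ : HasFDerivAt nd Q a)
    (hQ' : HasFDerivAt nd Q' (I.T a)) (p v : E) : Q' (I.M a p) (I.M a v) = Q p v := by
  have hMa := I.M_self hE hF ha
  have key : ∀ v, nd a v = 0 → Q' (I.M a p) (I.M a v) = Q p v := by
    intro v hv
    have hn := norm_pos_iff.2 ha
    set k : ℝ := 1 / (2 * ‖a‖) with hk
    have hk0 : 0 < k := by positivity
    let zl : ℝ → E := fun t => a + t • p
    have hzl : HasDerivAt zl p 0 := by
      simpa [zl] using ((hasDerivAt_id (0 : ℝ)).smul_const p).const_add a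
    have hz0 : zl 0 = a := by simp [zl]
    have hnz : HasDerivAt (fun t => ‖zl t‖) (nd a p) 0 :=
      (hE.hasFDerivAt ha).comp_hasDerivAt_of_eq (0 : ℝ) hzl hz0.symm
    have hTz : HasDerivAt (fun t => I.T (zl t)) (I.M a p) 0 :=
      (I.hasFDerivAt_T hE hF ha).comp_hasDerivAt_of_eq (0 : ℝ) hzl hz0.symm
    let W : ℝ → F := fun t => k • (‖zl t‖ • I.T a + ‖a‖ • I.T (zl t))
    let w : ℝ → E := fun t => k • (‖zl t‖ • a + ‖a‖ • zl t)
    have hW : HasDerivAt W (k • (nd a p • I.T a + ‖a‖ • I.M a p)) 0 :=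
      ((hnz.smul_const (I.T a)).add (hTz.const_smul ‖a‖)).const_smul k
    have hw : HasDerivAt w (k • (nd a p • a + ‖a‖ • p)) 0 :=
      ((hnz.smul_const a).add (hzl.const_smul ‖a‖)).const_smul k
    have hw0 : w 0 = a := by
      simp only [w, hz0, hk]; match_scalars; field_simp; ring
    have hW0 : W 0 = I.T a := by
      simp only [W, hz0, hk]; match_scalars; field_simp; ring
    have d1 := (hQ'.comp_hasDerivAt_of_eq (0 : ℝ) hW hW0.symm).clm_apply
      (hasDerivAt_const (0 : ℝ) (I.M a v))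
    have d2 := (hQ.comp_hasDerivAt_of_eq (0 : ℝ) hw hw0.symm).clm_apply
      (hasDerivAt_const (0 : ℝ) v)
    have hev : (fun t => nd (W t) (I.M a v)) =ᶠ[𝓝 0] fun t => nd (w t) v := by
      filter_upwards [hw.continuousAt.eventually_ne (hw0.trans_ne ha),
        hzl.continuousAt.eventually_ne (hz0.trans_ne ha)] with t ht htz
      simp only [W, w, nd_smul_pos _ hk0]
      exact I.chord_sum hE hF htz ha hv fun h => ht (by simp only [w, h, smul_zero])
    have h := (d1.congr_of_eventuallyEq hev.symm).unique d2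
    simp only [map_add, map_smul, add_apply, smul_apply, map_zero, add_zero, smul_eq_mul,
      hE.hess_self ha hQ, hF.hess_self (I.T_ne ha) hQ', zero_apply, mul_zero,
      zero_add] at h
    exact mul_left_cancel₀ (mul_ne_zero hk0.ne' hn.ne') (by linarith)
  set c : ℝ := nd a v / ‖a‖
  have hv' : nd a (v - c • a) = 0 := by
    simp only [map_sub, map_smul, hE.nd_self ha, smul_eq_mul, c]
    field_simp [norm_ne_zero_iff.2 ha]
    ring
  have h := key _ hv'
  simp only [map_sub, map_smul, hMa, hF.hess_self_right (I.T_ne ha) hQ',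
    hE.hess_self_right ha hQ, smul_zero, sub_zero] at h
  exact h


theorem diff2_target_unit (hE : UC2 E) (hF : SmoothNorm F) {a : E} (ha : ‖a‖ = 1) :
    DifferentiableAt ℝ (nd : F → F →L[ℝ] ℝ) ((2 : ℝ) • I.T a) := by
  have hs := hE.smooth
  have ha0 : a ≠ 0 := norm_pos_iff.1 (ha ▸ one_pos)
  let Φ : E → F := fun z => ‖z‖ • I.T a + I.T z
  let D : E → E →L[ℝ] F := fun z => (nd z).smulRight (I.T a) + I.M z
  have hd : ∀ z : E, z ≠ 0 → HasFDerivAt Φ (D z) z := fun z hz =>
    ((hs.hasFDerivAt hz).smul_const (I.T a)).add (I.hasFDerivAt_T hs hF hz)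
  let A : E ≃L[ℝ] E := ContinuousLinearEquiv.equivOfInverse
    (ContinuousLinearMap.id ℝ E + (nd a).smulRight a)
    (ContinuousLinearMap.id ℝ E - (1 / 2 : ℝ) • (nd a).smulRight a)
    (fun x => by simp [hs.nd_self ha0, ha]; module)
    (fun x => by simp [hs.nd_self ha0, ha]; module)
  let L : E ≃L[ℝ] F := A.trans (I.Meq hs hF ha0)
  have hL : (L : E →L[ℝ] F) = D a := by
    refine ContinuousLinearMap.ext fun x => ?_
    show I.M a (x + nd a x • a) = nd a x • I.T a + I.M a x
    rw [map_add, map_smul, I.M_self hs hF ha0]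
    abel
  have hcD : ContinuousAt D a := by
    obtain ⟨K, η, hK, hη, hl⟩ := I.lip_M hs hF
    have h1 : ContinuousAt (fun z => I.M z) a := by
      refine continuousAt_of_locally_lipschitz hη K fun z hz => ?_
      rw [dist_eq_norm] at hz
      rw [dist_eq_norm (I.M z) (I.M a), dist_eq_norm]
      have := hl a (z - a) (by rw [ha]; norm_num) hz.le
      rwa [add_sub_cancel] at this
    exact (((ContinuousLinearMap.smulRightL ℝ E F).flip (I.T a)).continuous.continuousAt.comp
      (hs.continuousAt_nd ha0)).add h1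
  have hstrict : HasStrictFDerivAt Φ (L : E →L[ℝ] F) a := by
    rw [hL]
    exact hasStrictFDerivAt_of_hasFDerivAt_of_continuousAt
      (by filter_upwards [isOpen_ne.mem_nhds ha0] with z hz using hd z hz) hcD
  have hΦa : Φ a = (2 : ℝ) • I.T a := by simp [Φ, ha, two_smul]
  set ν := nd (I.T a) with hν
  set N := I.symm.M (I.T a) with hN
  let w : E → E := fun z => ‖z‖ • a + z
  let K : E → F →L[ℝ] ℝ := fun z =>
    (nd (w z)).comp N + ((‖w z‖ - nd (w z) (N (Φ z))) / ν (Φ z)) • ν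
  have hwd : DifferentiableAt ℝ w a := ((hs.diff a ha0).smul_const a).add differentiableAt_id
  have hwa : w a ≠ 0 := by
    simp only [w, ha, one_smul, ← two_smul ℝ a]
    exact smul_ne_zero two_ne_zero ha0
  have hνa : ν (Φ a) ≠ 0 := by
    simp [hΦa, hν, hF.nd_self (I.T_ne ha0), I.norm_T, ha]
  have hΦd := (hd a ha0).differentiableAt
  have hKd : DifferentiableAt ℝ K a := by
    have h1 : DifferentiableAt ℝ (fun z => nd (w z)) a := (hE.diff2 _ hwa).comp a hwd
    have h2 : DifferentiableAt ℝ (fun z => ‖w z‖) a := (hs.diff _ hwa).comp a hwd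
    have h3 : DifferentiableAt ℝ (fun z => ν (Φ z)) a := ν.differentiableAt.comp a hΦd
    have h4 : DifferentiableAt ℝ (fun z => N (Φ z)) a := N.differentiableAt.comp a hΦd
    exact (h1.clm_comp (differentiableAt_const N)).add
      (((h2.sub (h1.clm_apply h4)).mul (h3.inv hνa)).smul_const ν)
  have hev : ∀ᶠ z in 𝓝 a, nd (Φ z) = K z := by
    have c1 : ∀ᶠ z in 𝓝 a, w z ≠ 0 := hwd.continuousAt.eventually_ne hwa
    have c2 : ∀ᶠ z in 𝓝 a, ν (Φ z) ≠ 0 :=
      (ν.continuous.continuousAt.comp hΦd.continuousAt).eventually_ne hνa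
    filter_upwards [c1, c2, isOpen_ne.mem_nhds ha0] with z h1 h2 hz
    refine ContinuousLinearMap.ext fun x => ?_
    set ξ := x - (ν x / ν (Φ z)) • Φ z with hξ
    have hMN : ∀ y, I.M a (N y) = y := fun y => by
      have h := I.symm.M_symm_comp hF hs (I.T_ne ha0) y
      have e : I.symm.T (I.T a) = a := I.left_inv a
      rw [e] at h
      exact h
    have hv : nd a (N ξ) = 0 := by
      rw [← I.nd_comp_M hs hF ha0, ContinuousLinearMap.comp_apply, hMN]
      simp [hξ, ← hν, h2]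
    have hw' : ‖z‖ • a + ‖a‖ • z ≠ 0 := by rwa [ha, one_smul]
    have h := I.chord_sum hs hF hz ha0 hv hw'
    rw [ha, one_smul, one_smul, hMN] at h
    have hn : ‖Φ z‖ = ‖w z‖ := by
      have e := I.add_T (a := ‖z‖ • a) (b := z) (by rw [norm_smul, ha, norm_norm, mul_one])
      rwa [I.smul_T _ _ (norm_nonneg z)] at e
    have hΦ0 : Φ z ≠ 0 := by
      rw [← norm_pos_iff, hn]; exact norm_pos_iff.2 h1
    have hx : x = (ν x / ν (Φ z)) • Φ z + ξ := by rw [hξ]; abel
    conv_lhs => rw [hx]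
    rw [map_add, map_smul, hF.nd_self hΦ0, hn]
    show _ + nd (‖z‖ • I.T a + I.T z) ξ = _
    rw [h]
    simp only [K, hξ, map_sub, map_smul, add_apply, smul_apply, ContinuousLinearMap.comp_apply,
      smul_eq_mul]
    show _ + (nd (w z) (N x) - _ * nd (w z) (N (Φ z))) = _
    field_simp
    ring
  have hg := hstrict.to_localInverse
  have hga : hstrict.localInverse Φ L a (Φ a) = a := hstrict.localInverse_apply_image
  have hri := hstrict.eventually_right_inverse
  have hdiff : DifferentiableAt ℝ (K ∘ hstrict.localInverse Φ L a) (Φ a) := by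
    refine DifferentiableAt.comp (Φ a) ?_ hg.hasFDerivAt.differentiableAt
    rw [hga]; exact hKd
  rw [← hΦa]
  refine hdiff.congr_of_eventuallyEq ?_
  have hgc := hg.hasFDerivAt.differentiableAt.continuousAt.tendsto
  rw [hga] at hgc
  filter_upwards [hri, hgc.eventually hev] with y h1 h2
  rw [Function.comp_apply, ← h2, h1]

theorem uc2_target (hE : UC2 E) : UC2 F := by
  have hs := hE.smooth
  have hF := I.smooth_target hs
  have hdiff : ∀ y : F, y ≠ 0 → DifferentiableAt ℝ (nd : F → F →L[ℝ] ℝ) y := by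
    intro y hy
    have hn := norm_pos_iff.2 hy
    set a := I.S (‖y‖⁻¹ • y) with ha'
    have ha : ‖a‖ = 1 := by rw [ha', ← I.norm_T, I.right_inv, norm_normalize hy]
    have h := I.diff2_target_unit hE hF ha
    rw [ha', I.right_inv, smul_smul] at h
    have hc : 0 < 2 * ‖y‖⁻¹ := by positivity
    have h2 : DifferentiableAt ℝ (fun x : F => nd ((2 * ‖y‖⁻¹) • x)) y :=
      h.comp y (differentiableAt_id.const_smul (2 * ‖y‖⁻¹))
    exact h2.congr_of_eventuallyEq (Eventually.of_forall fun x => (nd_smul_pos x hc).symm)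
  obtain ⟨C, hC0, hC⟩ := hE.exists_bound
  have hform : ∀ y : F, ‖y‖ = 1 → nd2 y
      = (nd2 (I.S y)).bilinearComp (I.symm.M y) (I.symm.M y) := by
    intro y hy
    have hy0 : y ≠ 0 := norm_pos_iff.1 (hy ▸ one_pos)
    have hS0 : I.S y ≠ 0 := I.symm.T_ne hy0
    have hM : ∀ x, I.M (I.S y) (I.symm.M y x) = x := fun x => I.symm.M_symm_comp hF hs hy0 x
    have hQ' : HasFDerivAt nd (nd2 y) (I.T (I.S y)) := by
      rw [I.right_inv]; exact (hdiff y hy0).hasFDerivAt
    refine ContinuousLinearMap.ext fun u => ContinuousLinearMap.ext fun v => ?_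
    have h := I.hess_pullback hS0 hs hF (hE.hasFDerivAt_nd hS0) hQ' (I.symm.M y u) (I.symm.M y v)
    rw [hM, hM] at h
    exact h
  refine ⟨hF.diff, hdiff, ⟨C * 3 * 3, fun y hy => ?_⟩, ?_⟩
  · rw [hform y hy]
    refine ContinuousLinearMap.opNorm_le_bound₂ _ (by positivity) fun u v => ?_
    rw [ContinuousLinearMap.bilinearComp_apply, Real.norm_eq_abs]
    have hS : ‖I.S y‖ = 1 := by rw [← I.norm_T, I.right_inv, hy]
    have hb := hC (I.S y) (norm_pos_iff.1 (hS ▸ one_pos))
    rw [hS, div_one] at hb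
    refine (abs_nd2_le hb _ _).trans ?_
    have h1 := (I.symm.M y).le_of_opNorm_le (I.symm.norm_M_le y) u
    have h2 := (I.symm.M y).le_of_opNorm_le (I.symm.norm_M_le y) v
    calc C * ‖I.symm.M y u‖ * ‖I.symm.M y v‖ ≤ C * (3 * ‖u‖) * (3 * ‖v‖) := by gcongr
      _ = _ := by ring
  · obtain ⟨K, η, hK, hη, hl⟩ := I.symm.lip_M hF hs
    refine (Metric.uniformContinuousOn_iff_le (f := fun y : F => nd2 y)).2 fun ε hε => ?_
    obtain ⟨η₁, hη₁, hu⟩ := hE.unif_outside one_pos (ε := ε / 18) (by positivity)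
    refine ⟨min (min η η₁) (ε / (12 * C * K + 1)), by positivity, fun y hy z hz hyz => ?_⟩
    rw [mem_sphere_zero_iff_norm] at hy hz
    rw [dist_eq_norm] at hyz
    rw [dist_eq_norm (nd2 y) (nd2 z), hform y hy, hform z hz]
    simp only [le_min_iff] at hyz
    have hSy : ‖I.S y‖ = 1 := by rw [← I.norm_T, I.right_inv, hy]
    have hSz : ‖I.S z‖ = 1 := by rw [← I.norm_T, I.right_inv, hz]
    have hd : ‖I.S y - I.S z‖ = ‖y - z‖ := I.symm.dist_T y z (hy.trans hz.symm)
    have hQ := hu (I.S y) (I.S z) hSy.ge hSz.ge (by rw [hd]; exact hyz.1.2)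
    have hb := hC (I.S z) (norm_pos_iff.1 (hSz ▸ one_pos))
    rw [hSz, div_one] at hb
    have hN : ‖I.symm.M y - I.symm.M z‖ ≤ K * ‖y - z‖ := by
      have := hl z (y - z) (by rw [hz]; norm_num) hyz.1.1
      rwa [add_sub_cancel] at this
    have hCK : 6 * C * (K * ‖y - z‖) ≤ ε / 2 := by
      have h := hyz.2
      rw [le_div_iff₀ (by positivity)] at h
      nlinarith [norm_nonneg (y - z)]
    refine ContinuousLinearMap.opNorm_le_bound₂ _ hε.le fun u v => ?_
    simp only [sub_apply, ContinuousLinearMap.bilinearComp_apply, Real.norm_eq_abs]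
    set Ay := I.symm.M y
    set Az := I.symm.M z
    have e : nd2 (I.S y) (Ay u) (Ay v) - nd2 (I.S z) (Az u) (Az v)
        = (nd2 (I.S y) - nd2 (I.S z)) (Ay u) (Ay v) + nd2 (I.S z) ((Ay - Az) u) (Ay v)
          + nd2 (I.S z) (Az u) ((Ay - Az) v) := by
      simp only [sub_apply, map_sub]; ring
    rw [e]
    refine (abs_add_three _ _ _).trans ?_
    have n1 := Ay.le_of_opNorm_le (I.symm.norm_M_le y) u
    have n2 := Ay.le_of_opNorm_le (I.symm.norm_M_le y) v
    have n3 := Az.le_of_opNorm_le (I.symm.norm_M_le z) u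
    have n4 := (Ay - Az).le_of_opNorm_le hN u
    have n5 := (Ay - Az).le_of_opNorm_le hN v
    have t1 : |(nd2 (I.S y) - nd2 (I.S z)) (Ay u) (Ay v)| ≤ ε / 18 * (3 * ‖u‖) * (3 * ‖v‖) :=
      (((nd2 (I.S y) - nd2 (I.S z))).le_opNorm₂ _ _).trans (by gcongr)
    have t2 : |nd2 (I.S z) ((Ay - Az) u) (Ay v)| ≤ C * (K * ‖y - z‖ * ‖u‖) * (3 * ‖v‖) :=
      (abs_nd2_le hb _ _).trans (by gcongr)
    have t3 : |nd2 (I.S z) (Az u) ((Ay - Az) v)| ≤ C * (3 * ‖u‖) * (K * ‖y - z‖ * ‖v‖) :=
      (abs_nd2_le hb _ _).trans (by gcongr)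
    have := mul_le_mul_of_nonneg_right hCK (mul_nonneg (norm_nonneg u) (norm_nonneg v))
    linarith

end SphereIso

end Vale.Agent.P084.Sm
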