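import Vale.Agent.P084.Sm.Core
import Vale.Agent.P084.Sm.Target
import Vale.Agent.P084.FinMain

/-! Tingley's problem for locally uniformly rotund spaces with uniformly `C²` norms. -/

namespace Vale.Agent.P084.Sm

open Metric

variable {E F : Type*} [NormedAddCommGroup E] [NormedSpace ℝ E] [CompleteSpace E]
  [NormedAddCommGroup F] [NormedSpace ℝ F]

theorem tingley_smooth (hL : LUR E) (hE : UC2 E)
    (f : sphere (0 : E) 1 → sphere (0 : F) 1) (hf : Isometry f) (hs : Function.Surjective f) :
    ∃ T : E ≃ₗᵢ[ℝ] F, ∀ x : sphere (0 : E) 1, T (x : E) = (f x : F) := by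
  by_cases hfin : FiniteDimensional ℝ E
  · exact Vale.Agent.P084.Fin.tingley f hf hs
  haveI := strictConvex_of_LUR hL
  haveI : CompleteSpace F := (toSphereIso f hf hs).complete_target
  have hF := (toSphereIso f hf hs).uc2_target hE
  obtain ⟨L, hLT⟩ := (toSphereIso f hf hs).exists_linear hE hF hL hfin
  refine ⟨L, fun x => ?_⟩
  rw [hLT]
  show homExt f (x : E) = (f x : F)
  have h := homExt_smul_sphere f x (zero_le_one (α := ℝ))
  rwa [one_smul, one_smul] at h

end Vale.Agent.P084.Sm
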