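import Mathlib

/-! Basic facts about the gradient of a smooth norm. -/

namespace Vale.Agent.P084.Sm

set_option linter.unusedSectionVars false

open Filter Topology Set Asymptotics

section General

variable {E : Type*} [NormedAddCommGroup E] [NormedSpace ℝ E]

/-- The derivative of the norm. -/
noncomputable def nd (z : E) : E →L[ℝ] ℝ := fderiv ℝ (fun x : E => ‖x‖) z

/-- Quadratic modulus of smoothness on the unit sphere. -/
def SmoothMod (E : Type*) [NormedAddCommGroup E] [NormedSpace ℝ E] (C : ℝ) : Prop :=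
  ∀ a b : E, ‖a‖ = 1 → ‖b‖ = 1 → 2 - ‖a + b‖ ≤ C * ‖a - b‖ ^ 2

/-- The norm is differentiable away from zero with a Lipschitz gradient on the sphere. -/
structure SmoothNorm (E : Type*) [NormedAddCommGroup E] [NormedSpace ℝ E] : Prop where
  diff : ∀ z : E, z ≠ 0 → DifferentiableAt ℝ (fun x : E => ‖x‖) z
  lip : ∃ L : ℝ, 0 ≤ L ∧ ∀ z w : E, z ≠ 0 → w ≠ 0 → ‖nd z - nd w‖ ≤ L * ‖z - w‖ / ‖z‖

theorem nd_le (z x : E) : nd z x ≤ ‖x‖ := by
  have h : ‖nd z‖ ≤ 1 := NNReal.coe_one ▸ norm_fderiv_le_of_lipschitz ℝ lipschitzWith_one_norm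
  calc nd z x ≤ ‖nd z x‖ := Real.le_norm_self _
    _ ≤ ‖nd z‖ * ‖x‖ := (nd z).le_opNorm x
    _ ≤ 1 * ‖x‖ := by gcongr
    _ = _ := one_mul _

theorem norm_nd_le (z : E) : ‖nd z‖ ≤ 1 :=
  NNReal.coe_one ▸ norm_fderiv_le_of_lipschitz ℝ lipschitzWith_one_norm

theorem nd_smul_pos (z : E) {c : ℝ} (hc : 0 < c) : nd (c • z) = nd z :=
  fderiv_norm_smul_pos hc

theorem nd_neg (z : E) : nd (-z) = -nd z := by
  simpa [nd] using fderiv_norm_smul_neg (x := z) (t := (-1 : ℝ)) (by norm_num)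

/-- Norm gradient characterised by a quadratic upper bound. -/
theorem hasFDerivAt_norm_of_le {a : E} {φ : E →L[ℝ] ℝ} (ha : φ a = ‖a‖)
    (hφ : ∀ x, φ x ≤ ‖x‖) {K r : ℝ} (hr : 0 < r)
    (h : ∀ x, ‖x‖ ≤ r → ‖a + x‖ ≤ ‖a‖ + φ x + K * ‖x‖ ^ 2) :
    HasFDerivAt (fun x : E => ‖x‖) φ a := by
  rw [hasFDerivAt_iff_isLittleO_nhds_zero]
  refine IsLittleO.of_bound fun ε hε => ?_
  have hρ : 0 < min r (ε / (|K| + 1)) := lt_min hr (by positivity)
  filter_upwards [Metric.closedBall_mem_nhds (0 : E) hρ] with x hx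
  rw [mem_closedBall_zero_iff] at hx
  have h1 := h x (hx.trans (min_le_left _ _))
  have h2 := hφ (a + x)
  rw [map_add, ha] at h2
  have h3 : K * ‖x‖ ^ 2 ≤ ε * ‖x‖ := by
    have h4 : ‖x‖ ≤ ε / (|K| + 1) := hx.trans (min_le_right _ _)
    rw [le_div_iff₀ (by positivity)] at h4
    nlinarith [le_abs_self K, norm_nonneg x]
  rw [Real.norm_eq_abs, abs_le]
  constructor <;> nlinarith [norm_nonneg x]

theorem norm_normalize {z : E} (hz : z ≠ 0) : ‖‖z‖⁻¹ • z‖ = 1 := norm_smul_inv_norm hz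

theorem normalize_sub_le {u v : E} (hu : u ≠ 0) (hv : v ≠ 0) :
    ‖‖u‖⁻¹ • u - ‖v‖⁻¹ • v‖ ≤ 2 * ‖u - v‖ / ‖u‖ := by
  have hun := norm_pos_iff.2 hu
  have hvn := norm_pos_iff.2 hv
  have he : ‖u‖ • (‖u‖⁻¹ • u - ‖v‖⁻¹ • v) = (u - v) + (1 - ‖u‖ / ‖v‖) • v := by
    match_scalars <;> field_simp <;> ring
  have h := congrArg norm he
  rw [norm_smul, Real.norm_of_nonneg hun.le] at h
  rw [le_div_iff₀ hun, mul_comm, h]
  refine (norm_add_le _ _).trans ?_
  have : ‖(1 - ‖u‖ / ‖v‖) • v‖ = |‖v‖ - ‖u‖| := by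
    rw [norm_smul, Real.norm_eq_abs, ← abs_of_pos hvn, ← abs_mul, abs_of_pos hvn]
    congr 1
    field_simp
  rw [this]
  have h2 := abs_norm_sub_norm_le v u
  rw [norm_sub_rev v u] at h2
  linarith

/-- A space with a quadratic modulus has a differentiable norm with Lipschitz gradient. -/
theorem smoothNorm_of_mod {C : ℝ} (hC0 : 0 ≤ C) (hC : SmoothMod E C) : SmoothNorm E := by
  set K := 96 * C + 8 with hK
  have step : ∀ a x : E, ‖a‖ = 1 → ‖x‖ ≤ 1 / 2 → ‖a + x‖ + ‖a - x‖ ≤ 2 + K * ‖x‖ ^ 2 := by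
    intro a x ha hx
    have l1 : 1 / 2 ≤ ‖a + x‖ := by
      have := norm_sub_norm_le a (-x); rw [sub_neg_eq_add, norm_neg] at this; linarith
    have l2 : 1 / 2 ≤ ‖a - x‖ := by have := norm_sub_norm_le a x; linarith
    have u1 : ‖a + x‖ ≤ 3 / 2 := (norm_add_le _ _).trans (by linarith)
    have u2 : ‖a - x‖ ≤ 3 / 2 := (norm_sub_le _ _).trans (by linarith)
    have hu : a + x ≠ 0 := norm_pos_iff.1 (by linarith)
    have hv : a - x ≠ 0 := norm_pos_iff.1 (by linarith)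
    set p := ‖a + x‖⁻¹ • (a + x) with hp
    set q := ‖a - x‖⁻¹ • (a - x) with hq
    have hD : ‖p - q‖ ≤ 8 * ‖x‖ := by
      refine (normalize_sub_le hu hv).trans ?_
      have : a + x - (a - x) = (2 : ℝ) • x := by module
      rw [this, norm_smul, Real.norm_of_nonneg (by norm_num), div_le_iff₀ (by linarith)]
      nlinarith [norm_nonneg x]
    have hm := hC p q (norm_normalize hu) (norm_normalize hv)
    have hsum : (2 : ℝ) • a = ((‖a + x‖ + ‖a - x‖) / 2) • (p + q)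
        + ((‖a + x‖ - ‖a - x‖) / 2) • (p - q) := by
      have e1 : ‖a + x‖ • p = a + x := by
        rw [hp, smul_smul, mul_inv_cancel₀ (by linarith), one_smul]
      have e2 : ‖a - x‖ • q = a - x := by
        rw [hq, smul_smul, mul_inv_cancel₀ (by linarith), one_smul]
      calc (2 : ℝ) • a = (a + x) + (a - x) := by module
        _ = ‖a + x‖ • p + ‖a - x‖ • q := by rw [e1, e2]
        _ = _ := by module
    have h2 := norm_sub_norm_le (((‖a + x‖ + ‖a - x‖) / 2) • (p + q))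
      (-(((‖a + x‖ - ‖a - x‖) / 2) • (p - q)))
    rw [sub_neg_eq_add, ← hsum, norm_neg, norm_smul, norm_smul, norm_smul, ha,
      Real.norm_of_nonneg (by linarith : (0:ℝ) ≤ (‖a + x‖ + ‖a - x‖) / 2),
      Real.norm_of_nonneg (by norm_num : (0:ℝ) ≤ 2), mul_one, Real.norm_eq_abs] at h2
    have hdiff : |(‖a + x‖ - ‖a - x‖) / 2| ≤ ‖x‖ := by
      rw [abs_div, abs_two, div_le_iff₀ two_pos]
      refine (abs_norm_sub_norm_le _ _).trans ?_
      have : a + x - (a - x) = (2 : ℝ) • x := by module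
      rw [this, norm_smul, Real.norm_of_nonneg (by norm_num)]
      linarith
    have hD2 : ‖p - q‖ ^ 2 ≤ 64 * ‖x‖ ^ 2 := by nlinarith [norm_nonneg (p - q)]
    have hDx : |(‖a + x‖ - ‖a - x‖) / 2| * ‖p - q‖ ≤ 8 * ‖x‖ ^ 2 := by
      have := mul_le_mul hdiff hD (norm_nonneg _) (norm_nonneg x)
      linarith
    have hCD : C * ‖p - q‖ ^ 2 ≤ C * (64 * ‖x‖ ^ 2) := mul_le_mul_of_nonneg_left hD2 hC0
    rw [hK]
    nlinarith [sq_nonneg ‖x‖, mul_nonneg hC0 (sq_nonneg ‖x‖)]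
  have hderiv : ∀ a : E, ‖a‖ = 1 → ∃ φ : E →L[ℝ] ℝ, φ a = 1 ∧ (∀ x, φ x ≤ ‖x‖) ∧
      (∀ x, ‖x‖ ≤ 1 / 2 → ‖a + x‖ ≤ 1 + φ x + K * ‖x‖ ^ 2) ∧
      HasFDerivAt (fun x : E => ‖x‖) φ a := by
    intro a ha
    obtain ⟨φ, hφ, hφa⟩ := exists_dual_vector ℝ a (by rw [ha]; norm_num)
    have hle : ∀ x, φ x ≤ ‖x‖ := fun x => by
      have h := φ.le_opNorm x
      rw [hφ, one_mul] at h
      exact (Real.le_norm_self _).trans h
    have hφa' : φ a = 1 := by simpa [ha] using hφa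
    have hup : ∀ x, ‖x‖ ≤ 1 / 2 → ‖a + x‖ ≤ 1 + φ x + K * ‖x‖ ^ 2 := by
      intro x hx
      have h := step a x ha hx
      have h' := hle (a - x)
      rw [map_sub, hφa'] at h'
      linarith
    refine ⟨φ, hφa', hle, hup, hasFDerivAt_norm_of_le (by rw [hφa', ha]) hle
      (r := 1 / 2) (by norm_num) (K := K) ?_⟩
    simpa [ha] using hup
  have hdiff : ∀ z : E, z ≠ 0 → DifferentiableAt ℝ (fun x : E => ‖x‖) z := by
    intro z hz
    obtain ⟨φ, -, -, -, h⟩ := hderiv _ (norm_normalize hz)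
    exact h.differentiableAt.differentiableAt_norm_of_smul
  refine ⟨hdiff, 2 * max (2 * K) 4, by positivity, ?_⟩
  have hunit : ∀ a b : E, ‖a‖ = 1 → ‖b‖ = 1 → ‖nd a - nd b‖ ≤ max (2 * K) 4 * ‖a - b‖ := by
    intro a b ha hb
    rcases le_or_gt ‖a - b‖ (1 / 2) with hr | hr
    swap
    · refine (norm_sub_le _ _).trans ?_
      have := norm_nd_le a
      have := norm_nd_le b
      nlinarith [le_max_right (2 * K) 4]
    rcases eq_or_ne a b with rfl | hab
    · simp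
    obtain ⟨φ, hφa, hφl, hφu, hφd⟩ := hderiv a ha
    obtain ⟨ψ, hψb, hψl, hψu, hψd⟩ := hderiv b hb
    simp only [nd, hφd.fderiv, hψd.fderiv]
    set r := ‖a - b‖
    have hr0 : 0 < r := norm_pos_iff.2 (sub_ne_zero.2 hab)
    refine ContinuousLinearMap.opNorm_le_bound _ (by positivity) fun x => ?_
    have key : ∀ y : E, ‖y‖ = r → (φ - ψ) y ≤ 2 * K * r ^ 2 := by
      intro y hy
      have h1 := hψu y (by linarith)
      have h2 := hφl (b + y)
      have h3 := hφu (b - a) (by rw [norm_sub_rev]; exact hr)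
      rw [add_sub_cancel, hb, norm_sub_rev, map_sub, hφa] at h3
      rw [hy] at h1
      rw [map_add] at h2
      simp only [sub_apply]
      linarith
    rcases eq_or_ne x 0 with rfl | hx
    · simp
    have hxn := norm_pos_iff.2 hx
    have hy : ‖(r / ‖x‖) • x‖ = r := by
      rw [norm_smul, Real.norm_of_nonneg (by positivity)]; field_simp
    have k1 := key _ hy
    have k2 := key (-((r / ‖x‖) • x)) (by rw [norm_neg]; exact hy)
    rw [map_neg] at k2
    simp only [map_smul, smul_eq_mul] at k1 k2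
    rw [Real.norm_eq_abs]
    have hb1 : |(φ - ψ) x| * (r / ‖x‖) ≤ 2 * K * r ^ 2 := by
      rw [← abs_of_pos (show 0 < r / ‖x‖ by positivity), ← abs_mul, abs_le]
      constructor <;> nlinarith
    rw [mul_div_assoc', div_le_iff₀ hxn] at hb1
    have : |(φ - ψ) x| ≤ 2 * K * r * ‖x‖ := le_of_mul_le_mul_right (by linarith) hr0
    nlinarith [le_max_left (2 * K) 4, mul_pos hr0 hxn]
  intro z w hz hw
  have h := hunit _ _ (norm_normalize hz) (norm_normalize hw)
  rw [nd_smul_pos z (inv_pos.2 (norm_pos_iff.2 hz)), nd_smul_pos w (inv_pos.2 (norm_pos_iff.2 hw))]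
    at h
  refine h.trans ?_
  refine (mul_le_mul_of_nonneg_left (normalize_sub_le hz hw) (by positivity)).trans (le_of_eq ?_)
  ring

namespace SmoothNorm

variable (h : SmoothNorm E)
include h

theorem hasFDerivAt {z : E} (hz : z ≠ 0) : HasFDerivAt (fun x : E => ‖x‖) (nd z) z :=
  (h.diff z hz).hasFDerivAt

theorem nd_self {z : E} (hz : z ≠ 0) : nd z z = ‖z‖ := (h.diff z hz).fderiv_norm_self

theorem continuousAt_nd {z : E} (hz : z ≠ 0) : ContinuousAt nd z := by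
  obtain ⟨L, hL0, hL⟩ := h.lip
  refine continuousAt_of_locally_lipschitz (norm_pos_iff.2 hz) (L / ‖z‖) fun w hw => ?_
  have hw0 : w ≠ 0 := by
    rintro rfl
    simp [dist_eq_norm] at hw
  rw [dist_eq_norm, dist_eq_norm, norm_sub_rev, norm_sub_rev w, div_mul_eq_mul_div]
  exact hL z w hz hw0

theorem nd_sub_le {y x : E} (hy : y ≠ 0) : ‖x‖ ≥ ‖y‖ + nd y (x - y) := by
  have := nd_le y x
  rw [map_sub, h.nd_self hy]
  linarith

/-- If `nd w` norms `x`, then `x` is a positive multiple of `w`. -/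
theorem eq_smul_of_nd_eq [StrictConvexSpace ℝ E] {x w : E} (hx : x ≠ 0) (hw : w ≠ 0)
    (he : nd w x = ‖x‖) : x = (‖x‖ / ‖w‖) • w := by
  have hsum : ‖x + w‖ = ‖x‖ + ‖w‖ := by
    refine le_antisymm (norm_add_le _ _) ?_
    have := nd_le w (x + w)
    rw [map_add, he, h.nd_self hw] at this
    exact this
  have hray : SameRay ℝ x w := sameRay_iff_norm_add.2 hsum
  have := hray.norm_smul_eq
  rw [div_eq_inv_mul, mul_smul, this, smul_smul, inv_mul_cancel₀ (norm_ne_zero_iff.2 hw),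
    one_smul]

end SmoothNorm

end General

end Vale.Agent.P084.Sm
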