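import Vale.Agent.P084.Sm.Hyp

/-! A sphere isometry between spaces with `UC2` norms is twice differentiable. -/

namespace Vale.Agent.P084.Sm

set_option linter.unusedSectionVars false

open Filter Topology Set Metric

/-- A map whose increments are prescribed, up to small errors, by a family of functionals bounded
from below has a derivative, with a remainder controlled by the errors. -/
theorem deriv_of_family {ι E F : Type*} [NormedAddCommGroup E] [NormedSpace ℝ E]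
    [NormedAddCommGroup F] [NormedSpace ℝ F] [CompleteSpace F] (A : ι → F →L[ℝ] ℝ) {κ : ℝ}
    (hκ : 0 < κ) (hA : ∀ x : F, ∃ i, κ * ‖x‖ ≤ |A i x|) (g : E → F) (z : E) (R : ι → E →L[ℝ] ℝ)
    {K η₀ : ℝ} (hη₀ : 0 < η₀) (hlip : ∀ h : E, ‖h‖ ≤ η₀ → ‖g (z + h) - g z‖ ≤ K * ‖h‖)
    (hrem : ∀ ε > (0 : ℝ), ∃ η > (0 : ℝ), ∀ h : E, ‖h‖ ≤ η → ∀ i,
      |A i (g (z + h) - g z) - R i h| ≤ ε * ‖h‖) :
    ∃ Λ : E →L[ℝ] F, HasFDerivAt g Λ z ∧ ∀ h : E, ∀ r : ℝ,
      (∀ i, |A i (g (z + h) - g z) - R i h| ≤ r) → ‖g (z + h) - g z - Λ h‖ ≤ r / κ := by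
  have huniq : ∀ x y : F, (∀ i, A i x = A i y) → x = y := by
    intro x y hxy
    obtain ⟨i, hi⟩ := hA (x - y)
    rw [map_sub, hxy i, sub_self, abs_zero] at hi
    exact sub_eq_zero.1 (norm_le_zero_iff.1 (nonpos_of_mul_nonpos_right hi hκ))
  have hex : ∀ h : E, ∃ y : F, (∀ i, A i y = R i h) ∧ ‖y‖ ≤ K * ‖h‖ := by
    intro h
    let q : ℕ → F := fun n => ((n : ℝ) + 1) • (g (z + (1 / ((n : ℝ) + 1)) • h) - g z)
    have hsmall : ∀ η > (0 : ℝ), ∀ᶠ n : ℕ in atTop, ‖(1 / ((n : ℝ) + 1)) • h‖ ≤ η := by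
      intro η hη
      have h0 := (tendsto_one_div_add_atTop_nhds_zero_nat (𝕜 := ℝ)).smul_const h
      rw [zero_smul] at h0
      have := h0.norm
      rw [norm_zero] at this
      exact this.eventually (ge_mem_nhds hη)
    have hq : ∀ ε > (0 : ℝ), ∀ᶠ n in atTop, ∀ i, |A i (q n) - R i h| ≤ ε * ‖h‖ := by
      intro ε hε
      obtain ⟨η, hη, hr⟩ := hrem ε hε
      filter_upwards [hsmall η hη] with n hn i
      have hp : (0 : ℝ) < (n : ℝ) + 1 := by positivity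
      have h1 := mul_le_mul_of_nonneg_left (hr _ hn i) hp.le
      have e1 : A i (q n) - R i h = ((n : ℝ) + 1) *
          (A i (g (z + (1 / ((n : ℝ) + 1)) • h) - g z) - R i ((1 / ((n : ℝ) + 1)) • h)) := by
        simp only [q, map_smul, smul_eq_mul]; field_simp
      rw [e1, abs_mul, abs_of_pos hp]
      refine h1.trans (le_of_eq ?_)
      rw [norm_smul, Real.norm_of_nonneg (by positivity)]; field_simp
    have hcauchy : CauchySeq q := by
      rw [Metric.cauchySeq_iff']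
      intro ε hε
      have hb : 0 < κ * ε / (2 * (‖h‖ + 1) + 1) := by positivity
      obtain ⟨N, hN⟩ := eventually_atTop.1 (hq _ hb)
      refine ⟨N, fun n hn => ?_⟩
      obtain ⟨i, hi⟩ := hA (q n - q N)
      rw [dist_eq_norm]
      have h1 := hN n hn i
      have h2 := hN N le_rfl i
      rw [map_sub] at hi
      have h3 : |A i (q n) - A i (q N)| ≤ 2 * (κ * ε / (2 * (‖h‖ + 1) + 1) * ‖h‖) := by
        have := abs_sub_le (A i (q n)) (R i h) (A i (q N))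
        rw [abs_sub_comm (R i h)] at this
        linarith
      have h4 : 2 * (κ * ε / (2 * (‖h‖ + 1) + 1) * ‖h‖) < κ * ε := by
        rw [div_mul_eq_mul_div, ← mul_div_assoc, div_lt_iff₀ (by positivity)]
        nlinarith [mul_pos hκ hε]
      exact lt_of_mul_lt_mul_left (lt_of_le_of_lt (hi.trans h3) h4) hκ.le
    obtain ⟨y, hy⟩ := cauchySeq_tendsto_of_complete hcauchy
    refine ⟨y, fun i => ?_, ?_⟩
    · refine tendsto_nhds_unique (((A i).continuous.tendsto y).comp hy) ?_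
      rw [Metric.tendsto_nhds]
      intro ε hε
      filter_upwards [hq (ε / (‖h‖ + 1)) (by positivity)] with n hn
      rw [Function.comp_apply, Real.dist_eq]
      refine lt_of_le_of_lt (hn i) ?_
      rw [div_mul_eq_mul_div, div_lt_iff₀ (by positivity)]
      linarith
    · refine le_of_tendsto hy.norm ?_
      filter_upwards [hsmall η₀ hη₀] with n hn
      have hp : (0 : ℝ) < (n : ℝ) + 1 := by positivity
      rw [norm_smul, Real.norm_of_nonneg hp.le]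
      refine (mul_le_mul_of_nonneg_left (hlip _ hn) hp.le).trans (le_of_eq ?_)
      rw [norm_smul, Real.norm_of_nonneg (by positivity)]; field_simp
  choose Φ hΦ hΦn using hex
  let Λ₀ : E →ₗ[ℝ] F :=
    { toFun := Φ
      map_add' := fun x y => huniq _ _ fun i => by simp [hΦ]
      map_smul' := fun c x => huniq _ _ fun i => by simp [hΦ] }
  let Λ : E →L[ℝ] F := Λ₀.mkContinuous K fun x => hΦn x
  have hmain : ∀ h : E, ∀ r : ℝ, (∀ i, |A i (g (z + h) - g z) - R i h| ≤ r) →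
      ‖g (z + h) - g z - Λ h‖ ≤ r / κ := by
    intro h r hr
    obtain ⟨i, hi⟩ := hA (g (z + h) - g z - Λ h)
    rw [le_div_iff₀ hκ, mul_comm]
    refine hi.trans ?_
    rw [map_sub]
    have e : A i (Λ h) = R i h := hΦ h i
    rw [e]; exact hr i
  refine ⟨Λ, ?_, hmain⟩
  rw [hasFDerivAt_iff_isLittleO_nhds_zero]
  refine Asymptotics.IsLittleO.of_bound fun ε hε => ?_
  obtain ⟨η, hη, hr⟩ := hrem (ε * κ) (by positivity)
  filter_upwards [Metric.closedBall_mem_nhds (0 : E) hη] with h hh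
  refine (hmain h _ (hr h (by simpa using hh))).trans (le_of_eq ?_)
  field_simp

section Chord2

variable {G : Type*} [NormedAddCommGroup G] [NormedSpace ℝ G]

theorem norm_proj_le (c z x : G) (hc : ‖c‖ ≤ 1) : ‖x - nd z x • c‖ ≤ 2 * ‖x‖ := by
  refine (norm_sub_le _ _).trans ?_
  rw [norm_smul]
  have h1 := (nd z).le_of_opNorm_le (norm_nd_le z) x
  nlinarith [norm_nonneg (nd z x), norm_nonneg x, norm_nonneg c]

theorem norm_taylor (hG : SmoothNorm G) : ∃ K : ℝ, 0 ≤ K ∧ ∀ z h : G, 1 / 2 ≤ ‖z‖ →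
    ‖h‖ ≤ 1 / 4 → |‖z + h‖ - ‖z‖ - nd z h| ≤ K * ‖h‖ ^ 2 := by
  obtain ⟨L, hL0, hL⟩ := hG.lip
  refine ⟨2 * L, by positivity, fun z h hz hh => ?_⟩
  have hs : ∀ x ∈ segment ℝ z (z + h), x ≠ 0 ∧ ‖x - z‖ ≤ ‖h‖ := by
    intro x hx
    have h1 := norm_sub_le_of_mem_segment hx
    rw [add_sub_cancel_left] at h1
    have h2 := norm_sub_norm_le z x
    rw [norm_sub_rev z x] at h2
    exact ⟨norm_pos_iff.1 (by linarith), h1⟩
  have hz0 : z ≠ 0 := norm_pos_iff.1 (by linarith)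
  have hmv := (convex_segment z (z + h)).norm_image_sub_le_of_norm_hasFDerivWithin_le
    (f := fun x => ‖x‖ - nd z x) (f' := fun x => nd x - nd z) (C := 2 * L * ‖h‖)
    (fun x hx => ((hG.hasFDerivAt (hs x hx).1).sub (nd z).hasFDerivAt).hasFDerivWithinAt)
    (fun x hx => by
      rw [norm_sub_rev]
      refine (hL z x hz0 (hs x hx).1).trans ?_
      rw [norm_sub_rev z x, div_le_iff₀ (by linarith)]
      have t1 := mul_le_mul_of_nonneg_left (hs x hx).2 hL0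
      have t2 := mul_le_mul_of_nonneg_left hz (by positivity : 0 ≤ 2 * (L * ‖h‖))
      linarith)
    (left_mem_segment ℝ _ _) (right_mem_segment ℝ _ _)
  rw [add_sub_cancel_left, Real.norm_eq_abs, map_add] at hmv
  refine (le_of_eq ?_).trans (hmv.trans (le_of_eq (by ring)))
  congr 1; ring

theorem chord_lower {c z h : G} (hc : ‖c‖ ≤ 1) :
    ‖z - ‖z‖ • c‖ - 2 * ‖h‖ ≤ ‖z + h - ‖z + h‖ • c‖ := by
  have e : z - ‖z‖ • c = (z + h - ‖z + h‖ • c) - (h - (‖z + h‖ - ‖z‖) • c) := by module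
  have h1 : ‖h - (‖z + h‖ - ‖z‖) • c‖ ≤ 2 * ‖h‖ := by
    refine (norm_sub_le _ _).trans ?_
    rw [norm_smul, Real.norm_eq_abs]
    have := abs_norm_sub_norm_le (z + h) z
    rw [add_sub_cancel_left] at this
    have := mul_le_mul this hc (norm_nonneg c) (norm_nonneg h)
    linarith
  have h2 := norm_sub_le (z + h - ‖z + h‖ • c) (h - (‖z + h‖ - ‖z‖) • c)
  rw [← e] at h2
  linarith

theorem chord_taylor (hG : SmoothNorm G) {r : ℝ} (hr : 0 < r) :
    ∃ K η : ℝ, 0 ≤ K ∧ 0 < η ∧ ∀ c z h : G, ‖c‖ ≤ 1 → 1 / 2 ≤ ‖z‖ → r ≤ ‖z - ‖z‖ • c‖ →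
      ‖h‖ ≤ η →
      |‖z + h - ‖z + h‖ • c‖ - ‖z - ‖z‖ • c‖ - chordD c z h| ≤ K * ‖h‖ ^ 2 ∧
      ‖chordD c (z + h) - chordD c z‖ ≤ K * ‖h‖ := by
  obtain ⟨L, hL0, hL⟩ := hG.lip
  refine ⟨4 * L / r + 2 * L, min (1 / 4) (r / 4), by positivity,
    lt_min (by norm_num) (by positivity), fun c z h hc hz hv hh => ?_⟩
  have hh1 := hh.trans (min_le_left _ _)
  have hh2 := hh.trans (min_le_right _ _)
  have hs : ∀ k : G, ‖k‖ ≤ ‖h‖ → z + k ≠ 0 ∧ z + k - ‖z + k‖ • c ≠ 0 := by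
    intro k hk
    have h2 := norm_sub_norm_le z (-k)
    rw [sub_neg_eq_add, norm_neg] at h2
    have h3 := chord_lower (z := z) (h := k) hc
    exact ⟨norm_pos_iff.1 (by linarith), norm_pos_iff.1 (by linarith)⟩
  have hz0 : z ≠ 0 := norm_pos_iff.1 (by linarith)
  have hv0 : z - ‖z‖ • c ≠ 0 := norm_pos_iff.1 (by linarith)
  have hlip : ∀ k : G, ‖k‖ ≤ ‖h‖ →
      ‖chordD c (z + k) - chordD c z‖ ≤ (4 * L / r + 2 * L) * ‖h‖ := by
    intro k hk
    rw [norm_sub_rev]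
    refine (chordD_lip hL0 hL hc hz0 (hs k hk).1 hv0 (hs k hk).2).trans ?_
    rw [sub_add_cancel_left, norm_neg]
    have h5 : 4 * L / ‖z - ‖z‖ • c‖ ≤ 4 * L / r := by gcongr
    have h6 : L / ‖z‖ ≤ 2 * L := by
      rw [div_le_iff₀ (by linarith)]; nlinarith
    exact mul_le_mul (add_le_add h5 h6) hk (norm_nonneg _) (by positivity)
  refine ⟨?_, hlip h le_rfl⟩
  have hseg : ∀ x ∈ segment ℝ z (z + h), ‖x - z‖ ≤ ‖h‖ := by
    intro x hx
    have := norm_sub_le_of_mem_segment hx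
    rwa [add_sub_cancel_left] at this
  have hmv := (convex_segment z (z + h)).norm_image_sub_le_of_norm_hasFDerivWithin_le
    (f := fun x => ‖x - ‖x‖ • c‖ - chordD c z x) (f' := fun x => chordD c x - chordD c z)
    (C := (4 * L / r + 2 * L) * ‖h‖)
    (fun x hx => by
      have h1 := hs (x - z) (hseg x hx)
      rw [add_sub_cancel] at h1
      exact ((hasFDerivAt_chord hG h1.1 h1.2).sub (chordD c z).hasFDerivAt).hasFDerivWithinAt)
    (fun x hx => by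
      have := hlip (x - z) (hseg x hx)
      rwa [add_sub_cancel] at this)
    (left_mem_segment ℝ _ _) (right_mem_segment ℝ _ _)
  rw [add_sub_cancel_left, Real.norm_eq_abs, map_add] at hmv
  refine (le_of_eq ?_).trans (hmv.trans (le_of_eq (by ring)))
  congr 1; ring

/-- Derivative of `z ↦ chordD c z x`. -/
noncomputable def chordD2 (c z x : G) : G →L[ℝ] ℝ :=
  ((nd2 (z - ‖z‖ • c)).flip (x - nd z x • c)).comp
      (ContinuousLinearMap.id ℝ G - (nd z).smulRight c)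
    - nd (z - ‖z‖ • c) c • (nd2 z).flip x

theorem chordD2_apply (c z x h : G) : chordD2 c z x h
    = nd2 (z - ‖z‖ • c) (h - nd z h • c) (x - nd z x • c)
      - nd (z - ‖z‖ • c) c * nd2 z h x := by
  simp [chordD2]; ring

theorem abs_nd2_le {z : G} {C : ℝ} (hC : ‖nd2 z‖ ≤ C) (a b : G) :
    |nd2 z a b| ≤ C * ‖a‖ * ‖b‖ :=
  ((nd2 z).le_opNorm₂ a b).trans (by gcongr)

theorem chord_taylor2 (hG : UC2 G) {r : ℝ} (hr : 0 < r) :
    ∃ K : ℝ, 0 ≤ K ∧ (∀ c z x h : G, ‖c‖ ≤ 1 → 1 / 2 ≤ ‖z‖ → r ≤ ‖z - ‖z‖ • c‖ →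
        |chordD2 c z x h| ≤ K * ‖x‖ * ‖h‖) ∧
      ∀ ε > (0 : ℝ), ∃ η > (0 : ℝ), ∀ c z x h : G, ‖c‖ ≤ 1 → 1 / 2 ≤ ‖z‖ →
        r ≤ ‖z - ‖z‖ • c‖ → ‖h‖ ≤ η →
        |chordD c (z + h) x - chordD c z x - chordD2 c z x h| ≤ ε * ‖x‖ * ‖h‖ := by
  obtain ⟨C, hC0, hC⟩ := hG.exists_bound
  obtain ⟨L, hL0, hL⟩ := hG.smooth.lip
  obtain ⟨K₁, hK₁, hnt⟩ := norm_taylor hG.smooth
  have hCv : ∀ v : G, r ≤ ‖v‖ → ‖nd2 v‖ ≤ C / r := fun v hv =>
    (hC v (norm_pos_iff.1 (hr.trans_le hv))).trans (div_le_div_of_nonneg_left hC0 hr hv)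
  have hCz : ∀ z : G, 1 / 2 ≤ ‖z‖ → ‖nd2 z‖ ≤ 2 * C := fun z hz =>
    (hC z (norm_pos_iff.1 (by linarith))).trans (by rw [div_le_iff₀ (by linarith)]; nlinarith)
  refine ⟨4 * (C / r) + 2 * C, by positivity, fun c z x h hc hz hv => ?_, fun ε hε => ?_⟩
  · rw [chordD2_apply]
    refine (abs_sub _ _).trans ?_
    have h1 := abs_nd2_le (hCv _ hv) (h - nd z h • c) (x - nd z x • c)
    have h2 : |nd (z - ‖z‖ • c) c * nd2 z h x| ≤ 1 * (2 * C * ‖h‖ * ‖x‖) := by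
      rw [abs_mul]
      refine mul_le_mul ?_ (abs_nd2_le (hCz z hz) h x) (abs_nonneg _) zero_le_one
      exact ((nd (z - ‖z‖ • c)).le_of_opNorm_le (norm_nd_le _) c).trans (by rwa [one_mul])
    have h3 : C / r * ‖h - nd z h • c‖ * ‖x - nd z x • c‖ ≤ C / r * (2 * ‖h‖) * (2 * ‖x‖) := by
      have := norm_proj_le c z h hc
      have := norm_proj_le c z x hc
      gcongr
    linarith
  obtain ⟨η₁, hη₁, ht1⟩ := hG.taylor hr (ε := ε / 12) (by positivity)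
  obtain ⟨η₂, hη₂, ht2⟩ := hG.taylor (by norm_num : (0:ℝ) < 1 / 2) (ε := ε / 12) (by positivity)
  set Q := C / r * K₁ * 2 + C / r * 2 * (2 * L) + 1
  refine ⟨min (min (η₁ / 2) η₂) (min (1 / 4) (min (r / 4) (ε / (2 * Q)))), by positivity,
    fun c z x h hc hz hv hh => ?_⟩
  simp only [le_min_iff] at hh
  obtain ⟨⟨hh1, hh2⟩, hh3, hh4, hh5⟩ := hh
  set v := z - ‖z‖ • c
  set k := h - (‖z + h‖ - ‖z‖) • c
  have ev : z + h - ‖z + h‖ • c = v + k := by simp only [v, k]; module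
  have habs := abs_norm_sub_norm_le (z + h) z
  rw [add_sub_cancel_left] at habs
  have hk : ‖k‖ ≤ 2 * ‖h‖ := by
    refine (norm_sub_le _ _).trans ?_
    rw [norm_smul, Real.norm_eq_abs]
    have := mul_le_mul habs hc (norm_nonneg c) (norm_nonneg h)
    linarith
  have hzh : z + h ≠ 0 := by
    have h2 := norm_sub_norm_le z (-h)
    rw [sub_neg_eq_add, norm_neg] at h2
    exact norm_pos_iff.1 (by linarith)
  have hz0 : z ≠ 0 := norm_pos_iff.1 (by linarith)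
  set p := x - nd z x • c
  set p' := x - nd (z + h) x • c
  set e₁ := nd (v + k) - nd v - nd2 v k
  set e₂ := nd (z + h) - nd z - nd2 z h
  have he₁ : ‖e₁‖ ≤ ε / 12 * (2 * ‖h‖) :=
    (ht1 v k hv (by linarith)).trans (mul_le_mul_of_nonneg_left hk (by positivity))
  have he₂ : ‖e₂‖ ≤ ε / 12 * ‖h‖ := ht2 z h hz hh2
  set d := k - (h - nd z h • c)
  have hd : ‖d‖ ≤ K₁ * ‖h‖ ^ 2 := by
    have e : d = -((‖z + h‖ - ‖z‖ - nd z h) • c) := by simp only [d, k]; module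
    rw [e, norm_neg, norm_smul, Real.norm_eq_abs]
    exact (mul_le_of_le_one_right (abs_nonneg _) hc).trans (hnt z h hz hh3)
  have hpp : ‖p' - p‖ ≤ 2 * L * ‖h‖ * ‖x‖ := by
    have e : p' - p = ((nd z - nd (z + h)) x) • c := by
      simp only [p, p', sub_apply]; module
    rw [e, norm_smul]
    refine (mul_le_of_le_one_right (norm_nonneg _) hc).trans ?_
    refine (nd z - nd (z + h)).le_of_opNorm_le ?_ x
    refine (hL z (z + h) hz0 hzh).trans ?_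
    rw [sub_add_cancel_left, norm_neg, div_le_iff₀ (by linarith)]
    nlinarith [mul_nonneg hL0 (norm_nonneg h)]
  have hid : chordD c (z + h) x - chordD c z x - chordD2 c z x h
      = e₁ p' + nd2 v d p' + nd2 v (h - nd z h • c) (p' - p) - nd v c * e₂ x := by
    simp only [chordD, chordD2_apply, ContinuousLinearMap.comp_apply, sub_apply,
      ContinuousLinearMap.id_apply, ContinuousLinearMap.smulRight_apply, ev, e₁, e₂, d, p, p', v]
    simp only [map_sub, map_smul, sub_apply, smul_apply, smul_eq_mul]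
    ring
  rw [hid]
  refine (abs_sub _ _).trans ?_
  refine (add_le_add (abs_add_three _ _ _) le_rfl).trans ?_
  have t1 : |e₁ p'| ≤ ε / 12 * (2 * ‖h‖) * (2 * ‖x‖) :=
    (e₁.le_opNorm p').trans (mul_le_mul he₁ (norm_proj_le c _ x hc) (norm_nonneg _) (by positivity))
  have t2 : |nd2 v d p'| ≤ C / r * (K₁ * ‖h‖ ^ 2) * (2 * ‖x‖) := by
    refine (abs_nd2_le (hCv v hv) d p').trans ?_
    have : ‖p'‖ ≤ 2 * ‖x‖ := norm_proj_le c _ x hc
    gcongr
  have t3 : |nd2 v (h - nd z h • c) (p' - p)| ≤ C / r * (2 * ‖h‖) * (2 * L * ‖h‖ * ‖x‖) := by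
    refine (abs_nd2_le (hCv v hv) _ _).trans ?_
    have := norm_proj_le c z h hc
    gcongr
  have t4 : |nd v c * e₂ x| ≤ 1 * (ε / 12 * ‖h‖ * ‖x‖) := by
    rw [abs_mul]
    exact mul_le_mul (((nd v).le_of_opNorm_le (norm_nd_le _) c).trans (by rwa [one_mul]))
      (e₂.le_of_opNorm_le he₂ x) (abs_nonneg _) zero_le_one
  have hQ : (0:ℝ) < Q := by positivity
  have h7 : Q * ‖h‖ ≤ ε / 2 := by
    rw [le_div_iff₀ (by positivity)] at hh5; linarith
  have h8 := mul_le_mul_of_nonneg_right h7 (mul_nonneg (norm_nonneg h) (norm_nonneg x))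
  have h9 : 0 ≤ ε * (‖h‖ * ‖x‖) := by positivity
  have h10 : 0 ≤ ‖h‖ * (‖h‖ * ‖x‖) := by positivity
  simp only [Q] at h8
  linarith

end Chord2

namespace SphereIso

variable {E F : Type*} [NormedAddCommGroup E] [NormedSpace ℝ E]
  [NormedAddCommGroup F] [NormedSpace ℝ F] (I : SphereIso E F)

theorem chord_eq {z c : E} (hc : ‖c‖ = 1 ∨ c = 0) :
    ‖I.T z - ‖I.T z‖ • I.T c‖ = ‖z - ‖z‖ • c‖ := by
  rw [I.norm_T, ← I.smul_T _ _ (norm_nonneg z)]
  rcases hc with hc | rfl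
  · exact I.dist_T z (‖z‖ • c) (by rw [norm_smul, hc, norm_norm, mul_one])
  · simp [I.T_zero, I.norm_T]

theorem norm_le_one {c : E} (hc : ‖c‖ = 1 ∨ c = 0) : ‖c‖ ≤ 1 ∧ ‖I.T c‖ ≤ 1 := by
  rcases hc with hc | rfl
  · simp [I.norm_T, hc]
  · simp [I.T_zero]

/-- Derivative of the extension. -/
noncomputable abbrev M (z : E) : E →L[ℝ] F := fderiv ℝ I.T z

theorem lip3 (z w : E) : ‖I.T z - I.T w‖ ≤ 3 * ‖z - w‖ := by
  simpa using I.lipschitz.norm_sub_le z w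

theorem norm_M_le (z : E) : ‖I.M z‖ ≤ 3 := by
  exact_mod_cast norm_fderiv_le_of_lipschitz ℝ I.lipschitz

variable [CompleteSpace F]

theorem exists_left_bound (hF : SmoothNorm F) : ∃ δ > (0 : ℝ), ∀ z : E, z ≠ 0 → ∀ x : F,
    ∃ c : E, (‖c‖ = 1 ∨ c = 0) ∧ δ * ‖z‖ ≤ ‖z - ‖z‖ • c‖ ∧
      (1 / 16 : ℝ) * ‖x‖ ≤ |chordD (I.T c) (I.T z) x| := by
  obtain ⟨δ, hδ, -, h⟩ := exists_select (G := F) hF
  refine ⟨δ, hδ, fun z hz x => ?_⟩
  obtain ⟨c, hc, hcδ, hcx⟩ := h (I.T z) x (I.T_ne hz)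
  have hc' : ‖I.S c‖ = 1 ∨ I.S c = 0 := by
    rcases hc with hc | rfl
    · left; rw [← I.norm_T, I.right_inv, hc]
    · right; exact I.symm.T_zero
  refine ⟨I.S c, hc', ?_, by rwa [I.right_inv]⟩
  rw [← I.chord_eq hc', I.right_inv]
  rwa [I.norm_T] at hcδ ⊢

theorem taylor_T (hE : SmoothNorm E) (hF : SmoothNorm F) : ∃ K η : ℝ, 0 ≤ K ∧ 0 < η ∧
    ∀ z : E, 1 / 2 ≤ ‖z‖ → DifferentiableAt ℝ I.T z ∧
      ∀ h : E, ‖h‖ ≤ η → ‖I.T (z + h) - I.T z - I.M z h‖ ≤ K * ‖h‖ ^ 2 := by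
  obtain ⟨δ, hδ, hsel⟩ := I.exists_left_bound hF
  obtain ⟨K₁, η₁, hK₁, hη₁, t1⟩ := chord_taylor hE (half_pos hδ)
  obtain ⟨K₂, η₂, hK₂, hη₂, t2⟩ := chord_taylor hF (half_pos hδ)
  refine ⟨16 * (K₁ + 9 * K₂), min η₁ (η₂ / 3), by positivity, by positivity, fun z hz => ?_⟩
  have hz0 : z ≠ 0 := norm_pos_iff.1 (by linarith)
  let ι := {c : E // (‖c‖ = 1 ∨ c = 0) ∧ δ / 2 ≤ ‖z - ‖z‖ • c‖}
  have hA : ∀ x : F, ∃ c : ι, (1 / 16 : ℝ) * ‖x‖ ≤ |chordD (I.T c.1) (I.T z) x| := by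
    intro x
    obtain ⟨c, hc, hcd, hcx⟩ := hsel z hz0 x
    exact ⟨⟨c, hc, by nlinarith⟩, hcx⟩
  have hrem : ∀ h : E, ‖h‖ ≤ min η₁ (η₂ / 3) → ∀ c : ι,
      |chordD (I.T c.1) (I.T z) (I.T (z + h) - I.T z) - chordD c.1 z h|
        ≤ (K₁ + 9 * K₂) * ‖h‖ ^ 2 := by
    intro h hh c
    obtain ⟨c, hc, hcd⟩ := c
    obtain ⟨hc1, hc2⟩ := I.norm_le_one hc
    have a1 := (t1 c z h hc1 hz hcd (hh.trans (min_le_left _ _))).1
    have hd := I.lip3 (z + h) z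
    rw [add_sub_cancel_left] at hd
    have a2 := (t2 (I.T c) (I.T z) (I.T (z + h) - I.T z) hc2 (by rw [I.norm_T]; exact hz)
      (by rw [I.chord_eq hc]; exact hcd) (by linarith [hh.trans (min_le_right _ _)])).1
    rw [add_sub_cancel, I.chord_eq hc, I.chord_eq hc] at a2
    have h3 : ‖I.T (z + h) - I.T z‖ ^ 2 ≤ 9 * ‖h‖ ^ 2 := by nlinarith [norm_nonneg (I.T (z + h) - I.T z)]
    have h4 := mul_le_mul_of_nonneg_left h3 hK₂
    simp only
    rw [abs_le] at a1 a2 ⊢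
    constructor <;> linarith
  obtain ⟨Λ, hΛ, hb⟩ := deriv_of_family (fun c : ι => chordD (I.T c.1) (I.T z))
    (by norm_num : (0:ℝ) < 1 / 16) hA I.T z (fun c => chordD c.1 z) (K := 3) (η₀ := 1) one_pos
    (fun h _ => by simpa using I.lip3 (z + h) z) (fun ε hε => ⟨min (min η₁ (η₂ / 3))
      (ε / (K₁ + 9 * K₂ + 1)), by positivity, fun h hh c => by
        refine (hrem h (hh.trans (min_le_left _ _)) c).trans ?_
        have h1 := hh.trans (min_le_right _ _)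
        rw [le_div_iff₀ (by positivity)] at h1
        nlinarith [norm_nonneg h]⟩)
  refine ⟨hΛ.differentiableAt, fun h hh => ?_⟩
  rw [show I.M z = Λ from hΛ.fderiv]
  exact (hb h _ (hrem h hh)).trans (le_of_eq (by ring))

theorem differentiableAt (hE : SmoothNorm E) (hF : SmoothNorm F) {z : E} (hz : z ≠ 0) :
    DifferentiableAt ℝ I.T z := by
  obtain ⟨K, η, -, -, h⟩ := I.taylor_T hE hF
  have hn := norm_pos_iff.2 hz
  have h1 := (h (‖z‖⁻¹ • z) (by rw [norm_normalize hz]; norm_num)).1.hasFDerivAt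
  have h2 := (h1.comp z ((hasFDerivAt_id z).const_smul (‖z‖⁻¹))).const_smul ‖z‖
  refine (h2.congr_of_eventuallyEq (Eventually.of_forall fun x => ?_)).differentiableAt
  simp only [Function.comp_apply, Pi.smul_apply, id_eq]
  rw [I.smul_T _ _ (inv_nonneg.2 hn.le), smul_smul, mul_inv_cancel₀ hn.ne', one_smul]

theorem chord_id (hE : SmoothNorm E) (hF : SmoothNorm F) {z c : E} (hz : z ≠ 0) (hc : ‖c‖ = 1 ∨ c = 0)
    (hv : z - ‖z‖ • c ≠ 0) (x : E) :
    chordD (I.T c) (I.T z) (I.M z x) = chordD c z x := by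
  have hv' : I.T z - ‖I.T z‖ • I.T c ≠ 0 := by
    rw [← norm_pos_iff, I.chord_eq hc]; exact norm_pos_iff.2 hv
  have h1 := (hasFDerivAt_chord hF (I.T_ne hz) hv').comp z
    (I.differentiableAt hE hF hz).hasFDerivAt
  have h2 := (hasFDerivAt_chord hE hz hv).congr_of_eventuallyEq
    (f₁ := fun y => ‖I.T y - ‖I.T y‖ • I.T c‖) (Eventually.of_forall fun y => I.chord_eq hc)
  exact congrArg (fun L : E →L[ℝ] ℝ => L x) (h1.unique h2)

theorem chord_split (hE : SmoothNorm E) (hF : SmoothNorm F) {z h c : E} (hz : z ≠ 0) (hzh : z + h ≠ 0)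
    (hc : ‖c‖ = 1 ∨ c = 0) (hv : z - ‖z‖ • c ≠ 0) (hv' : z + h - ‖z + h‖ • c ≠ 0) (x : E) :
    chordD (I.T c) (I.T z) (I.M (z + h) x - I.M z x) = (chordD c (z + h) x - chordD c z x)
      - (chordD (I.T c) (I.T (z + h)) (I.M (z + h) x)
        - chordD (I.T c) (I.T z) (I.M (z + h) x)) := by
  rw [map_sub, I.chord_id hE hF hz hc hv, I.chord_id hE hF hzh hc hv']
  ring

theorem lip_M (hE : SmoothNorm E) (hF : SmoothNorm F) : ∃ K η : ℝ, 0 ≤ K ∧ 0 < η ∧ ∀ z h : E, 1 / 2 ≤ ‖z‖ →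
    ‖h‖ ≤ η → ‖I.M (z + h) - I.M z‖ ≤ K * ‖h‖ := by
  obtain ⟨δ, hδ, hsel⟩ := I.exists_left_bound hF
  obtain ⟨K₁, η₁, hK₁, hη₁, t1⟩ := chord_taylor hE (half_pos hδ)
  obtain ⟨K₂, η₂, hK₂, hη₂, t2⟩ := chord_taylor hF (half_pos hδ)
  refine ⟨16 * (K₁ + 9 * K₂), min (min η₁ (η₂ / 3)) (min (1 / 4) (δ / 8)), by positivity,
    by positivity, fun z h hz hh => ?_⟩
  simp only [le_min_iff] at hh
  refine ContinuousLinearMap.opNorm_le_bound _ (by positivity) fun x => ?_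
  have hz0 : z ≠ 0 := norm_pos_iff.1 (by linarith)
  have hzh : z + h ≠ 0 := by
    have h2 := norm_sub_norm_le z (-h)
    rw [sub_neg_eq_add, norm_neg] at h2
    exact norm_pos_iff.1 (by linarith)
  obtain ⟨c, hc, hcd, hcx⟩ := hsel z hz0 (I.M (z + h) x - I.M z x)
  obtain ⟨hc1, hc2⟩ := I.norm_le_one hc
  have hcd' : δ / 2 ≤ ‖z - ‖z‖ • c‖ := by nlinarith
  have hlow := chord_lower (z := z) (h := h) hc1
  rw [I.chord_split hE hF hz0 hzh hc (norm_pos_iff.1 (by linarith))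
    (norm_pos_iff.1 (by linarith))] at hcx
  have a1 := (t1 c z h hc1 hz hcd' hh.1.1).2
  have hd := I.lip3 (z + h) z
  rw [add_sub_cancel_left] at hd
  have a2 := (t2 (I.T c) (I.T z) (I.T (z + h) - I.T z) hc2 (by rw [I.norm_T]; exact hz)
    (by rw [I.chord_eq hc]; exact hcd') (by linarith)).2
  rw [add_sub_cancel] at a2
  have b1 := (chordD c (z + h) - chordD c z).le_of_opNorm_le a1 x
  have b2 := (chordD (I.T c) (I.T (z + h)) - chordD (I.T c) (I.T z)).le_of_opNorm_le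
    (a2.trans (mul_le_mul_of_nonneg_left hd hK₂)) (I.M (z + h) x)
  have b3 := (I.M (z + h)).le_of_opNorm_le (I.norm_M_le _) x
  have b4 := mul_le_mul_of_nonneg_left b3 (by positivity : 0 ≤ K₂ * (3 * ‖h‖))
  simp only [sub_apply, Real.norm_eq_abs] at b1 b2
  have := hcx.trans (abs_sub _ _)
  rw [sub_apply]
  linarith

/-- Derivative of the derivative. -/
noncomputable abbrev M2 (z : E) : E →L[ℝ] E →L[ℝ] F := fderiv ℝ I.M z

theorem taylor_M (hE : UC2 E) (hF : UC2 F) :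
    (∀ z : E, 1 / 2 ≤ ‖z‖ → HasFDerivAt I.M (I.M2 z) z) ∧
    ∀ ε > (0 : ℝ), ∃ η > (0 : ℝ), ∀ z h : E, 1 / 2 ≤ ‖z‖ → ‖h‖ ≤ η →
      ‖I.M (z + h) - I.M z - I.M2 z h‖ ≤ ε * ‖h‖ := by
  obtain ⟨δ, hδ, hsel⟩ := I.exists_left_bound hF.smooth
  obtain ⟨KM, ηM, hKM, hηM, lM⟩ := I.lip_M hE.smooth hF.smooth
  obtain ⟨KT, ηT, hKT, hηT, tT⟩ := I.taylor_T hE.smooth hF.smooth
  obtain ⟨KE, -, -, tE⟩ := chord_taylor2 hE (half_pos hδ)
  obtain ⟨KF, hKF, bF, tF⟩ := chord_taylor2 hF (half_pos hδ)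
  obtain ⟨K₂, η₂, hK₂, hη₂, lF⟩ := chord_taylor hF.smooth (half_pos hδ)
  have step : ∀ ε > (0 : ℝ), ∃ η > (0 : ℝ), ∀ z h c x : E, 1 / 2 ≤ ‖z‖ → ‖h‖ ≤ η →
      (‖c‖ = 1 ∨ c = 0) → δ / 2 ≤ ‖z - ‖z‖ • c‖ →
      |chordD (I.T c) (I.T z) (I.M (z + h) x - I.M z x) - (chordD2 c z x h
        - chordD2 (I.T c) (I.T z) (I.M z x) (I.M z h))| ≤ ε * ‖x‖ * ‖h‖ := by
    intro ε hε
    obtain ⟨η₁, hη₁, e1⟩ := tE (ε / 3) (by positivity)
    obtain ⟨η₃, hη₃, e3⟩ := tF (ε / 27) (by positivity)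
    set Q := 3 * K₂ * KM + 3 * KF * KT + 1
    refine ⟨min (min η₁ (η₃ / 3)) (min (min ηT ηM) (min (η₂ / 3) (min (min (1 / 4) (δ / 8))
      (ε / (3 * Q))))), by positivity, fun z h c x hz hh hc hcd => ?_⟩
    simp only [le_min_iff] at hh
    obtain ⟨⟨hh1, hh2⟩, ⟨hh3, hh4⟩, hh5, ⟨hh6, hh7⟩, hh8⟩ := hh
    have hz0 : z ≠ 0 := norm_pos_iff.1 (by linarith)
    have hzh : z + h ≠ 0 := by
      have h2 := norm_sub_norm_le z (-h)
      rw [sub_neg_eq_add, norm_neg] at h2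
      exact norm_pos_iff.1 (by linarith)
    obtain ⟨hc1, hc2⟩ := I.norm_le_one hc
    have hlow := chord_lower (z := z) (h := h) hc1
    rw [I.chord_split hE.smooth hF.smooth hz0 hzh hc (norm_pos_iff.1 (by linarith))
      (norm_pos_iff.1 (by linarith))]
    set Δ := I.T (z + h) - I.T z with hΔ
    set c' := I.T c
    set y := I.T z
    have hy : I.T (z + h) = y + Δ := by simp [hΔ, y]
    have hΔn : ‖Δ‖ ≤ 3 * ‖h‖ := by simpa [hΔ] using I.lip3 (z + h) z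
    have hyn : 1 / 2 ≤ ‖y‖ := by simp only [y, I.norm_T]; exact hz
    have hcy : δ / 2 ≤ ‖y - ‖y‖ • c'‖ := by simp only [y, c', I.chord_eq hc]; exact hcd
    rw [hy]
    have a1 := e1 c z x h hc1 hz hcd hh1
    have a2 := e3 c' y (I.M z x) Δ hc2 hyn hcy (by linarith)
    have a3 := (lF c' y Δ hc2 hyn hcy (by linarith)).2
    have a4 : ‖I.M (z + h) x - I.M z x‖ ≤ KM * ‖h‖ * ‖x‖ := by
      simpa using (I.M (z + h) - I.M z).le_of_opNorm_le (lM z h hz hh4) x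
    have a5 := (tT z hz).2 h hh3
    have hMx := (I.M z).le_of_opNorm_le (I.norm_M_le z) x
    have b3 : |(chordD c' (y + Δ) - chordD c' y) (I.M (z + h) x - I.M z x)|
        ≤ K₂ * (3 * ‖h‖) * (KM * ‖h‖ * ‖x‖) :=
      ((chordD c' (y + Δ) - chordD c' y).le_opNorm _).trans (mul_le_mul
        (a3.trans (mul_le_mul_of_nonneg_left hΔn hK₂)) a4 (norm_nonneg _) (by positivity))
    have b5 : |chordD2 c' y (I.M z x) (Δ - I.M z h)| ≤ KF * (3 * ‖x‖) * (KT * ‖h‖ ^ 2) := by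
      refine (bF c' y _ _ hc2 hyn hcy).trans ?_
      rw [← hΔ] at a5
      gcongr
    have b2 : ε / 27 * ‖I.M z x‖ * ‖Δ‖ ≤ ε / 27 * (3 * ‖x‖) * (3 * ‖h‖) := by gcongr
    have h8 : Q * ‖h‖ ≤ ε / 3 := by rw [le_div_iff₀ (by positivity)] at hh8; linarith
    have h9 := mul_le_mul_of_nonneg_right h8 (mul_nonneg (norm_nonneg x) (norm_nonneg h))
    have h10 : 0 ≤ ‖h‖ * (‖x‖ * ‖h‖) := by positivity
    simp only [Q] at h9
    have e : (chordD c (z + h) x - chordD c z x) - (chordD c' (y + Δ) (I.M (z + h) x)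
          - chordD c' y (I.M (z + h) x)) - (chordD2 c z x h - chordD2 c' y (I.M z x) (I.M z h))
        = (chordD c (z + h) x - chordD c z x - chordD2 c z x h)
          - (chordD c' (y + Δ) (I.M z x) - chordD c' y (I.M z x) - chordD2 c' y (I.M z x) Δ)
          - (chordD c' (y + Δ) - chordD c' y) (I.M (z + h) x - I.M z x)
          - chordD2 c' y (I.M z x) (Δ - I.M z h) := by
      simp only [map_sub, sub_apply]; ring
    rw [e]
    refine (abs_sub _ _).trans ?_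
    refine (add_le_add ((abs_sub _ _).trans (add_le_add (abs_sub _ _) le_rfl)) le_rfl).trans ?_
    linarith
  have hder : ∀ z : E, 1 / 2 ≤ ‖z‖ → ∃ Λ : E →L[ℝ] E →L[ℝ] F, HasFDerivAt I.M Λ z ∧
      ∀ (h : E) (r : ℝ), (∀ c x : E, (‖c‖ = 1 ∨ c = 0) → δ / 2 ≤ ‖z - ‖z‖ • c‖ → ‖x‖ ≤ 1 →
        |chordD (I.T c) (I.T z) (I.M (z + h) x - I.M z x) - (chordD2 c z x h
          - chordD2 (I.T c) (I.T z) (I.M z x) (I.M z h))| ≤ r) →
        ‖I.M (z + h) - I.M z - Λ h‖ ≤ r / (1 / 32) := by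
    intro z hz
    have hz0 : z ≠ 0 := norm_pos_iff.1 (by linarith)
    let ι := {c : E // (‖c‖ = 1 ∨ c = 0) ∧ δ / 2 ≤ ‖z - ‖z‖ • c‖} × {x : E // ‖x‖ ≤ 1}
    let A : ι → (E →L[ℝ] F) →L[ℝ] ℝ := fun i =>
      (chordD (I.T i.1.1) (I.T z)).comp (ContinuousLinearMap.apply ℝ F i.2.1)
    have hA : ∀ T : E →L[ℝ] F, ∃ i, (1 / 32 : ℝ) * ‖T‖ ≤ |A i T| := by
      intro T
      have hx : ∃ x : E, ‖x‖ ≤ 1 ∧ ‖T‖ / 2 ≤ ‖T x‖ := by
        rcases eq_or_ne ‖T‖ 0 with h0 | h0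
        · exact ⟨0, by simp, by simp [h0]⟩
        have hlt : ‖T‖ / 2 < ‖T‖ := half_lt_self (lt_of_le_of_ne (norm_nonneg _) (Ne.symm h0))
        obtain ⟨x, hx1, hx2⟩ := T.exists_lt_apply_of_lt_opNorm hlt
        exact ⟨x, hx1.le, hx2.le⟩
      obtain ⟨x, hx1, hx2⟩ := hx
      obtain ⟨c, hc, hcd, hcx⟩ := hsel z hz0 (T x)
      refine ⟨(⟨c, hc, by nlinarith⟩, ⟨x, hx1⟩), ?_⟩
      simp only [A, ContinuousLinearMap.comp_apply, ContinuousLinearMap.apply_apply]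
      linarith
    let R : ι → E →L[ℝ] ℝ := fun i => chordD2 i.1.1 z i.2.1
      - (chordD2 (I.T i.1.1) (I.T z) (I.M z i.2.1)).comp (I.M z)
    obtain ⟨Λ, hΛ, hb⟩ := deriv_of_family A (by norm_num : (0:ℝ) < 1 / 32) hA I.M z R hηM
      (lM z · hz) (fun ε hε => by
        obtain ⟨η, hη, hs⟩ := step ε hε
        refine ⟨η, hη, fun h hh i => ?_⟩
        refine le_trans (le_of_eq ?_) ((hs z h i.1.1 i.2.1 hz hh i.1.2.1 i.1.2.2).trans ?_)
        · simp [A, R]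
        · refine mul_le_mul_of_nonneg_right ?_ (norm_nonneg h)
          exact mul_le_of_le_one_right hε.le i.2.2)
    refine ⟨Λ, hΛ, fun h r hr => hb h r fun i => ?_⟩
    refine le_trans (le_of_eq ?_) (hr i.1.1 i.2.1 i.1.2.1 i.1.2.2 i.2.2)
    simp [A, R]
  refine ⟨fun z hz => ?_, fun ε hε => ?_⟩
  · obtain ⟨Λ, hΛ, -⟩ := hder z hz
    exact hΛ.differentiableAt.hasFDerivAt
  obtain ⟨η, hη, hs⟩ := step (ε / 32) (by positivity)
  refine ⟨η, hη, fun z h hz hh => ?_⟩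
  obtain ⟨Λ, hΛ, hb⟩ := hder z hz
  rw [show I.M2 z = Λ from hΛ.fderiv]
  refine (hb h (ε / 32 * ‖h‖) fun c x hc hcd hx =>
    (hs z h c x hz hh hc hcd).trans ?_).trans (le_of_eq (by ring))
  exact mul_le_mul_of_nonneg_right (mul_le_of_le_one_right (by positivity) hx) (norm_nonneg h)

theorem continuousAt_M2 (hE : UC2 E) (hF : UC2 F) {a : E} (ha : ‖a‖ = 1) :
    ContinuousAt I.M2 a := by
  obtain ⟨KM, ηM, hKM, hηM, lM⟩ := I.lip_M hE.smooth hF.smooth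
  obtain ⟨-, ht⟩ := I.taylor_M hE hF
  refine (Metric.continuousAt_iff (f := fun z => I.M2 z)).2 fun ε hε => ?_
  obtain ⟨η₀, hη₀, hr⟩ := ht (ε / 8) (by positivity)
  set η := min η₀ (min ηM (1 / 8))
  have hη : 0 < η := by positivity
  refine ⟨min (η * ε / (8 * (KM + 1))) (min η (1 / 8)), by positivity, fun {z} hz => ?_⟩
  rw [dist_eq_norm] at hz
  simp only [lt_min_iff] at hz
  rw [dist_eq_norm (I.M2 z) (I.M2 a)]
  have hzn : 3 / 4 ≤ ‖z‖ := by
    have := norm_sub_norm_le a z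
    rw [norm_sub_rev a z, ha] at this
    linarith
  refine lt_of_le_of_lt ?_ (half_lt_self hε)
  refine ContinuousLinearMap.opNorm_le_bound _ (by positivity) fun w => ?_
  rcases eq_or_ne w 0 with rfl | hw
  · simp
  have hwn := norm_pos_iff.2 hw
  set h := (η / ‖w‖) • w with hh
  have hhn : ‖h‖ = η := by
    rw [hh, norm_smul, Real.norm_of_nonneg (by positivity)]; field_simp
  have hah : 1 / 2 ≤ ‖a + h‖ := by
    have h2 := norm_sub_norm_le a (-h)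
    rw [sub_neg_eq_add, norm_neg, ha, hhn] at h2
    have : η ≤ 1 / 8 := (min_le_right _ _).trans (min_le_right _ _)
    linarith
  have r1 := hr z h (by linarith) (hhn.le.trans (min_le_left _ _))
  have r2 := hr a h (by rw [ha]; norm_num) (hhn.le.trans (min_le_left _ _))
  have hza : ‖z - a‖ ≤ ηM := hz.2.1.le.trans ((min_le_right _ _).trans (min_le_left _ _))
  have l1 := lM a (z - a) (by rw [ha]; norm_num) hza
  have l2 := lM (a + h) (z - a) hah hza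
  rw [add_sub_cancel] at l1
  rw [show a + h + (z - a) = z + h by abel] at l2
  have e : (I.M2 z - I.M2 a) h = (I.M (z + h) - I.M (a + h)) - (I.M z - I.M a)
      - (I.M (z + h) - I.M z - I.M2 z h) + (I.M (a + h) - I.M a - I.M2 a h) := by
    rw [sub_apply]; abel
  have b : ‖(I.M2 z - I.M2 a) h‖ ≤ ε / 2 * η := by
    rw [e]
    refine (norm_add_le _ _).trans ((add_le_add ((norm_sub_le _ _).trans
      (add_le_add (norm_sub_le _ _) le_rfl)) le_rfl).trans ?_)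
    rw [hhn] at r1 r2
    have h3 : KM * ‖z - a‖ ≤ η * ε / 8 := by
      have h4 := hz.1.le
      rw [le_div_iff₀ (by positivity)] at h4
      linarith [norm_nonneg (z - a)]
    linarith
  have e2 : w = (‖w‖ / η) • h := by
    rw [hh, smul_smul]; field_simp; simp
  conv_lhs => rw [e2, map_smul, norm_smul, Real.norm_of_nonneg (by positivity)]
  refine (mul_le_mul_of_nonneg_left b (by positivity)).trans (le_of_eq ?_)
  field_simp

end SphereIso

end Vale.Agent.P084.Sm
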